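import Vale.Agent.P297.MathlibUsed
import Vale.Agent.P297.Defs
import Vale.Agent.P297.DihedralDefs

set_option linter.all false

section

section

open IsDedekindDomain

namespace Vale.Agent.P297

namespace Place

variable {E : Type*} [Field E] (v w : Place E)

instance instDVR : IsDiscreteValuationRing v.ring := v.dvr

/-- The multiplicative valuation of a place. -/
noncomputable def val : Valuation E (WithZero (Multiplicative ℤ)) :=
  (IsDiscreteValuationRing.maximalIdeal v.ring).valuation E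

theorem ord_eq (u : E) : v.ord u = - WithZero.log (v.val u) := by
  unfold ord val
  rw [Ring.ordFrac_eq_valuation_inv, WithZero.log_inv]

theorem mem_ring_iff (x : E) : x ∈ v.ring ↔ v.val x ≤ 1 := by
  constructor
  · intro h
    exact (IsDiscreteValuationRing.maximalIdeal v.ring).valuation_le_one (⟨x, h⟩ : v.ring)
  · intro h
    obtain ⟨a, ha⟩ := IsDiscreteValuationRing.exists_lift_of_le_one h
    rw [← ha]
    exact a.2

theorem val_eq (x : E) (hx : x ≠ 0) : v.val x = WithZero.exp (- v.ord x) := by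
  rw [ord_eq, neg_neg, WithZero.exp_log]
  exact (Valuation.ne_zero_iff _).2 hx

@[simp] theorem ord_zero : v.ord 0 = 0 := by simp [ord_eq]

@[simp] theorem ord_one : v.ord 1 = 0 := by simp [ord_eq]

theorem ord_mul {x y : E} (hx : x ≠ 0) (hy : y ≠ 0) : v.ord (x * y) = v.ord x + v.ord y := by
  rw [ord_eq, ord_eq, ord_eq, map_mul, WithZero.log_mul]
  · ring
  · exact (Valuation.ne_zero_iff _).2 hx
  · exact (Valuation.ne_zero_iff _).2 hy

@[simp] theorem ord_inv (x : E) : v.ord x⁻¹ = - v.ord x := by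
  rw [ord_eq, ord_eq, map_inv₀, WithZero.log_inv]

theorem ord_div {x y : E} (hx : x ≠ 0) (hy : y ≠ 0) : v.ord (x / y) = v.ord x - v.ord y := by
  rw [div_eq_mul_inv, ord_mul _ hx (inv_ne_zero hy), ord_inv, sub_eq_add_neg]

@[simp] theorem ord_neg (x : E) : v.ord (-x) = v.ord x := by
  rw [ord_eq, ord_eq, Valuation.map_neg]

theorem ord_pow (x : E) (n : ℕ) : v.ord (x ^ n) = n * v.ord x := by
  rw [ord_eq, ord_eq, map_pow, WithZero.log_pow]
  simp

theorem ord_nonneg_iff {x : E} (hx : x ≠ 0) : 0 ≤ v.ord x ↔ x ∈ v.ring := by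
  rw [mem_ring_iff, val_eq v x hx, ← WithZero.exp_zero, WithZero.exp_le_exp]
  omega

theorem ord_pos_iff_val {x : E} (hx : x ≠ 0) : 0 < v.ord x ↔ v.val x < 1 := by
  rw [val_eq v x hx, ← WithZero.exp_zero, WithZero.exp_lt_exp]
  omega

theorem ord_nonneg_of_mem {x : E} (h : x ∈ v.ring) : 0 ≤ v.ord x := by
  by_cases hx : x = 0
  · simp [hx]
  · exact (v.ord_nonneg_iff hx).2 h

theorem ord_pos_of_inv_notMem {x : E} (h : x⁻¹ ∉ v.ring) : 0 < v.ord x := by
  have hx : x ≠ 0 := by
    rintro rfl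
    exact h (by simp [v.ring.zero_mem])
  by_contra hc
  apply h
  rw [← v.ord_nonneg_iff (inv_ne_zero hx), ord_inv]
  omega

theorem ord_eq_zero_iff {x : E} (hx : x ≠ 0) : v.ord x = 0 ↔ x ∈ v.ring ∧ x⁻¹ ∈ v.ring := by
  rw [← v.ord_nonneg_iff hx, ← v.ord_nonneg_iff (inv_ne_zero hx), ord_inv]
  omega

theorem min_ord_le_add {x y : E} (hx : x ≠ 0) (hy : y ≠ 0) (hxy : x + y ≠ 0) :
    min (v.ord x) (v.ord y) ≤ v.ord (x + y) := by
  have h := v.val.map_add x y
  rw [val_eq v _ hx, val_eq v _ hy, val_eq v _ hxy, le_max_iff, WithZero.exp_le_exp,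
    WithZero.exp_le_exp] at h
  rw [min_le_iff]
  omega

theorem ord_add_eq_of_lt {x y : E} (hx : x ≠ 0) (hy : y ≠ 0) (h : v.ord x < v.ord y) :
    v.ord (x + y) = v.ord x := by
  have hlt : v.val y < v.val x := by
    rw [val_eq v _ hx, val_eq v _ hy, WithZero.exp_lt_exp]
    omega
  have := v.val.map_add_eq_of_lt_left hlt
  rw [ord_eq, ord_eq, this]

theorem exists_ord_eq_one : ∃ x : E, x ≠ 0 ∧ v.ord x = 1 := by
  obtain ⟨π, hπ⟩ := (IsDiscreteValuationRing.maximalIdeal v.ring).valuation_exists_uniformizer E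
  have h0 : π ≠ 0 := by
    rintro rfl
    rw [map_zero] at hπ
    exact WithZero.coe_ne_zero hπ.symm
  refine ⟨π, h0, ?_⟩
  rw [ord_eq]
  unfold val
  rw [hπ]
  simp

variable {v w}

theorem ext' (h : v.ring = w.ring) : v = w := by
  cases v; cases w; cases h; rfl

theorem ring_ne_top (v : Place E) : v.ring ≠ ⊤ := by
  intro h
  obtain ⟨x, hx, h1⟩ := v.exists_ord_eq_one
  have h2 : x⁻¹ ∈ v.ring := by rw [h]; exact ValuationSubring.mem_top _
  rw [← v.ord_nonneg_iff (inv_ne_zero hx), ord_inv] at h2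
  omega

theorem eq_of_le' (h : v.ring ≤ w.ring) : v = w :=
  ext' (ValuationSubring.eq_of_le_of_ne_top v.ring h w.ring_ne_top)

/-- If `w` dominates the uniformizer condition -/
theorem ring_eq_of_le {V : ValuationSubring E} (h : v.ring ≤ V) (hV : V ≠ ⊤) : v.ring = V :=
  ValuationSubring.eq_of_le_of_ne_top v.ring h hV

end Place

end Vale.Agent.P297
end
end

section

section

open IsDedekindDomain

namespace Vale.Agent.P297

namespace Place

section Dedekind
variable {B E : Type*} [CommRing B] [IsDedekindDomain B] [Field E] [Algebra B E] [IsFractionRing B E]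

theorem dvr_of_prime (Q : HeightOneSpectrum B) :
    IsDiscreteValuationRing (Q.valuation E).valuationSubring := by
  infer_instance

variable (E) in
/-- The place attached to a nonzero prime of a Dedekind domain. -/
noncomputable def ofPrime (Q : HeightOneSpectrum B) : Place E :=
  ⟨(Q.valuation E).valuationSubring, dvr_of_prime Q⟩

theorem mem_ofPrime_iff (Q : HeightOneSpectrum B) (x : E) :
    x ∈ (ofPrime E Q).ring ↔ Q.valuation E x ≤ 1 := Iff.rfl

theorem ofPrime_ord_eq_zero (Q : HeightOneSpectrum B) {x : E} (hx : Q.valuation E x = 1) :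
    (ofPrime E Q).ord x = 0 := by
  have h0 : x ≠ 0 := by
    rintro rfl
    rw [map_zero] at hx
    exact zero_ne_one hx
  rw [ord_eq_zero_iff _ h0, mem_ofPrime_iff, mem_ofPrime_iff, map_inv₀, hx]
  simp

theorem ofPrime_ord (Q : HeightOneSpectrum B) (x : E) :
    (ofPrime E Q).ord x = - WithZero.log (Q.valuation E x) := by
  by_cases hx0 : x = 0
  · simp [hx0]
  obtain ⟨π, hπ⟩ := Q.valuation_exists_uniformizer E
  have h0 : π ≠ 0 := by
    rintro rfl
    rw [map_zero] at hπ
    exact WithZero.coe_ne_zero hπ.symm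
  have key : ∀ y : E, y ≠ 0 →
      (ofPrime E Q).ord y = (- WithZero.log (Q.valuation E y)) * (ofPrime E Q).ord π := by
    intro y hy
    have hy' : Q.valuation E y ≠ 0 := (Valuation.ne_zero_iff _).2 hy
    set n : ℤ := - WithZero.log (Q.valuation E y) with hn
    have hvy : Q.valuation E y = WithZero.exp (-n) := by
      rw [hn, neg_neg, WithZero.exp_log hy']
    have hu : Q.valuation E (y * π ^ (-n)) = 1 := by
      rw [map_mul, map_zpow₀, hvy, hπ]
      change WithZero.exp (-n) * (WithZero.exp (-1)) ^ (-n) = 1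
      rw [← WithZero.exp_zsmul, ← WithZero.exp_add]
      simp
    have h1 := ofPrime_ord_eq_zero Q hu
    have hpow : ∀ m : ℤ, (ofPrime E Q).ord (π ^ m) = m * (ofPrime E Q).ord π := by
      intro m
      obtain ⟨k, rfl | rfl⟩ := m.eq_nat_or_neg
      · rw [zpow_natCast, ord_pow]
      · rw [zpow_neg, zpow_natCast, ord_inv, ord_pow]
        ring
    rw [ord_mul _ hy (zpow_ne_zero _ h0), hpow] at h1
    linarith
  have hπ1 : (ofPrime E Q).ord π = 1 := by
    obtain ⟨z, hz, hz1⟩ := (ofPrime E Q).exists_ord_eq_one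
    have h2 := key z hz
    rw [hz1] at h2
    have h3 : 0 ≤ (ofPrime E Q).ord π := by
      rw [ord_nonneg_iff _ h0, mem_ofPrime_iff, hπ]
      change WithZero.exp (-1) ≤ 1
      rw [← WithZero.exp_zero, WithZero.exp_le_exp]
      omega
    exact Int.eq_one_of_mul_eq_one_left h3 h2.symm
  rw [key x hx0, hπ1, mul_one]

theorem ofPrime_ord_algebraMap_pos (Q : HeightOneSpectrum B) {b : B} (hb : b ≠ 0) :
    0 < (ofPrime E Q).ord (algebraMap B E b) ↔ b ∈ Q.asIdeal := by
  have hb' : algebraMap B E b ≠ 0 := by simpa using hb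
  have hv : Q.valuation E (algebraMap B E b) ≠ 0 := (Valuation.ne_zero_iff _).2 hb'
  rw [ofPrime_ord, ← HeightOneSpectrum.valuation_lt_one_iff_mem (K := E) Q b]
  rw [← WithZero.exp_log hv, ← WithZero.exp_zero, WithZero.exp_lt_exp, WithZero.log_exp]
  omega

theorem ofPrime_mem_algebraMap (Q : HeightOneSpectrum B) (b : B) :
    algebraMap B E b ∈ (ofPrime E Q).ring :=
  Q.valuation_le_one b

theorem ofPrime_injective : Function.Injective (ofPrime E : HeightOneSpectrum B → Place E) := by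
  intro P Q h
  ext b
  by_cases hb : b = 0
  · simp [hb]
  · rw [← ofPrime_ord_algebraMap_pos (E := E) P hb, h, ofPrime_ord_algebraMap_pos Q hb]

/-- A proper valuation subring containing a Dedekind domain with the same fraction field comes
from a unique prime. -/
theorem exists_ofPrime (V : ValuationSubring E) (hB : ∀ b : B, algebraMap B E b ∈ V)
    (hV : V ≠ ⊤) : ∃ Q : HeightOneSpectrum B, (ofPrime E Q).ring = V := by
  let φ : B →+* V := (algebraMap B E).codRestrict V hB
  have hφ : ∀ b, ((φ b : V) : E) = algebraMap B E b := fun b => rfl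
  let P : Ideal B := (IsLocalRing.maximalIdeal V).comap φ
  have hPp : P.IsPrime := inferInstance
  have hmem : ∀ b : B, b ∉ P → b ≠ 0 → (algebraMap B E b)⁻¹ ∈ V := by
    intro b hb hb0
    have hu : IsUnit (φ b) := by
      by_contra hc
      exact hb ((IsLocalRing.mem_maximalIdeal _).2 hc)
    obtain ⟨u, hu⟩ := hu
    have h1 : ((u⁻¹ : Vˣ) : V) * φ b = 1 := by rw [← hu]; simp
    have h2 : (((u⁻¹ : Vˣ) : V) : E) * algebraMap B E b = 1 := by
      have := congrArg (fun z : V => (z : E)) h1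
      simpa [hφ] using this
    rw [← eq_inv_of_mul_eq_one_left h2]
    exact ((u⁻¹ : Vˣ) : V).2
  have hP0 : P ≠ ⊥ := by
    intro h0
    apply hV
    rw [eq_top_iff]
    intro x _
    obtain ⟨a, b, hb, rfl⟩ := IsFractionRing.div_surjective (A := B) x
    have hb0 : b ≠ 0 := nonZeroDivisors.ne_zero hb
    rw [div_eq_mul_inv]
    exact V.mul_mem _ _ (hB a) (hmem b (by rw [h0]; simpa using hb0) hb0)
  let Q : HeightOneSpectrum B := ⟨P, hPp, hP0⟩
  refine ⟨Q, ring_eq_of_le ?_ hV⟩
  intro x hx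
  rw [mem_ofPrime_iff] at hx
  obtain ⟨n, d, hnd⟩ := Q.exists_primeCompl_mul_eq_of_integer x hx
  have hd : (d : B) ∉ P := d.2
  have hd0 : (d : B) ≠ 0 := by
    intro h
    apply hd
    rw [h]
    exact P.zero_mem
  have hd0' : algebraMap B E d ≠ 0 := by simpa using hd0
  rw [← eq_div_iff hd0', div_eq_mul_inv] at hnd
  rw [hnd]
  exact V.mul_mem _ _ (hB n) (hmem d hd hd0)

end Dedekind
end Place

end Vale.Agent.P297
end
end

section

section

set_option linter.unusedSectionVars false
set_option linter.style.haveILetI false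

open IsDedekindDomain

namespace Vale.Agent.P297

namespace Place

section IdealLevel

variable {R S : Type*} [CommRing R] [IsDomain R] [IsDiscreteValuationRing R]
  [CommRing S] [IsDedekindDomain S] [Algebra R S] [Module.Finite R S] [Module.IsTorsionFree R S]

theorem liesOver_maximal (Q : HeightOneSpectrum S) :
    Q.asIdeal.LiesOver (IsLocalRing.maximalIdeal R) := by
  constructor
  have hmax : (Q.asIdeal.under R).IsMaximal := by
    haveI := Q.isMaximal
    exact Ideal.IsMaximal.under R Q.asIdeal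
  exact (IsLocalRing.eq_maximalIdeal hmax).symm

theorem finite_primes (R S : Type*) [CommRing R] [IsDomain R] [IsDiscreteValuationRing R]
    [CommRing S] [IsDedekindDomain S] [Algebra R S] [Module.Finite R S]
    [Module.IsTorsionFree R S] : Finite (HeightOneSpectrum S) := by
  obtain ⟨ϖ, hϖ⟩ := IsDiscreteValuationRing.exists_irreducible R
  have h0 : Ideal.span {algebraMap R S ϖ} ≠ 0 := by
    rw [Ne, Ideal.zero_eq_bot, Ideal.span_singleton_eq_bot]
    simpa using hϖ.ne_zero
  have hfin := Ideal.finite_factors h0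
  rw [← Set.finite_univ_iff]
  refine hfin.subset ?_
  intro Q _
  change Q.asIdeal ∣ _
  rw [Ideal.dvd_iff_le, Ideal.span_singleton_le_iff_mem]
  haveI := liesOver_maximal (R := R) Q
  rw [← Ideal.mem_of_liesOver Q.asIdeal (IsLocalRing.maximalIdeal R)]
  exact (IsLocalRing.mem_maximalIdeal _).2 hϖ.1

theorem span_intNorm_eq [PerfectField (FractionRing R)]
    (hf : ∀ Q : HeightOneSpectrum S, Q.asIdeal.inertiaDeg R = 1) [Fintype (HeightOneSpectrum S)]
    (x : S) (hx : x ≠ 0) :
    Ideal.span {Algebra.intNorm R S x} = (IsLocalRing.maximalIdeal R) ^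
      (∑ Q : HeightOneSpectrum S,
        (Associates.mk Q.asIdeal).count (Associates.mk (Ideal.span {x})).factors) := by
  classical
  have h0 : Ideal.span {x} ≠ 0 := by
    rw [Ne, Ideal.zero_eq_bot, Ideal.span_singleton_eq_bot]
    exact hx
  rw [← Ideal.relNorm_singleton]
  conv_lhs => rw [← Ideal.finprod_heightOneSpectrum_factorization h0]
  rw [finprod_eq_prod_of_fintype, map_prod, ← Finset.prod_pow_eq_pow_sum]
  refine Finset.prod_congr rfl ?_
  intro Q _
  unfold HeightOneSpectrum.maxPowDividing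
  rw [map_pow]
  haveI := liesOver_maximal (R := R) Q
  haveI := Q.isMaximal
  rw [Ideal.relNorm_eq_pow_of_isMaximal Q.asIdeal (IsLocalRing.maximalIdeal R), hf Q, pow_one]

end IdealLevel

section PlaceLevel

variable {K E : Type*} [Field K] [CharZero K] [Field E] [Algebra K E] [FiniteDimensional K E]
  (v : Place K)

/-- The places of `E` over the place `v` of `K`. -/
abbrev Over (E : Type*) [Field E] [Algebra K E] (v : Place K) : Type _ :=
  {w : Place E // w.ring.comap (algebraMap K E) = v.ring}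

theorem ord_of_span_eq {r : v.ring} {n : ℕ}
    (h : Ideal.span {r} = (IsLocalRing.maximalIdeal v.ring) ^ n) : v.ord (r : K) = n := by
  obtain ⟨ϖ, hϖ⟩ := IsDiscreteValuationRing.exists_irreducible v.ring
  rw [hϖ.maximalIdeal_eq, Ideal.span_singleton_pow, Ideal.span_singleton_eq_span_singleton] at h
  obtain ⟨u, hu⟩ := h.symm
  have h1 : v.ord (ϖ : K) = 1 := by
    unfold ord
    have := Ring.ordFrac_irreducible (K := K) hϖ
    rw [ValuationSubring.algebraMap_apply] at this
    rw [this, WithZero.log_exp]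
  have hϖ0 : (ϖ : K) ≠ 0 := by
    intro h0
    exact hϖ.ne_zero (Subtype.ext h0)
  have hu0 : ((u : v.ring) : K) ≠ 0 := by
    intro h0
    exact u.ne_zero (Subtype.ext h0)
  have hu1 : v.ord ((u : v.ring) : K) = 0 := by
    rw [ord_eq_zero_iff _ hu0]
    refine ⟨(u : v.ring).2, ?_⟩
    have h3 : ((u : v.ring) : K) * ((u⁻¹ : v.ringˣ) : v.ring) = 1 := by
      have : (u : v.ring) * ((u⁻¹ : v.ringˣ) : v.ring) = 1 := by simp
      exact_mod_cast congrArg (fun z : v.ring => (z : K)) this
    rw [← eq_inv_of_mul_eq_one_right h3]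
    exact ((u⁻¹ : v.ringˣ) : v.ring).2
  have hr : (r : K) = (ϖ : K) ^ n * ((u : v.ring) : K) := by
    rw [← hu]; rfl
  rw [hr, ord_mul _ (pow_ne_zero _ hϖ0) hu0, ord_pow, h1, hu1]
  simp

theorem norm_formula (hres : IsAlgClosed (IsLocalRing.ResidueField v.ring)) :
    Finite (Over E v) ∧
      ∀ u : E, u ≠ 0 → ∑ᶠ w : Over E v, w.1.ord u = v.ord (Algebra.norm K u) := by
  letI : Algebra v.ring E := ((algebraMap K E).comp (algebraMap v.ring K)).toAlgebra
  haveI : IsScalarTower v.ring K E := IsScalarTower.of_algebraMap_eq' rfl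
  let B := integralClosure v.ring E
  haveI : IsDedekindDomain B := integralClosure.isDedekindDomain v.ring K E
  haveI : IsFractionRing B E := integralClosure.isFractionRing_of_finite_extension K E
  haveI : Module.Finite v.ring B := IsIntegralClosure.finite v.ring K E B
  haveI : FaithfulSMul v.ring E := by
    rw [faithfulSMul_iff_algebraMap_injective]
    exact (algebraMap K E).injective.comp Subtype.val_injective
  haveI : Module.IsTorsionFree v.ring B := by
    infer_instance
  haveI hfinB : Finite (HeightOneSpectrum B) := finite_primes v.ring B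
  have hmemv : ∀ r : v.ring, algebraMap v.ring E r = algebraMap K E (r : K) := fun r => rfl
  have hover : ∀ Q : HeightOneSpectrum B,
      (ofPrime E Q).ring.comap (algebraMap K E) = v.ring := by
    intro Q
    refine (ring_eq_of_le ?_ ?_).symm
    · intro r hr
      change algebraMap K E r ∈ (ofPrime E Q).ring
      have := ofPrime_mem_algebraMap (E := E) Q (algebraMap v.ring B ⟨r, hr⟩)
      rwa [← IsScalarTower.algebraMap_apply, hmemv] at this
    · intro htop
      apply (ofPrime E Q).ring_ne_top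
      rw [eq_top_iff]
      intro x _
      have hx : IsIntegral K x := Algebra.IsIntegral.isIntegral x
      have hK : ∀ y : K, algebraMap K E y ∈ (ofPrime E Q).ring := by
        intro y
        have : y ∈ (ofPrime E Q).ring.comap (algebraMap K E) := by
          rw [htop]; exact ValuationSubring.mem_top _
        exact this
      let φ : K →+* (ofPrime E Q).ring := (algebraMap K E).codRestrict _ hK
      have hint : IsIntegral (ofPrime E Q).ring x := by
        obtain ⟨p, hp, hpx⟩ := hx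
        refine ⟨p.map φ, hp.map φ, ?_⟩
        rw [Polynomial.eval₂_map]
        exact hpx
      obtain ⟨y, hy⟩ := (IsIntegrallyClosed.isIntegral_iff).1 hint
      rw [← hy]
      exact y.2
  let e : HeightOneSpectrum B ≃ Over E v := by
    refine Equiv.ofBijective (fun Q => ⟨ofPrime E Q, hover Q⟩) ⟨?_, ?_⟩
    · intro P Q hPQ
      exact ofPrime_injective (E := E) (congrArg Subtype.val hPQ)
    · rintro ⟨w, hw⟩
      have hR : ∀ r : v.ring, algebraMap v.ring E r ∈ w.ring := by
        intro r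
        have : (r : K) ∈ w.ring.comap (algebraMap K E) := by rw [hw]; exact r.2
        exact this
      have hB : ∀ b : B, algebraMap B E b ∈ w.ring := by
        intro b
        have hb : IsIntegral v.ring (algebraMap B E b) := b.2
        let φ : v.ring →+* w.ring := (algebraMap v.ring E).codRestrict _ hR
        have hint : IsIntegral w.ring (algebraMap B E b) := by
          obtain ⟨p, hp, hpx⟩ := hb
          refine ⟨p.map φ, hp.map φ, ?_⟩
          rw [Polynomial.eval₂_map]
          exact hpx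
        obtain ⟨y, hy⟩ := (IsIntegrallyClosed.isIntegral_iff).1 hint
        rw [← hy]
        exact y.2
      obtain ⟨Q, hQ⟩ := exists_ofPrime w.ring hB w.ring_ne_top
      exact ⟨Q, Subtype.ext (ext' hQ)⟩
  refine ⟨Finite.of_equiv _ e, ?_⟩
  haveI : Fintype (HeightOneSpectrum B) := Fintype.ofFinite _
  have hf : ∀ Q : HeightOneSpectrum B, Q.asIdeal.inertiaDeg v.ring = 1 := by
    intro Q
    haveI := liesOver_maximal (R := v.ring) Q
    haveI := Q.isMaximal
    rw [Ideal.inertiaDeg_eq_of_isMaximal (IsLocalRing.maximalIdeal v.ring) Q.asIdeal]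
    letI : Field (v.ring ⧸ IsLocalRing.maximalIdeal v.ring) := Ideal.Quotient.field _
    letI : Field (B ⧸ Q.asIdeal) := Ideal.Quotient.field _
    haveI : IsAlgClosed (v.ring ⧸ IsLocalRing.maximalIdeal v.ring) := hres
    haveI : Algebra.IsIntegral (v.ring ⧸ IsLocalRing.maximalIdeal v.ring) (B ⧸ Q.asIdeal) :=
      inferInstance
    have hbij := IsAlgClosed.algebraMap_bijective_of_isIntegral
      (k := v.ring ⧸ IsLocalRing.maximalIdeal v.ring) (K := B ⧸ Q.asIdeal)
    refine finrank_eq_one (1 : B ⧸ Q.asIdeal) one_ne_zero fun z => ?_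
    obtain ⟨c, hc⟩ := hbij.2 z
    exact ⟨c, by rw [Algebra.smul_def, mul_one, hc]⟩
  have key : ∀ b : B, b ≠ 0 →
      ∑ᶠ w : Over E v, w.1.ord (algebraMap B E b) = v.ord (Algebra.norm K (algebraMap B E b)) := by
    intro b hb
    have h1 := span_intNorm_eq (R := v.ring) hf b hb
    have h2 := ord_of_span_eq v h1
    have h3 : ((Algebra.intNorm v.ring B b : v.ring) : K) = Algebra.norm K (algebraMap B E b) :=
      Algebra.algebraMap_intNorm (A := v.ring) (K := K) (L := E) (B := B) b
    rw [h3] at h2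
    rw [h2, ← finsum_comp_equiv e, finsum_eq_sum_of_fintype]
    push_cast
    refine Finset.sum_congr rfl ?_
    intro Q _
    change (ofPrime E Q).ord _ = _
    rw [ofPrime_ord, HeightOneSpectrum.valuation_of_algebraMap,
      HeightOneSpectrum.intValuation_if_neg _ hb, WithZero.log_exp, neg_neg]
  intro u hu
  obtain ⟨a, b, hb, rfl⟩ := IsFractionRing.div_surjective (A := B) u
  have hb0 : b ≠ 0 := nonZeroDivisors.ne_zero hb
  have ha0 : a ≠ 0 := by
    rintro rfl
    simp at hu
  have ha' : algebraMap B E a ≠ 0 := by simpa using ha0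
  have hb' : algebraMap B E b ≠ 0 := by simpa using hb0
  haveI : Finite (Over E v) := Finite.of_equiv _ e
  have hdiv : ∀ w : Over E v, w.1.ord (algebraMap B E a / algebraMap B E b) =
      w.1.ord (algebraMap B E a) - w.1.ord (algebraMap B E b) := fun w => ord_div _ ha' hb'
  rw [finsum_congr hdiv, finsum_sub_distrib (Set.toFinite _) (Set.toFinite _), key a ha0,
    key b hb0]
  have hmul : Algebra.norm K (algebraMap B E a) =
      Algebra.norm K (algebraMap B E a / algebraMap B E b) * Algebra.norm K (algebraMap B E b) := by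
    rw [← map_mul, div_mul_cancel₀ _ hb']
  rw [hmul, ord_mul]
  · ring
  · rw [Algebra.norm_ne_zero_iff]; exact div_ne_zero ha' hb'
  · rw [Algebra.norm_ne_zero_iff]; exact hb'

end PlaceLevel

end Place

end Vale.Agent.P297
end
end

section

section

set_option linter.unusedSectionVars false
set_option linter.style.haveILetI false

open IsDedekindDomain IntermediateField

namespace Vale.Agent.P297

/-- `E` is a function field in one variable over `k`. -/
class IsFF (k E : Type*) [Field k] [Field E] [Algebra k E] : Prop where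
  fin : Algebra.EssFiniteType k E
  td : Algebra.trdeg k E = 1

section

variable {k E : Type*} [Field k] [Field E] [Algebra k E]

theorem IsFF.exists_transcendental [h : IsFF k E] : ∃ t : E, Transcendental k t := by
  have : Algebra.Transcendental k E := by
    rw [← trdeg_ne_zero_iff, h.td]
    exact one_ne_zero
  exact this.transcendental

theorem IsFF.finiteDimensional [h : IsFF k E] {t : E} (ht : Transcendental k t) :
    FiniteDimensional k⟮t⟯ E := by
  haveI := h.fin
  have hai : AlgebraicIndependent k (fun _ : Unit => t) :=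
    algebraicIndependent_unique_type_iff.2 ht
  have htb : IsTranscendenceBasis k (fun _ : Unit => t) := by
    apply AlgebraicIndependent.isTranscendenceBasis_of_lift_trdeg_le_of_finite hai
    rw [h.td]
    simp
  have halg : Algebra.IsAlgebraic k⟮t⟯ E := by
    have h1 := htb.isAlgebraic_field
    have hr : Set.range (fun _ : Unit => t) = {t} := Set.range_const
    rw [hr] at h1
    exact h1
  haveI : Algebra.EssFiniteType k⟮t⟯ E := Algebra.EssFiniteType.of_comp k k⟮t⟯ E
  obtain ⟨s, hs⟩ := IntermediateField.fg_top k⟮t⟯ E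
  haveI : FiniteDimensional k⟮t⟯ (IntermediateField.adjoin k⟮t⟯ (s : Set E)) :=
    IntermediateField.finiteDimensional_adjoin (fun x _ => Algebra.IsIntegral.isIntegral x)
  rw [hs] at this
  exact (IntermediateField.topEquiv (F := k⟮t⟯) (E := E)).toLinearEquiv.finiteDimensional

theorem IsFF.of_finiteDimensional {t : E} (ht : Transcendental k t)
    (hfin : FiniteDimensional k⟮t⟯ E) : IsFF k E := by
  refine ⟨?_, ?_⟩
  · haveI : Algebra.EssFiniteType k k⟮t⟯ :=
      IntermediateField.essFiniteType_iff.2 (IntermediateField.fg_adjoin_of_finite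
        (Set.finite_singleton t))
    exact Algebra.EssFiniteType.comp k k⟮t⟯ E
  · have hai : AlgebraicIndependent k (fun _ : Unit => t) :=
      algebraicIndependent_unique_type_iff.2 ht
    have halg : Algebra.IsAlgebraic k⟮t⟯ E := inferInstance
    have htb : IsTranscendenceBasis k (fun _ : Unit => t) := by
      rw [isTranscendenceBasis_iff_algebraicIndependent_isAlgebraic]
      refine ⟨hai, ?_⟩
      rw [← IntermediateField.isAlgebraic_adjoin_iff_top]
      have hr : Set.range (fun _ : Unit => t) = {t} := Set.range_const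
      rw [hr]
      exact halg
    have := htb.lift_cardinalMk_eq_trdeg
    simpa using this.symm

end

end Vale.Agent.P297
end
end

section

section

set_option linter.unusedSectionVars false
set_option linter.style.haveILetI false

open IsDedekindDomain IntermediateField
open scoped IntermediateField.algebraAdjoinAdjoin

namespace Vale.Agent.P297

section

variable {k E : Type} [Field k] [CharZero k] [Field E] [Algebra k E]

theorem isPrincipalIdealRing_adjoin {t : E} (ht : Transcendental k t) :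
    IsPrincipalIdealRing (Algebra.adjoin k {t}) := by
  let e := Polynomial.algEquivOfTranscendental k t ht
  exact IsPrincipalIdealRing.of_surjective e.toRingEquiv.toRingHom e.surjective

/-- The integral closure of `k[t]` in a function field is a Dedekind domain. -/
theorem dedekind_integralClosure [IsFF k E] {t : E} (ht : Transcendental k t) :
    IsDedekindDomain (integralClosure (Algebra.adjoin k {t}) E) ∧
      IsFractionRing (integralClosure (Algebra.adjoin k {t}) E) E := by
  haveI := isPrincipalIdealRing_adjoin ht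
  haveI : FiniteDimensional k⟮t⟯ E := IsFF.finiteDimensional ht
  haveI : CharZero k⟮t⟯ := charZero_of_injective_algebraMap (algebraMap k k⟮t⟯).injective
  exact ⟨integralClosure.isDedekindDomain (Algebra.adjoin k {t}) k⟮t⟯ E,
    integralClosure.isFractionRing_of_finite_extension k⟮t⟯ E⟩

theorem mem_of_isIntegral {A : Type*} [CommRing A] [Algebra A E] (V : ValuationSubring E)
    (hA : ∀ a : A, algebraMap A E a ∈ V) {x : E} (hx : IsIntegral A x) : x ∈ V := by
  let φ : A →+* V := (algebraMap A E).codRestrict _ hA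
  have hint : IsIntegral V x := by
    obtain ⟨p, hp, hpx⟩ := hx
    refine ⟨p.map φ, hp.map φ, ?_⟩
    rw [Polynomial.eval₂_map]
    exact hpx
  obtain ⟨y, hy⟩ := (IsIntegrallyClosed.isIntegral_iff).1 hint
  rw [← hy]
  exact y.2

theorem adjoin_mem (V : ValuationSubring E) (hk : ∀ a : k, algebraMap k E a ∈ V) {t : E}
    (htV : t ∈ V) (a : Algebra.adjoin k {t}) : (a : E) ∈ V := by
  obtain ⟨a, ha⟩ := a
  induction ha using Algebra.adjoin_induction with
  | mem x hx => rw [Set.mem_singleton_iff] at hx; subst hx; exact htV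
  | algebraMap r => exact hk r
  | add x y _ _ hx hy => exact V.add_mem _ _ hx hy
  | mul x y _ _ hx hy => exact V.mul_mem _ _ hx hy

/-- Every proper valuation subring of `E/k` containing `k` is a place. -/
theorem exists_place [IsFF k E] (V : ValuationSubring E) (hk : ∀ a : k, algebraMap k E a ∈ V)
    (hV : V ≠ ⊤) : ∃ w : Place E, w.ring = V := by
  obtain ⟨t, ht, htV⟩ : ∃ t : E, Transcendental k t ∧ t ∈ V := by
    obtain ⟨t, ht⟩ := IsFF.exists_transcendental (k := k) (E := E)
    rcases V.mem_or_inv_mem t with h | h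
    · exact ⟨t, ht, h⟩
    · exact ⟨t⁻¹, fun hc => ht (by simpa using hc.inv), h⟩
  obtain ⟨h1, h2⟩ := dedekind_integralClosure (k := k) (E := E) ht
  obtain ⟨Q, hQ⟩ := Place.exists_ofPrime (B := integralClosure (Algebra.adjoin k {t}) E) V
    (fun b => mem_of_isIntegral (A := Algebra.adjoin k {t}) V (fun a => adjoin_mem V hk htV a)
      ((mem_integralClosure_iff (Algebra.adjoin k {t}) E).1 b.2)) hV
  exact ⟨Place.ofPrime E Q, hQ⟩

/-- The structure map `k → 𝒪_v`. -/
def constTo (v : Place E) (hk : ∀ a : k, algebraMap k E a ∈ v.ring) : k →+* v.ring :=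
  (algebraMap k E).codRestrict v.ring hk

theorem residue_surjective [IsAlgClosed k] [IsFF k E] (v : Place E)
    (hk : ∀ a : k, algebraMap k E a ∈ v.ring) :
    Function.Surjective ((IsLocalRing.residue v.ring).comp (constTo v hk)) := by
  letI : Algebra k (IsLocalRing.ResidueField v.ring) :=
    ((IsLocalRing.residue v.ring).comp (constTo v hk)).toAlgebra
  suffices h : Algebra.IsIntegral k (IsLocalRing.ResidueField v.ring) from
    IsAlgClosed.algebraMap_bijective_of_isIntegral.2
  rw [← Algebra.isAlgebraic_iff_isIntegral]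
  constructor
  intro xb
  by_contra hx
  obtain ⟨x, rfl⟩ := IsLocalRing.residue_surjective xb
  -- every nonzero polynomial in `x` is a unit
  letI : Algebra k v.ring := (constTo v hk).toAlgebra
  haveI : IsScalarTower k v.ring E := IsScalarTower.of_algebraMap_eq' rfl
  haveI : IsScalarTower k v.ring (IsLocalRing.ResidueField v.ring) :=
    IsScalarTower.of_algebraMap_eq' rfl
  have hunit : ∀ p : Polynomial k, p ≠ 0 → IsUnit (Polynomial.aeval x p) := by
    intro p hp
    by_contra hc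
    apply hx
    refine ⟨p, hp, ?_⟩
    have h1 : Polynomial.aeval x p ∈ IsLocalRing.maximalIdeal v.ring :=
      (IsLocalRing.mem_maximalIdeal _).2 hc
    have h2 := (IsLocalRing.residue_eq_zero_iff _).2 h1
    rw [← h2]
    exact Polynomial.aeval_algebraMap_apply (IsLocalRing.ResidueField v.ring) x p
  have hmem : ∀ p : Polynomial k, p ≠ 0 →
      Polynomial.aeval (x : E) p ∈ v.ring ∧ (Polynomial.aeval (x : E) p)⁻¹ ∈ v.ring := by
    intro p hp
    have h1 : Polynomial.aeval (x : E) p = ((Polynomial.aeval x p : v.ring) : E) :=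
      Polynomial.aeval_algebraMap_apply E x p
    obtain ⟨u, hu⟩ := hunit p hp
    rw [h1, ← hu]
    refine ⟨(u : v.ring).2, ?_⟩
    have h3 : ((u : v.ring) : E) * ((u⁻¹ : v.ringˣ) : v.ring) = 1 := by
      have : (u : v.ring) * ((u⁻¹ : v.ringˣ) : v.ring) = 1 := by simp
      exact_mod_cast congrArg (fun z : v.ring => (z : E)) this
    rw [← eq_inv_of_mul_eq_one_right h3]
    exact ((u⁻¹ : v.ringˣ) : v.ring).2
  have htr : Transcendental k (x : E) := by
    rintro ⟨p, hp, hpx⟩
    have h1 : Polynomial.aeval (x : E) p = ((Polynomial.aeval x p : v.ring) : E) :=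
      Polynomial.aeval_algebraMap_apply E x p
    rw [h1] at hpx
    exact (hunit p hp).ne_zero (Subtype.ext hpx)
  have hK : ∀ y : k⟮(x : E)⟯, algebraMap k⟮(x : E)⟯ E y ∈ v.ring := by
    intro y
    obtain ⟨a, b, hb, hab⟩ := IsFractionRing.div_surjective
      (A := Algebra.adjoin k {(x : E)}) y
    have hb0 : b ≠ 0 := nonZeroDivisors.ne_zero hb
    have hmemA : ∀ c : Algebra.adjoin k {(x : E)}, c ≠ 0 → (c : E) ∈ v.ring ∧
        (c : E)⁻¹ ∈ v.ring := by
      rintro ⟨c, hc⟩ hc0
      have hc' := hc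
      rw [Algebra.adjoin_singleton_eq_range_aeval] at hc'
      obtain ⟨p, hp⟩ := hc'
      have hp' : Polynomial.aeval (x : E) p = c := hp
      have hp0 : p ≠ 0 := by
        rintro rfl
        apply hc0
        apply Subtype.ext
        rw [map_zero] at hp'
        exact hp'.symm
      have := hmem p hp0
      rw [hp'] at this
      exact this
    rw [← hab, map_div₀, div_eq_mul_inv]
    refine v.ring.mul_mem _ _ ?_ (hmemA b hb0).2
    by_cases ha : a = 0
    · rw [ha]; simp [v.ring.zero_mem]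
    · exact (hmemA a ha).1
  haveI := IsFF.finiteDimensional htr
  apply v.ring_ne_top
  rw [eq_top_iff]
  intro y _
  exact mem_of_isIntegral v.ring hK (Algebra.IsIntegral.isIntegral y)

theorem isAlgClosed_residueField [IsAlgClosed k] [IsFF k E] (v : Place E)
    (hk : ∀ a : k, algebraMap k E a ∈ v.ring) : IsAlgClosed (IsLocalRing.ResidueField v.ring) := by
  let ρ := (IsLocalRing.residue v.ring).comp (constTo v hk)
  exact IsAlgClosed.of_ringEquiv k _
    (RingEquiv.ofBijective ρ ⟨ρ.injective, residue_surjective v hk⟩)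

/-- Every element of `𝒪_v` has a value in `k`. -/
theorem exists_const [IsAlgClosed k] [IsFF k E] (v : Place E)
    (hk : ∀ a : k, algebraMap k E a ∈ v.ring) {x : E} (hx : x ∈ v.ring) :
    ∃ a : k, x = algebraMap k E a ∨ 0 < v.ord (x - algebraMap k E a) := by
  obtain ⟨a, ha⟩ := residue_surjective v hk (IsLocalRing.residue v.ring ⟨x, hx⟩)
  refine ⟨a, ?_⟩
  by_cases h : x = algebraMap k E a
  · exact Or.inl h
  · right
    apply v.ord_pos_of_inv_notMem
    intro hinv
    have h1 : IsLocalRing.residue v.ring (⟨x, hx⟩ - constTo v hk a) = 0 := by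
      rw [map_sub, sub_eq_zero]
      exact ha.symm
    rw [IsLocalRing.residue_eq_zero_iff, IsLocalRing.mem_maximalIdeal] at h1
    apply h1
    refine IsUnit.of_mul_eq_one ⟨_, hinv⟩ ?_
    apply Subtype.ext
    exact mul_inv_cancel₀ (sub_ne_zero.2 h)

end

end Vale.Agent.P297
end
end

section

section

set_option linter.unusedSectionVars false
set_option linter.style.haveILetI false

open IsDedekindDomain IntermediateField
open scoped IntermediateField.algebraAdjoinAdjoin

namespace Vale.Agent.P297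

/-- Places of `E` that are trivial on `k`. -/
abbrev PlaceOver (k E : Type) [Field k] [Field E] [Algebra k E] : Type :=
  {w : Place E // ∀ a : k, algebraMap k E a ∈ w.ring}

section

variable {k E : Type} [Field k] [CharZero k] [Field E] [Algebra k E]

theorem prime_gen {t : E} (ht : Transcendental k t) :
    Prime (⟨t, Algebra.self_mem_adjoin_singleton k t⟩ : Algebra.adjoin k {t}) := by
  let e := Polynomial.algEquivOfTranscendental k t ht
  have h1 : e Polynomial.X = ⟨t, Algebra.self_mem_adjoin_singleton k t⟩ := by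
    apply Subtype.ext
    simp [e]
  rw [← h1]
  exact (MulEquiv.prime_iff e.toMulEquiv).2 Polynomial.prime_X

/-- The prime `(t)` of `k[t]`. -/
noncomputable def primeT {t : E} (ht : Transcendental k t) :
    HeightOneSpectrum (Algebra.adjoin k {t}) where
  asIdeal := Ideal.span {⟨t, Algebra.self_mem_adjoin_singleton k t⟩}
  isPrime := (Ideal.span_singleton_prime (prime_gen ht).ne_zero).2 (prime_gen ht)
  ne_bot := by
    rw [Ne, Ideal.span_singleton_eq_bot]
    exact (prime_gen ht).ne_zero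

/-- Existence of the place of `k(t)` at `t = 0`, and its uniqueness. -/
theorem exists_place_zero {t : E} (ht : Transcendental k t) :
    ∃ v : Place k⟮t⟯, v.ord (AdjoinSimple.gen k t) = 1 ∧
      (∀ a : k, algebraMap k k⟮t⟯ a ∈ v.ring) ∧
      ∀ w : Place k⟮t⟯, (∀ a : k, algebraMap k k⟮t⟯ a ∈ w.ring) →
        0 < w.ord (AdjoinSimple.gen k t) → w = v := by
  haveI := isPrincipalIdealRing_adjoin ht
  have hgen : algebraMap (Algebra.adjoin k {t}) k⟮t⟯ ⟨t, Algebra.self_mem_adjoin_singleton k t⟩ =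
      AdjoinSimple.gen k t := rfl
  refine ⟨Place.ofPrime k⟮t⟯ (primeT ht), ?_, ?_, ?_⟩
  · rw [← hgen, Place.ofPrime_ord, HeightOneSpectrum.valuation_of_algebraMap,
      HeightOneSpectrum.intValuation_singleton (primeT ht) (prime_gen ht).ne_zero rfl,
      WithZero.log_exp]
    rfl
  · intro a
    have := Place.ofPrime_mem_algebraMap (E := k⟮t⟯) (primeT ht)
      (algebraMap k (Algebra.adjoin k {t}) a)
    rwa [← IsScalarTower.algebraMap_apply] at this
  · intro w hk hw
    have hg : AdjoinSimple.gen k t ∈ w.ring := by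
      rw [← w.ord_nonneg_iff]
      · exact hw.le
      · intro h0; rw [h0, Place.ord_zero] at hw; exact lt_irrefl _ hw
    have hA : ∀ b : Algebra.adjoin k {t}, algebraMap (Algebra.adjoin k {t}) k⟮t⟯ b ∈ w.ring := by
      rintro ⟨b, hb⟩
      induction hb using Algebra.adjoin_induction with
      | mem x hx => rw [Set.mem_singleton_iff] at hx; subst hx; exact hg
      | algebraMap r => exact hk r
      | add x y hx' hy' hx hy => exact w.ring.add_mem _ _ hx hy
      | mul x y hx' hy' hx hy => exact w.ring.mul_mem _ _ hx hy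
    obtain ⟨Q, hQ⟩ := Place.exists_ofPrime w.ring hA w.ring_ne_top
    have hQw : Place.ofPrime k⟮t⟯ Q = w := Place.ext' hQ
    rw [← hQw]
    congr 1
    have hmem : (⟨t, Algebra.self_mem_adjoin_singleton k t⟩ : Algebra.adjoin k {t}) ∈
        Q.asIdeal := by
      rw [← Place.ofPrime_ord_algebraMap_pos (E := k⟮t⟯) Q (prime_gen ht).ne_zero, hQw]
      exact hw
    ext1
    have hle : (primeT ht).asIdeal ≤ Q.asIdeal := by
      change Ideal.span _ ≤ _
      rw [Ideal.span_singleton_le_iff_mem]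
      exact hmem
    have := (primeT ht).isMaximal
    exact (this.eq_of_le Q.isPrime.ne_top hle).symm

/-- The zeros of `t`. -/
abbrev Zeros (k : Type) {E : Type} [Field k] [Field E] [Algebra k E] (t : E) : Type :=
  {w : PlaceOver k E // 0 < w.1.ord t}

theorem comap_ne_top {K : Type} [Field K] [Algebra K E] (w : Place E) [Algebra.IsAlgebraic K E] :
    w.ring.comap (algebraMap K E) ≠ ⊤ := by
  intro htop
  apply w.ring_ne_top
  rw [eq_top_iff]
  intro x _
  refine mem_of_isIntegral (A := K) w.ring (fun y => ?_) (Algebra.IsIntegral.isIntegral x)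
  have : y ∈ w.ring.comap (algebraMap K E) := by
    rw [htop]; exact ValuationSubring.mem_top _
  exact this

theorem ord_gen_pos_iff {t : E} (w : Place E) (v : Place k⟮t⟯)
    (h : w.ring.comap (algebraMap k⟮t⟯ E) = v.ring) (y : k⟮t⟯) :
    0 < v.ord y ↔ 0 < w.ord (algebraMap k⟮t⟯ E y) := by
  by_cases hy : y = 0
  · simp [hy]
  have hy' : algebraMap k⟮t⟯ E y ≠ 0 := by simpa using hy
  have hiff : ∀ z : k⟮t⟯, z ∈ v.ring ↔ algebraMap k⟮t⟯ E z ∈ w.ring := by
    intro z
    rw [← h]; rfl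
  have h1 : 0 < v.ord y ↔ y⁻¹ ∉ v.ring := by
    rw [← v.ord_nonneg_iff (inv_ne_zero hy), Place.ord_inv]
    omega
  have h2 : 0 < w.ord (algebraMap k⟮t⟯ E y) ↔ (algebraMap k⟮t⟯ E y)⁻¹ ∉ w.ring := by
    rw [← w.ord_nonneg_iff (inv_ne_zero hy'), Place.ord_inv]
    omega
  rw [h1, h2, hiff, map_inv₀]

/-- The number of zeros of `t`, counted with multiplicity, is `[E : k(t)]`. -/
theorem degree_formula [IsAlgClosed k] [IsFF k E] {t : E} (ht : Transcendental k t) :
    Finite (Zeros k t) ∧ ∑ᶠ w : Zeros k t, w.1.1.ord t = Module.finrank k⟮t⟯ E := by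
  haveI : FiniteDimensional k⟮t⟯ E := IsFF.finiteDimensional ht
  haveI : CharZero k⟮t⟯ := charZero_of_injective_algebraMap (algebraMap k k⟮t⟯).injective
  haveI : IsFF k k⟮t⟯ := by
    have ht' : Transcendental k (AdjoinSimple.gen k t) := by
      intro hc
      apply ht
      have := hc.algebraMap (A := E)
      simpa using this
    refine ⟨IntermediateField.essFiniteType_iff.2 (IntermediateField.fg_adjoin_of_finite
        (Set.finite_singleton t)), le_antisymm ?_ ?_⟩
    · rw [← IsFF.td (k := k) (E := E)]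
      exact trdeg_le_of_injective (k⟮t⟯).val Subtype.val_injective
    · rw [Cardinal.one_le_iff_ne_zero, trdeg_ne_zero_iff]
      exact ⟨_, ht'⟩
  obtain ⟨v, hv1, hvk, hvu⟩ := exists_place_zero ht
  obtain ⟨hfin, hnorm⟩ := Place.norm_formula (E := E) v (isAlgClosed_residueField v hvk)
  have htE : algebraMap k⟮t⟯ E (AdjoinSimple.gen k t) = t := AdjoinSimple.algebraMap_gen k t
  have ht0 : t ≠ 0 := by
    rintro rfl
    exact ht (isAlgebraic_zero)
  let e : Place.Over E v ≃ Zeros k t :=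
    { toFun := fun w => ⟨⟨w.1, fun a => by
          have h1 : algebraMap k k⟮t⟯ a ∈ w.1.ring.comap (algebraMap k⟮t⟯ E) := by
            rw [w.2]; exact hvk a
          have h2 : algebraMap k⟮t⟯ E (algebraMap k k⟮t⟯ a) ∈ w.1.ring := h1
          rwa [← IsScalarTower.algebraMap_apply] at h2⟩, by
          have h3 := (ord_gen_pos_iff w.1 v w.2 (AdjoinSimple.gen k t)).1 (by rw [hv1]; norm_num)
          rwa [htE] at h3⟩
      invFun := fun w => ⟨w.1.1, by
          have hk' : ∀ a : k, algebraMap k k⟮t⟯ a ∈ w.1.1.ring.comap (algebraMap k⟮t⟯ E) := by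
            intro a
            change algebraMap k⟮t⟯ E (algebraMap k k⟮t⟯ a) ∈ w.1.1.ring
            rw [← IsScalarTower.algebraMap_apply]
            exact w.1.2 a
          obtain ⟨w', hw'⟩ := exists_place (k := k) (w.1.1.ring.comap (algebraMap k⟮t⟯ E)) hk'
            (comap_ne_top w.1.1)
          have h4 : w' = v := by
            apply hvu w'
            · intro a; rw [hw']; exact hk' a
            · rw [ord_gen_pos_iff w.1.1 w' hw'.symm, htE]
              exact w.2
          rw [← hw', h4]⟩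
      left_inv := fun w => rfl
      right_inv := fun w => rfl }
  refine ⟨Finite.of_equiv _ e, ?_⟩
  rw [← finsum_comp_equiv e]
  have h5 := hnorm t ht0
  have h6 : Algebra.norm k⟮t⟯ t = (AdjoinSimple.gen k t) ^ (Module.finrank k⟮t⟯ E) :=
    Algebra.norm_algebraMap (S := E) (AdjoinSimple.gen k t)
  rw [h6, Place.ord_pow, hv1, mul_one] at h5
  exact h5

end

end Vale.Agent.P297
end
end

section

section

set_option linter.unusedSectionVars false
set_option linter.style.haveILetI false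

open IsDedekindDomain IntermediateField
open scoped IntermediateField.algebraAdjoinAdjoin

namespace Vale.Agent.P297

/-- The degree of a finitely supported integer valued function. -/
noncomputable def deg {α : Type*} : (α →₀ ℤ) →+ ℤ :=
  Finsupp.liftAddHom (fun _ => AddMonoidHom.id ℤ)

@[simp] theorem deg_single {α : Type*} (a : α) (n : ℤ) : deg (Finsupp.single a n) = n := by
  simp [deg]

theorem deg_mapDomain {α β : Type*} (f : α → β) (z : α →₀ ℤ) :
    deg (Finsupp.mapDomain f z) = deg z := by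
  unfold deg
  rw [Finsupp.liftAddHom_apply, Finsupp.liftAddHom_apply, Finsupp.sum_mapDomain_index]
  · intro; simp
  · intro; simp

theorem deg_eq_finsum {α : Type*} (z : α →₀ ℤ) : deg z = ∑ᶠ a, z a := by
  rw [finsum_eq_sum_of_support_subset (s := z.support) _ (by
    intro a ha
    simpa using ha)]
  rfl

section

variable {k E : Type} [Field k] [CharZero k] [Field E] [Algebra k E]

theorem const_or_transcendental [IsAlgClosed k] (u : E) :
    (∃ a : k, u = algebraMap k E a) ∨ Transcendental k u := by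
  by_cases h : IsAlgebraic k u
  · left
    have h1 : IsIntegral k u := h.isIntegral
    have h2 := IsAlgClosed.degree_eq_one_of_irreducible k (minpoly.irreducible h1)
    obtain ⟨a, ha⟩ := minpoly.mem_range_of_degree_eq_one k u h2
    exact ⟨a, ha.symm⟩
  · exact Or.inr h

theorem ord_const {w : PlaceOver k E} (a : k) : w.1.ord (algebraMap k E a) = 0 := by
  by_cases ha : a = 0
  · simp [ha]
  · rw [Place.ord_eq_zero_iff]
    · refine ⟨w.2 a, ?_⟩
      rw [← map_inv₀]
      exact w.2 _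
    · simpa using ha

theorem finite_zeros [IsAlgClosed k] [IsFF k E] (u : E) :
    {w : PlaceOver k E | 0 < w.1.ord u}.Finite := by
  rcases const_or_transcendental (k := k) u with ⟨a, rfl⟩ | hu
  · convert Set.finite_empty
    rw [Set.eq_empty_iff_forall_notMem]
    intro w hw
    rw [Set.mem_ofPred_eq, ord_const] at hw
    exact lt_irrefl _ hw
  · exact (degree_formula hu).1

theorem finite_support [IsAlgClosed k] [IsFF k E] (u : E) :
    (Function.support (fun w : PlaceOver k E => w.1.ord u)).Finite := by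
  refine ((finite_zeros (k := k) u).union (finite_zeros (k := k) u⁻¹)).subset ?_
  intro w hw
  simp only [Function.mem_support] at hw
  simp only [Set.mem_union, Set.mem_ofPred_eq, Place.ord_inv]
  omega

/-- The divisor of a rational function. -/
noncomputable def div (k : Type) {E : Type} [Field k] [CharZero k] [Field E] [Algebra k E]
    [IsAlgClosed k] [IsFF k E] (u : E) : PlaceOver k E →₀ ℤ :=
  Finsupp.ofSupportFinite (fun w => w.1.ord u) (finite_support u)

@[simp] theorem div_apply [IsAlgClosed k] [IsFF k E] (u : E) (w : PlaceOver k E) :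
    div k u w = w.1.ord u := rfl

theorem div_mul [IsAlgClosed k] [IsFF k E] {u v : E} (hu : u ≠ 0) (hv : v ≠ 0) :
    div k (u * v) = div k u + div k v := by
  ext w
  rw [Finsupp.add_apply, div_apply, div_apply, div_apply, Place.ord_mul _ hu hv]

theorem div_inv [IsAlgClosed k] [IsFF k E] (u : E) : div k u⁻¹ = - div k u := by
  ext w
  rw [Finsupp.neg_apply, div_apply, div_apply, Place.ord_inv]

theorem finsum_pos_part [IsAlgClosed k] [IsFF k E] (u : E) :
    ∑ᶠ w : PlaceOver k E, max (w.1.ord u) 0 = ∑ᶠ w : Zeros k u, w.1.1.ord u := by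
  classical
  have h1 : ∑ᶠ w : Zeros k u, w.1.1.ord u =
      ∑ᶠ (w : PlaceOver k E) (_ : 0 < w.1.ord u), w.1.ord u :=
    finsum_subtype_eq_finsum_cond (f := fun w : PlaceOver k E => w.1.ord u) _
  rw [h1]
  refine finsum_congr fun w => ?_
  rw [finsum_eq_if]
  split_ifs with h
  · exact max_eq_left h.le
  · exact max_eq_right (not_lt.1 h)

theorem deg_div [IsAlgClosed k] [IsFF k E] (u : E) : deg (div k u) = 0 := by
  rcases const_or_transcendental (k := k) u with ⟨a, rfl⟩ | hu
  · have : div k (algebraMap k E a) = 0 := by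
      ext w
      rw [div_apply, ord_const]
      rfl
    rw [this, map_zero]
  · have hui : Transcendental k u⁻¹ := fun hc => hu (by simpa using hc.inv)
    rw [deg_eq_finsum]
    have hsplit : ∀ w : PlaceOver k E, div k u w = max (w.1.ord u) 0 - max (w.1.ord u⁻¹) 0 := by
      intro w
      rw [div_apply, Place.ord_inv]
      omega
    have hs : ∀ v : E, (Function.support (fun w : PlaceOver k E => max (w.1.ord v) 0)).Finite := by
      intro v
      refine (finite_zeros (k := k) v).subset ?_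
      intro w hw
      simp only [Function.mem_support] at hw
      simp only [Set.mem_ofPred_eq]
      omega
    rw [finsum_congr hsplit, finsum_sub_distrib (hs u) (hs u⁻¹), finsum_pos_part,
      finsum_pos_part, (degree_formula hu).2, (degree_formula hui).2]
    have hK : k⟮u⁻¹⟯ = k⟮u⟯ := by
      apply le_antisymm
      · rw [IntermediateField.adjoin_simple_le_iff]
        exact inv_mem (IntermediateField.mem_adjoin_simple_self k u)
      · rw [IntermediateField.adjoin_simple_le_iff]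
        have := inv_mem (IntermediateField.mem_adjoin_simple_self k u⁻¹)
        rwa [inv_inv] at this
    rw [hK, sub_self]

end

end Vale.Agent.P297
end
end

section

section

set_option linter.unusedSectionVars false
set_option linter.style.haveILetI false

open IsDedekindDomain IntermediateField
open scoped IntermediateField.algebraAdjoinAdjoin

namespace Vale.Agent.P297

section

variable {k E : Type} [Field k] [CharZero k] [Field E] [Algebra k E]

theorem subsingleton_value {s : E} (hs : Transcendental k s) (w : PlaceOver k E) :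
    {a : k | 0 < w.1.ord (s - algebraMap k E a)}.Subsingleton := by
  intro a ha b hb
  rw [Set.mem_ofPred_eq] at ha hb
  by_contra hab
  have hne : ∀ c : k, s - algebraMap k E c ≠ 0 := by
    intro c hc
    apply hs
    rw [sub_eq_zero] at hc
    rw [hc]
    exact isAlgebraic_algebraMap c
  have hba : b - a ≠ 0 := sub_ne_zero.2 (Ne.symm hab)
  have h1 : (s - algebraMap k E a) + (-(s - algebraMap k E b)) = algebraMap k E (b - a) := by
    rw [map_sub]; ring
  have h2 := w.1.min_ord_le_add (hne a) (neg_ne_zero.2 (hne b)) (by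
    rw [h1]; exact (map_ne_zero (algebraMap k E)).2 hba)
  rw [h1, ord_const, Place.ord_neg] at h2
  rw [min_le_iff] at h2
  omega

theorem exists_good_t [IsAlgClosed k] [IsFF k E] (T : Finset (PlaceOver k E)) :
    ∃ t : E, Transcendental k t ∧ ∀ w ∈ T, t ∈ w.1.ring := by
  obtain ⟨s, hs⟩ := IsFF.exists_transcendental (k := k) (E := E)
  have hfin : (⋃ w ∈ T, {a : k | 0 < w.1.ord (s - algebraMap k E a)}).Finite :=
    T.finite_toSet.biUnion fun w _ => (subsingleton_value hs w).finite
  obtain ⟨a, ha⟩ := hfin.exists_notMem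
  have hne : s - algebraMap k E a ≠ 0 := by
    intro hc
    apply hs
    rw [sub_eq_zero] at hc
    rw [hc]
    exact isAlgebraic_algebraMap a
  have htr : Transcendental k (s - algebraMap k E a) := by
    intro hc
    apply hs
    have := hc.add (isAlgebraic_algebraMap (R := k) (A := E) a)
    simpa using this
  refine ⟨(s - algebraMap k E a)⁻¹, fun hc => htr (by simpa using hc.inv), ?_⟩
  intro w hw
  rw [← w.1.ord_nonneg_iff (inv_ne_zero hne), Place.ord_inv]
  by_contra hc
  apply ha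
  simp only [Set.mem_iUnion]
  refine ⟨w, hw, ?_⟩
  rw [Set.mem_ofPred_eq]
  omega

/-- There is a function with a simple zero at `P` and which is a unit at finitely many other
given places. -/
theorem exists_ord_one [IsAlgClosed k] [IsFF k E] (T : Finset (PlaceOver k E))
    (P : PlaceOver k E) (hP : P ∉ T) :
    ∃ u : E, u ≠ 0 ∧ P.1.ord u = 1 ∧ ∀ w ∈ T, w.1.ord u = 0 := by
  classical
  obtain ⟨t, ht, htT⟩ := exists_good_t (insert P T)
  obtain ⟨hDed, hFrac⟩ := dedekind_integralClosure (k := k) (E := E) ht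
  let B := integralClosure (Algebra.adjoin k {t}) E
  have hex : ∀ w : PlaceOver k E, w ∈ insert P T →
      ∃ Q : HeightOneSpectrum B, Place.ofPrime E Q = w.1 := by
    intro w hw
    obtain ⟨Q, hQ⟩ := Place.exists_ofPrime (B := B) w.1.ring
      (fun b => mem_of_isIntegral (A := Algebra.adjoin k {t}) w.1.ring
        (fun a => adjoin_mem w.1.ring w.2 (htT w hw) a)
        ((mem_integralClosure_iff (Algebra.adjoin k {t}) E).1 b.2)) w.1.ring_ne_top
    exact ⟨Q, Place.ext' hQ⟩
  have hPm : P ∈ insert P T := Finset.mem_insert_self _ _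
  haveI : Nonempty (HeightOneSpectrum B) := ⟨(hex P hPm).choose⟩
  choose! Q hQ using hex
  obtain ⟨π, hπ⟩ := (Q P).intValuation_exists_uniformizer
  obtain ⟨y, hy⟩ := IsDedekindDomain.exists_forall_sub_mem_ideal
    (s := insert P T) (fun w => (Q w).asIdeal) (fun w => if w = P then 2 else 1)
    (fun w _ => (Q w).prime) (by
      intro w hw w' hw' hne heq
      apply hne
      have h1 : Q w = Q w' := by ext1; exact heq
      apply Subtype.ext
      rw [← hQ w hw, ← hQ w' hw', h1]) (fun w => if w.1 = P then π else 1)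
  have hyP : (Q P).intValuation y = WithZero.exp (-1) := by
    have h1 := hy P hPm
    simp only [if_true] at h1
    rw [← (Q P).intValuation_le_pow_iff_mem] at h1
    have h2 : (Q P).intValuation (y - π) < (Q P).intValuation π := by
      rw [hπ]
      refine lt_of_le_of_lt h1 ?_
      rw [WithZero.exp_lt_exp]
      norm_num
    have h3 := (Q P).intValuation.map_add_eq_of_lt_right h2
    rw [sub_add_cancel, hπ] at h3
    exact h3
  have hy0 : y ≠ 0 := by
    rintro rfl
    rw [map_zero] at hyP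
    exact WithZero.coe_ne_zero hyP.symm
  refine ⟨algebraMap B E y, by simpa using hy0, ?_, ?_⟩
  · rw [← hQ P hPm, Place.ofPrime_ord, HeightOneSpectrum.valuation_of_algebraMap, hyP,
      WithZero.log_exp]
    rfl
  · intro w hw
    have hwm : w ∈ insert P T := Finset.mem_insert_of_mem hw
    have hwP : w ≠ P := by
      rintro rfl
      exact hP hw
    have h1 := hy w hwm
    simp only [if_neg hwP, pow_one] at h1
    have h2 : y ∉ (Q w).asIdeal := by
      intro h3
      apply (Q w).isPrime.ne_top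
      rw [Ideal.eq_top_iff_one]
      have := (Q w).asIdeal.sub_mem h3 h1
      simpa using this
    rw [← hQ w hwm, Place.ofPrime_ord, HeightOneSpectrum.valuation_of_algebraMap,
      (HeightOneSpectrum.intValuation_eq_one_iff_mem_primeCompl _ _).2 h2]
    simp

end

end Vale.Agent.P297
end
end

section

section

set_option linter.unusedSectionVars false
set_option linter.style.haveILetI false

open CategoryTheory AlgebraicGeometry

namespace Vale.Agent.P297

section

variable {S : Scheme.{0}} (f : S ⟶ Spec (.of ℂ)) {E : Type} [Field E] [Algebra ℂ E]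
  (γ : Spec (.of E) ⟶ S)

theorem comp_eq_const (hγ : γ ≫ f = Spec.map (CommRingCat.ofHom (algebraMap ℂ E)))
    (v : Place E) (g : Spec (.of v.ring) ⟶ S)
    (hg : Spec.map (CommRingCat.ofHom (algebraMap v.ring E)) ≫ g = γ) :
    ∃ hk : ∀ a : ℂ, algebraMap ℂ E a ∈ v.ring,
      g ≫ f = Spec.map (CommRingCat.ofHom (constTo v hk)) := by
  let φ : ℂ →+* v.ring := (Spec.preimage (g ≫ f)).hom
  have hφ : Spec.map (CommRingCat.ofHom φ) = g ≫ f := Spec.map_preimage _
  have h1 : Spec.map (CommRingCat.ofHom ((algebraMap v.ring E).comp φ)) =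
      Spec.map (CommRingCat.ofHom (algebraMap ℂ E)) := by
    rw [CommRingCat.ofHom_comp, Spec.map_comp, hφ, ← Category.assoc, hg, hγ]
  have h2 : (algebraMap v.ring E).comp φ = algebraMap ℂ E := by
    have := Spec.map_injective h1
    exact congrArg CommRingCat.Hom.hom this
  have h3 : ∀ a : ℂ, ((φ a : v.ring) : E) = algebraMap ℂ E a := fun a => by
    rw [← h2]; rfl
  have hk : ∀ a : ℂ, algebraMap ℂ E a ∈ v.ring := fun a => by
    rw [← h3]; exact (φ a).2
  refine ⟨hk, ?_⟩
  have h4 : φ = constTo v hk := RingHom.ext fun a => Subtype.ext (h3 a)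
  rw [← hφ, h4]

theorem placeOver_of_isCenter (hγ : γ ≫ f = Spec.map (CommRingCat.ofHom (algebraMap ℂ E)))
    {v : Place E} {x : S} (h : IsCenter γ v x) : ∀ a : ℂ, algebraMap ℂ E a ∈ v.ring := by
  obtain ⟨g, hg, _⟩ := h
  exact (comp_eq_const f γ hγ v g hg).1

theorem exists_lift [IsProper f]
    (hγ : γ ≫ f = Spec.map (CommRingCat.ofHom (algebraMap ℂ E))) (w : PlaceOver ℂ E) :
    ∃ g : Spec (.of w.1.ring) ⟶ S,
      Spec.map (CommRingCat.ofHom (algebraMap w.1.ring E)) ≫ g = γ := by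
  have hv : ValuativeCriterion f := by
    have h : IsProper f := inferInstance
    rw [IsProper.eq_valuativeCriterion] at h
    exact h.1.1.1
  let sq : ValuativeCommSq f :=
    { R := w.1.ring
      K := E
      i₁ := γ
      i₂ := Spec.map (CommRingCat.ofHom (constTo w.1 w.2))
      commSq := ⟨by
        rw [hγ, ← Spec.map_comp, ← CommRingCat.ofHom_comp]
        rfl⟩ }
  obtain ⟨⟨⟨g, hg1, hg2⟩⟩, _⟩ := hv sq
  exact ⟨g, hg1⟩

theorem lift_unique [IsProper f]
    (hγ : γ ≫ f = Spec.map (CommRingCat.ofHom (algebraMap ℂ E))) (v : Place E)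
    (g g' : Spec (.of v.ring) ⟶ S)
    (hg : Spec.map (CommRingCat.ofHom (algebraMap v.ring E)) ≫ g = γ)
    (hg' : Spec.map (CommRingCat.ofHom (algebraMap v.ring E)) ≫ g' = γ) : g = g' := by
  have hv : ValuativeCriterion.Uniqueness f := IsSeparated.valuativeCriterion f
  obtain ⟨hk, h1⟩ := comp_eq_const f γ hγ v g hg
  obtain ⟨_, h2⟩ := comp_eq_const f γ hγ v g' hg'
  let sq : ValuativeCommSq f :=
    { R := v.ring
      K := E
      i₁ := γ
      i₂ := Spec.map (CommRingCat.ofHom (constTo v hk))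
      commSq := ⟨by
        rw [hγ, ← Spec.map_comp, ← CommRingCat.ofHom_comp]
        rfl⟩ }
  have := (hv sq).allEq ⟨g, hg, h1⟩ ⟨g', hg', h2⟩
  exact congrArg CommSq.LiftStruct.l this

theorem isCenter_unique [IsProper f]
    (hγ : γ ≫ f = Spec.map (CommRingCat.ofHom (algebraMap ℂ E))) {v : Place E} {x y : S}
    (hx : IsCenter γ v x) (hy : IsCenter γ v y) : x = y := by
  obtain ⟨g, hg, rfl⟩ := hx
  obtain ⟨g', hg', rfl⟩ := hy
  rw [lift_unique f γ hγ v g g' hg hg']

/-- The value at a place. -/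
noncomputable def evalAt [IsFF ℂ E] (w : PlaceOver ℂ E) : w.1.ring →+* ℂ :=
  (RingEquiv.ofBijective ((IsLocalRing.residue w.1.ring).comp (constTo w.1 w.2))
    ⟨RingHom.injective _, residue_surjective w.1 w.2⟩).symm.toRingHom.comp
      (IsLocalRing.residue w.1.ring)

theorem evalAt_const [IsFF ℂ E] (w : PlaceOver ℂ E) (a : ℂ) :
    evalAt w (constTo w.1 w.2 a) = a := by
  unfold evalAt
  rw [RingHom.comp_apply]
  exact RingEquiv.symm_apply_apply (RingEquiv.ofBijective
    ((IsLocalRing.residue w.1.ring).comp (constTo w.1 w.2)) _) a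

theorem evalAt_eq_zero_iff [IsFF ℂ E] (w : PlaceOver ℂ E) (x : w.1.ring) :
    evalAt w x = 0 ↔ x ∈ IsLocalRing.maximalIdeal w.1.ring := by
  rw [← IsLocalRing.residue_eq_zero_iff]
  unfold evalAt
  rw [RingHom.comp_apply]
  exact map_eq_zero_iff _ (RingEquiv.injective _)

theorem evalAt_comp_const [IsFF ℂ E] (w : PlaceOver ℂ E) :
    (evalAt w).comp (constTo w.1 w.2) = RingHom.id ℂ :=
  RingHom.ext fun a => evalAt_const w a

instance isLocalHom_evalAt [IsFF ℂ E] (w : PlaceOver ℂ E) : IsLocalHom (evalAt w) := by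
  constructor
  intro x hx
  by_contra hc
  have := (evalAt_eq_zero_iff w x).2 ((IsLocalRing.mem_maximalIdeal _).2 hc)
  rw [this] at hx
  exact not_isUnit_zero hx

/-- The closed point of `S` defined by a section over `ℂ`. -/
noncomputable def cpt [LocallyOfFiniteType f] (p : Spec (.of ℂ) ⟶ S) (hp : p ≫ f = 𝟙 _) :
    closedPoints S :=
  pointEquivClosedPoint f ⟨p, hp⟩

theorem cpt_coe [LocallyOfFiniteType f] (p : Spec (.of ℂ) ⟶ S) (hp : p ≫ f = 𝟙 _) :
    (cpt f p hp : S) = p (IsLocalRing.closedPoint ℂ) := rfl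

/-- The extension of `γ` to the place `w`. -/
noncomputable def liftAt [IsProper f]
    (hγ : γ ≫ f = Spec.map (CommRingCat.ofHom (algebraMap ℂ E))) (w : PlaceOver ℂ E) :
    Spec (.of w.1.ring) ⟶ S :=
  (exists_lift f γ hγ w).choose

theorem liftAt_spec [IsProper f]
    (hγ : γ ≫ f = Spec.map (CommRingCat.ofHom (algebraMap ℂ E))) (w : PlaceOver ℂ E) :
    Spec.map (CommRingCat.ofHom (algebraMap w.1.ring E)) ≫ liftAt f γ hγ w = γ :=
  (exists_lift f γ hγ w).choose_spec

theorem liftAt_comp [IsProper f]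
    (hγ : γ ≫ f = Spec.map (CommRingCat.ofHom (algebraMap ℂ E))) (w : PlaceOver ℂ E) :
    liftAt f γ hγ w ≫ f = Spec.map (CommRingCat.ofHom (constTo w.1 w.2)) :=
  (comp_eq_const f γ hγ w.1 _ (liftAt_spec f γ hγ w)).2

theorem eval_lift_comp [IsProper f] [IsFF ℂ E]
    (hγ : γ ≫ f = Spec.map (CommRingCat.ofHom (algebraMap ℂ E))) (w : PlaceOver ℂ E) :
    (Spec.map (CommRingCat.ofHom (evalAt w)) ≫ liftAt f γ hγ w) ≫ f = 𝟙 _ := by
  rw [Category.assoc, liftAt_comp, ← Spec.map_comp, ← CommRingCat.ofHom_comp, evalAt_comp_const]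
  exact Spec.map_id _

/-- The centre of a place. -/
noncomputable def centerMap [IsProper f] [IsFF ℂ E]
    (hγ : γ ≫ f = Spec.map (CommRingCat.ofHom (algebraMap ℂ E))) (w : PlaceOver ℂ E) :
    closedPoints S :=
  cpt f (Spec.map (CommRingCat.ofHom (evalAt w)) ≫ liftAt f γ hγ w) (eval_lift_comp f γ hγ w)

theorem isCenter_centerMap [IsProper f] [IsFF ℂ E]
    (hγ : γ ≫ f = Spec.map (CommRingCat.ofHom (algebraMap ℂ E))) (w : PlaceOver ℂ E) :
    IsCenter γ w.1 (centerMap f γ hγ w : S) := by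
  refine ⟨liftAt f γ hγ w, liftAt_spec f γ hγ w, ?_⟩
  unfold centerMap
  rw [cpt_coe]
  have h := IsLocalRing.comap_closedPoint (evalAt w)
  exact (congrArg (fun z : Spec (.of w.1.ring) => (liftAt f γ hγ w) z) h).symm

theorem isCenter_iff [IsProper f] [IsFF ℂ E]
    (hγ : γ ≫ f = Spec.map (CommRingCat.ofHom (algebraMap ℂ E))) (w : PlaceOver ℂ E)
    (x : closedPoints S) : IsCenter γ w.1 (x : S) ↔ centerMap f γ hγ w = x := by
  constructor
  · intro h
    exact Subtype.ext (isCenter_unique f γ hγ (isCenter_centerMap f γ hγ w) h)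
  · rintro rfl
    exact isCenter_centerMap f γ hγ w

/-- The centre of a place in an affine chart. -/
theorem centerMap_eq_cpt [IsProper f] [IsFF ℂ E]
    (hγ : γ ≫ f = Spec.map (CommRingCat.ofHom (algebraMap ℂ E))) (w : PlaceOver ℂ E)
    {C : Type} [CommRing C] (j : Spec (.of C) ⟶ S) (ι : C →+* E)
    (hι : Spec.map (CommRingCat.ofHom ι) ≫ j = γ) (hC : ∀ c, ι c ∈ w.1.ring) (χ : C →+* ℂ)
    (hχ : ∀ c, evalAt w ⟨ι c, hC c⟩ = χ c)
    (hp : (Spec.map (CommRingCat.ofHom χ) ≫ j) ≫ f = 𝟙 _) :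
    centerMap f γ hγ w = cpt f (Spec.map (CommRingCat.ofHom χ) ≫ j) hp := by
  let ι' : C →+* w.1.ring := ι.codRestrict w.1.ring hC
  have h1 : liftAt f γ hγ w = Spec.map (CommRingCat.ofHom ι') ≫ j := by
    apply lift_unique f γ hγ w.1 _ _ (liftAt_spec f γ hγ w)
    rw [← Category.assoc, ← Spec.map_comp, ← CommRingCat.ofHom_comp]
    exact hι
  have h2 : (evalAt w).comp ι' = χ := RingHom.ext hχ
  apply Subtype.ext
  unfold centerMap
  rw [cpt_coe, cpt_coe, h1, ← Category.assoc, ← Spec.map_comp, ← CommRingCat.ofHom_comp, h2]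

end

end Vale.Agent.P297
end
end

section

section

set_option linter.unusedSectionVars false
set_option linter.style.haveILetI false

open CategoryTheory AlgebraicGeometry

namespace Vale.Agent.P297

theorem mapDomain_apply_finsum {α β : Type*} (g : α → β) (z : α →₀ ℤ) (b : β) :
    Finsupp.mapDomain g z b = ∑ᶠ a : {a // g a = b}, z a := by
  classical
  have h1 : ∑ᶠ a : {a // g a = b}, z a = ∑ᶠ (a : α) (_ : g a = b), z a :=
    finsum_subtype_eq_finsum_cond (f := fun a => z a) _
  rw [h1]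
  have h2 : ∑ᶠ (a : α) (_ : g a = b), z a = ∑ᶠ a : α, (if g a = b then z a else 0) :=
    finsum_congr fun a => finsum_eq_if
  rw [h2, finsum_eq_sum_of_support_subset (s := z.support)]
  · rw [Finsupp.mapDomain, Finsupp.sum_apply, Finsupp.sum]
    refine Finset.sum_congr rfl fun a _ => ?_
    rw [Finsupp.single_apply]
  · intro a ha
    simp only [Function.mem_support] at ha
    simp only [Finset.mem_coe, Finsupp.mem_support_iff]
    intro h0
    apply ha
    rw [h0, ite_self]

section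

variable {S : Scheme.{0}} (f : S ⟶ Spec (.of ℂ)) [IsProper f] {E : Type} [Field E] [Algebra ℂ E]
  [IsFF ℂ E] (γ : Spec (.of E) ⟶ S)

/-- Pushforward of the divisor of a function. -/
noncomputable def pushDiv (hγ : γ ≫ f = Spec.map (CommRingCat.ofHom (algebraMap ℂ E))) (u : E) :
    ZeroCycle S :=
  Finsupp.mapDomain (centerMap f γ hγ) (div ℂ u)

theorem pushDiv_apply (hγ : γ ≫ f = Spec.map (CommRingCat.ofHom (algebraMap ℂ E))) (u : E)
    (x : closedPoints S) : pushDiv f γ hγ u x = divCoeff γ u x := by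
  unfold pushDiv divCoeff
  rw [mapDomain_apply_finsum]
  let e : {w : PlaceOver ℂ E // centerMap f γ hγ w = x} ≃ {v : Place E // IsCenter γ v (x : S)} :=
    { toFun := fun w => ⟨w.1.1, (isCenter_iff f γ hγ w.1 x).2 w.2⟩
      invFun := fun v => ⟨⟨v.1, placeOver_of_isCenter f γ hγ v.2⟩,
        (isCenter_iff f γ hγ ⟨v.1, placeOver_of_isCenter f γ hγ v.2⟩ x).1 v.2⟩
      left_inv := fun w => rfl
      right_inv := fun v => rfl }
  rw [← finsum_comp_equiv e]
  rfl

theorem pushDiv_mul (hγ : γ ≫ f = Spec.map (CommRingCat.ofHom (algebraMap ℂ E))) {u v : E}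
    (hu : u ≠ 0) (hv : v ≠ 0) :
    pushDiv f γ hγ (u * v) = pushDiv f γ hγ u + pushDiv f γ hγ v := by
  unfold pushDiv
  rw [div_mul hu hv, Finsupp.mapDomain_add]

theorem deg_pushDiv (hγ : γ ≫ f = Spec.map (CommRingCat.ofHom (algebraMap ℂ E))) (u : E) :
    deg (pushDiv f γ hγ u) = 0 := by
  unfold pushDiv
  rw [deg_mapDomain, deg_div]

end

section Norm

variable {S : Scheme.{0}} (f : S ⟶ Spec (.of ℂ)) [IsProper f] {K E : Type} [Field K] [Field E]
  [Algebra ℂ K] [Algebra ℂ E] [Algebra K E] [IsScalarTower ℂ K E] [IsFF ℂ K] [IsFF ℂ E]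
  [FiniteDimensional K E]

theorem exists_restrict (K : Type) {E : Type} [Field K] [Field E]
    [Algebra ℂ K] [Algebra ℂ E] [Algebra K E] [IsScalarTower ℂ K E] [IsFF ℂ K]
    [FiniteDimensional K E] (w : PlaceOver ℂ E) :
    ∃ v : PlaceOver ℂ K, v.1.ring = w.1.ring.comap (algebraMap K E) := by
  have hk : ∀ a : ℂ, algebraMap ℂ K a ∈ w.1.ring.comap (algebraMap K E) := by
    intro a
    change algebraMap K E (algebraMap ℂ K a) ∈ w.1.ring
    rw [← IsScalarTower.algebraMap_apply]
    exact w.2 a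
  obtain ⟨v, hv⟩ := exists_place (k := ℂ) (w.1.ring.comap (algebraMap K E)) hk (comap_ne_top w.1)
  exact ⟨⟨v, by rw [hv]; exact hk⟩, hv⟩

/-- Restriction of places. -/
noncomputable def restrictPlace (K : Type) {E : Type} [Field K] [Field E]
    [Algebra ℂ K] [Algebra ℂ E] [Algebra K E] [IsScalarTower ℂ K E] [IsFF ℂ K]
    [FiniteDimensional K E] (w : PlaceOver ℂ E) : PlaceOver ℂ K :=
  (exists_restrict K w).choose

theorem restrictPlace_ring (w : PlaceOver ℂ E) :
    (restrictPlace K w).1.ring = w.1.ring.comap (algebraMap K E) :=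
  (exists_restrict K w).choose_spec

theorem mem_restrictPlace_iff (w : PlaceOver ℂ E) (x : K) :
    x ∈ (restrictPlace K w).1.ring ↔ algebraMap K E x ∈ w.1.ring := by
  rw [restrictPlace_ring]; rfl

theorem mapDomain_restrict {u : E} (hu : u ≠ 0) :
    Finsupp.mapDomain (restrictPlace K) (div ℂ u) = div ℂ (Algebra.norm K u) := by
  haveI : CharZero K := charZero_of_injective_algebraMap (algebraMap ℂ K).injective
  ext v
  rw [mapDomain_apply_finsum, div_apply]
  obtain ⟨hfin, hnorm⟩ := Place.norm_formula (E := E) v.1 (isAlgClosed_residueField v.1 v.2)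
  rw [← hnorm u hu]
  let e : {w : PlaceOver ℂ E // restrictPlace K w = v} ≃ Place.Over E v.1 :=
    { toFun := fun w => ⟨w.1.1, by rw [← restrictPlace_ring (K := K) w.1, w.2]⟩
      invFun := fun w => ⟨⟨w.1, fun a => by
          have h1 : algebraMap ℂ K a ∈ w.1.ring.comap (algebraMap K E) := by
            rw [w.2]; exact v.2 a
          have h2 : algebraMap K E (algebraMap ℂ K a) ∈ w.1.ring := h1
          rwa [← IsScalarTower.algebraMap_apply] at h2⟩, by
          apply Subtype.ext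
          apply Place.ext'
          rw [restrictPlace_ring]
          exact w.2⟩
      left_inv := fun w => rfl
      right_inv := fun w => rfl }
  rw [← finsum_comp_equiv e]
  rfl

theorem restrict_center (γ : Spec (.of K) ⟶ S)
    (hγ : γ ≫ f = Spec.map (CommRingCat.ofHom (algebraMap ℂ K)))
    (hγ' : (Spec.map (CommRingCat.ofHom (algebraMap K E)) ≫ γ) ≫ f =
      Spec.map (CommRingCat.ofHom (algebraMap ℂ E))) (w : PlaceOver ℂ E) :
    centerMap f (Spec.map (CommRingCat.ofHom (algebraMap K E)) ≫ γ) hγ' w =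
      centerMap f γ hγ (restrictPlace K w) := by
  rw [← isCenter_iff]
  obtain ⟨g, hg1, hg2⟩ := isCenter_centerMap f γ hγ (restrictPlace K w)
  have hle : ∀ a : (restrictPlace K w).1.ring, algebraMap K E a ∈ w.1.ring := by
    intro a
    exact (mem_restrictPlace_iff w _).1 a.2
  let φ : (restrictPlace K w).1.ring →+* w.1.ring :=
    ((algebraMap K E).comp (algebraMap (restrictPlace K w).1.ring K)).codRestrict w.1.ring hle
  have hloc : IsLocalHom φ := by
    constructor
    intro a ha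
    by_cases h0 : a = 0
    · rw [h0, map_zero] at ha
      exact absurd ha not_isUnit_zero
    have h0' : (a : K) ≠ 0 := fun h => h0 (Subtype.ext h)
    obtain ⟨b, hb⟩ := ha.exists_right_inv
    have h1 : algebraMap K E (a : K) * (b : E) = 1 := congrArg (fun z : w.1.ring => (z : E)) hb
    have h2 : (a : K)⁻¹ ∈ (restrictPlace K w).1.ring := by
      rw [mem_restrictPlace_iff, map_inv₀, ← eq_inv_of_mul_eq_one_right h1]
      exact b.2
    refine IsUnit.of_mul_eq_one ⟨_, h2⟩ ?_
    exact Subtype.ext (mul_inv_cancel₀ h0')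
  refine ⟨Spec.map (CommRingCat.ofHom φ) ≫ g, ?_, ?_⟩
  · rw [← hg1, ← Category.assoc, ← Category.assoc, ← Spec.map_comp, ← Spec.map_comp,
      ← CommRingCat.ofHom_comp, ← CommRingCat.ofHom_comp]
    rfl
  · rw [← hg2]
    have h := IsLocalRing.comap_closedPoint φ
    exact congrArg (fun z : Spec (.of (restrictPlace K w).1.ring) => g z) h

theorem pushDiv_norm (γ : Spec (.of K) ⟶ S)
    (hγ : γ ≫ f = Spec.map (CommRingCat.ofHom (algebraMap ℂ K)))
    (hγ' : (Spec.map (CommRingCat.ofHom (algebraMap K E)) ≫ γ) ≫ f =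
      Spec.map (CommRingCat.ofHom (algebraMap ℂ E))) {u : E} (hu : u ≠ 0) :
    pushDiv f (Spec.map (CommRingCat.ofHom (algebraMap K E)) ≫ γ) hγ' u =
      pushDiv f γ hγ (Algebra.norm K u) := by
  unfold pushDiv
  have h1 : centerMap f (Spec.map (CommRingCat.ofHom (algebraMap K E)) ≫ γ) hγ' =
      centerMap f γ hγ ∘ restrictPlace K := funext fun w => restrict_center f γ hγ hγ' w
  rw [h1, Finsupp.mapDomain_comp, mapDomain_restrict hu]

end Norm

end Vale.Agent.P297
end
end

section

section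

set_option linter.unusedSectionVars false
set_option linter.style.haveILetI false

open CategoryTheory AlgebraicGeometry

namespace Vale.Agent.P297

section

variable {S : Scheme.{0}} (f : S ⟶ Spec (.of ℂ))

theorem constHom_spec {R : CommRingCat.{0}} (γ : Spec R ⟶ S) :
    Spec.map (CommRingCat.ofHom (constHom f γ)) = γ ≫ f :=
  Spec.map_preimage _

theorem essFinite_toStalk (y : PrimeSpectrum ℂ) :
    (AlgebraicGeometry.StructureSheaf.toStalk ℂ y).hom.EssFiniteType :=
  @Algebra.EssFiniteType.of_isLocalization ℂ _ _ _ (_) (y.asIdeal.primeCompl)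
    (StructureSheaf.IsLocalization.to_stalk ℂ y)

theorem essFinite_specStalk (y : Spec (.of ℂ)) :
    (Spec.preimage ((Spec (.of ℂ)).fromSpecStalk y)).hom.EssFiniteType := by
  have h := Spec.fromSpecStalk_eq' (.of ℂ) y
  have h2 : Spec.preimage ((Spec (.of ℂ)).fromSpecStalk y) =
      StructureSheaf.toStalk (CommRingCat.of ℂ) y := by
    rw [h]
    exact Spec.preimage_map _
  rw [h2]
  exact essFinite_toStalk y

theorem essFinite_residue [LocallyOfFiniteType f] (η : S) :
    (constHom f (S.fromSpecResidueField η)).EssFiniteType := by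
  have h1 : CommRingCat.ofHom (constHom f (S.fromSpecResidueField η)) =
      Spec.preimage ((Spec (.of ℂ)).fromSpecStalk (f η)) ≫ f.stalkMap η ≫ S.residue η := by
    apply Spec.map_injective
    rw [constHom_spec, Spec.map_comp, Spec.map_comp, Spec.map_preimage, Category.assoc,
      Scheme.SpecMap_stalkMap_fromSpecStalk]
    rfl
  have h2 : constHom f (S.fromSpecResidueField η) =
      ((S.residue η).hom.comp (f.stalkMap η).hom).comp
        (Spec.preimage ((Spec (.of ℂ)).fromSpecStalk (f η))).hom := congrArg CommRingCat.Hom.hom h1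
  rw [h2]
  apply RingHom.EssFiniteType.comp (essFinite_specStalk (f η))
  apply RingHom.EssFiniteType.comp (LocallyOfFiniteType.stalkMap f η)
  apply RingHom.FiniteType.essFiniteType
  exact RingHom.FiniteType.of_surjective _ (S.residue_surjective η)

theorem pushDiv_mem_of_curve [IsProper f] (K : Type) [Field K] [Algebra ℂ K] [IsFF ℂ K]
    (γ : Spec (.of K) ⟶ S) (hγ : γ ≫ f = Spec.map (CommRingCat.ofHom (algebraMap ℂ K)))
    (h : ∀ (u : K), u ≠ 0 → ∀ z : ZeroCycle S, (∀ x : closedPoints S, z x = divCoeff γ u x) →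
      z ∈ Rat f) (u : K) : pushDiv f γ hγ u ∈ Rat f := by
  by_cases hu : u = 0
  · subst hu
    have : div ℂ (0 : K) = 0 := by
      ext w
      rw [div_apply, Place.ord_zero]
      rfl
    unfold pushDiv
    rw [this, Finsupp.mapDomain_zero]
    exact (Rat f).zero_mem
  · exact h u hu _ (pushDiv_apply f γ hγ u)

theorem deg_const {α β : Type*} (z : α →₀ ℤ) (b : β) :
    Finsupp.mapDomain (fun _ : α => b) z = Finsupp.single b (deg z) := by
  unfold deg
  rw [Finsupp.mapDomain, Finsupp.liftAddHom_apply, Finsupp.sum, Finsupp.sum,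
    Finsupp.single_finsetSum]
  rfl

theorem pushDiv_mem_Rat [IsProper f] {E : Type} [Field E] [Algebra ℂ E] [IsFF ℂ E]
    (γ : Spec (.of E) ⟶ S) (hγ : γ ≫ f = Spec.map (CommRingCat.ofHom (algebraMap ℂ E))) (u : E) :
    pushDiv f γ hγ u ∈ Rat f := by
  by_cases hu : u = 0
  · subst hu
    have : div ℂ (0 : E) = 0 := by
      ext w
      rw [div_apply, Place.ord_zero]
      rfl
    unfold pushDiv
    rw [this, Finsupp.mapDomain_zero]
    exact (Rat f).zero_mem
  obtain ⟨η, r, hr⟩ : ∃ (η : S) (r : S.residueField η ⟶ .of E),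
      Spec.map r ≫ S.fromSpecResidueField η = γ :=
    ⟨_, _, (Scheme.SpecToEquivOfField E S).left_inv γ⟩
  letI algK : Algebra ℂ (S.residueField η) := (constHom f (S.fromSpecResidueField η)).toAlgebra
  letI algE : Algebra (S.residueField η) E := r.hom.toAlgebra
  have hcK : Spec.map (CommRingCat.ofHom (algebraMap ℂ (S.residueField η))) =
      S.fromSpecResidueField η ≫ f := constHom_spec f _
  haveI tower : IsScalarTower ℂ (S.residueField η) E := by
    apply IsScalarTower.of_algebraMap_eq'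
    have h1 : CommRingCat.ofHom (algebraMap ℂ E) =
        CommRingCat.ofHom ((algebraMap (S.residueField η) E).comp
          (algebraMap ℂ (S.residueField η))) := by
      apply Spec.map_injective
      rw [CommRingCat.ofHom_comp, Spec.map_comp, hcK, ← hγ, ← hr, Category.assoc]
      rfl
    exact congrArg CommRingCat.Hom.hom h1
  haveI essK : Algebra.EssFiniteType ℂ (S.residueField η) := essFinite_residue f η
  have hle : Algebra.trdeg ℂ (S.residueField η) ≤ 1 := by
    rw [← IsFF.td (k := ℂ) (E := E)]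
    exact trdeg_le_of_injective (IsScalarTower.toAlgHom ℂ (S.residueField η) E)
      (algebraMap (S.residueField η) E).injective
  by_cases halg : Algebra.trdeg ℂ (S.residueField η) = 0
  · -- the image is a closed point
    haveI : Algebra.IsAlgebraic ℂ (S.residueField η) := trdeg_eq_zero_iff.1 halg
    haveI : Algebra.IsIntegral ℂ (S.residueField η) := Algebra.IsAlgebraic.isIntegral
    have hbij := IsAlgClosed.algebraMap_bijective_of_isIntegral
      (k := ℂ) (K := S.residueField η)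
    let e := RingEquiv.ofBijective (algebraMap ℂ (S.residueField η)) hbij
    let p : Spec (.of ℂ) ⟶ S :=
      Spec.map (CommRingCat.ofHom e.symm.toRingHom) ≫ S.fromSpecResidueField η
    have he : (algebraMap ℂ (S.residueField η)).comp e.symm.toRingHom = RingHom.id _ :=
      RingHom.ext fun a => e.apply_symm_apply a
    have he' : e.symm.toRingHom.comp (algebraMap ℂ (S.residueField η)) = RingHom.id _ :=
      RingHom.ext fun a => e.symm_apply_apply a
    have hpγ : Spec.map (CommRingCat.ofHom (algebraMap ℂ E)) ≫ p = γ := by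
      change Spec.map (CommRingCat.ofHom (algebraMap ℂ E)) ≫
        Spec.map (CommRingCat.ofHom e.symm.toRingHom) ≫ S.fromSpecResidueField η = γ
      rw [← Category.assoc, ← Spec.map_comp, ← CommRingCat.ofHom_comp,
        IsScalarTower.algebraMap_eq ℂ (S.residueField η) E, RingHom.comp_assoc, he]
      exact hr
    have hp : p ≫ f = 𝟙 _ := by
      change (Spec.map (CommRingCat.ofHom e.symm.toRingHom) ≫ S.fromSpecResidueField η) ≫ f = _
      rw [Category.assoc, ← hcK, ← Spec.map_comp, ← CommRingCat.ofHom_comp, he']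
      exact Spec.map_id _
    have hp' : (Spec.map (CommRingCat.ofHom (RingHom.id ℂ)) ≫ p) ≫ f = 𝟙 _ := by
      have h1 : Spec.map (CommRingCat.ofHom (RingHom.id ℂ)) = 𝟙 _ := Spec.map_id _
      rw [h1, Category.id_comp]
      exact hp
    have hconst : centerMap f γ hγ =
        fun _ => cpt f (Spec.map (CommRingCat.ofHom (RingHom.id ℂ)) ≫ p) hp' := by
      funext w
      exact centerMap_eq_cpt f γ hγ w p (algebraMap ℂ E) hpγ w.2 (RingHom.id ℂ)
        (fun c => evalAt_const w c) hp'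
    unfold pushDiv
    rw [hconst, deg_const, deg_div, Finsupp.single_zero]
    exact (Rat f).zero_mem
  · have htd : Algebra.trdeg ℂ (S.residueField η) = 1 :=
      le_antisymm hle (Cardinal.one_le_iff_ne_zero.2 halg)
    haveI ffK : IsFF ℂ (S.residueField η) := ⟨essK, htd⟩
    haveI : Algebra.IsAlgebraic (S.residueField η) E := by
      rw [← trdeg_eq_zero_iff]
      have h1 := trdeg_add_eq ℂ (S.residueField η) (A := E)
      rw [htd, IsFF.td (k := ℂ) (E := E)] at h1
      by_contra hne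
      have h2 : 1 ≤ Algebra.trdeg (S.residueField η) E := Cardinal.one_le_iff_ne_zero.2 hne
      have h3 : (1 : Cardinal) + 1 ≤ 1 := by
        calc (1 : Cardinal) + 1 ≤ 1 + Algebra.trdeg (S.residueField η) E := by gcongr
          _ = 1 := h1
      have h4 : (1 : Cardinal) + 1 = 2 := by norm_num
      rw [h4] at h3
      exact absurd h3 (by norm_num)
    haveI : FiniteDimensional (S.residueField η) E := by
      haveI := IsFF.fin (k := ℂ) (E := E)
      haveI : Algebra.EssFiniteType (S.residueField η) E :=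
        Algebra.EssFiniteType.of_comp ℂ (S.residueField η) E
      obtain ⟨s, hs⟩ := IntermediateField.fg_top (S.residueField η) E
      haveI : FiniteDimensional (S.residueField η)
          (IntermediateField.adjoin (S.residueField η) (s : Set E)) :=
        IntermediateField.finiteDimensional_adjoin (fun x _ => Algebra.IsIntegral.isIntegral x)
      rw [hs] at this
      exact (IntermediateField.topEquiv (F := S.residueField η) (E := E)).toLinearEquiv.finiteDimensional
    subst hr
    have h5 := pushDiv_norm f (K := S.residueField η) (E := E) (S.fromSpecResidueField η) hcK.symm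
      hγ hu
    have h6 : pushDiv f (Spec.map r ≫ S.fromSpecResidueField η) hγ u =
      pushDiv (E := S.residueField η) f (S.fromSpecResidueField η) hcK.symm
        (Algebra.norm (S.residueField η) u) := h5
    rw [h6]
    exact pushDiv_mem_of_curve f (S.residueField η) (S.fromSpecResidueField η) hcK.symm
      (fun v hv z hz => AddSubgroup.subset_closure ⟨η, htd, v, hv, hz⟩) _

end

end Vale.Agent.P297
end
end

section

section

set_option linter.unusedSectionVars false
set_option linter.style.haveILetI false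

open CategoryTheory AlgebraicGeometry IntermediateField

namespace Vale.Agent.P297

section

variable {E : Type} [Field E] [Algebra ℂ E] [IsFF ℂ E]

theorem exists_place_dominating (D : Subalgebra ℂ E) (χ : D →ₐ[ℂ] ℂ) (d0 : D) (hd0 : d0 ≠ 0)
    (hχ0 : χ d0 = 0) : ∃ w : PlaceOver ℂ E, ∃ hD : ∀ d : D, (d : E) ∈ w.1.ring,
      ∀ d : D, evalAt w ⟨d, hD d⟩ = χ d := by
  let P : Ideal D := RingHom.ker χ.toRingHom
  haveI hP : P.IsPrime := RingHom.ker_isPrime χ.toRingHom
  have hu : ∀ y : P.primeCompl, IsUnit (algebraMap D E y) := by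
    intro y
    rw [isUnit_iff_ne_zero]
    intro h0
    apply y.2
    have : (y : D) = 0 := Subtype.ext h0
    rw [this]
    exact P.zero_mem
  let F : Localization.AtPrime P →+* E := IsLocalization.lift (M := P.primeCompl) hu
  obtain ⟨A, hA, hloc⟩ := IsLocalRing.exists_factor_valuationRing F
  have hD : ∀ d : D, (d : E) ∈ A := by
    intro d
    have h1 := hA (algebraMap D _ d)
    rwa [IsLocalization.lift_eq] at h1
  have hmem : ∀ d : D, (∃ h : (d : E)⁻¹ ∈ A, d ≠ 0) → d ∉ P := by
    rintro d ⟨h, hd0⟩ hdP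
    have h1 : IsUnit ((F.codRestrict A.toSubring hA) (algebraMap D _ d)) := by
      refine IsUnit.of_mul_eq_one (⟨_, h⟩ : A.toSubring) ?_
      apply Subtype.ext
      change F (algebraMap D _ d) * (d : E)⁻¹ = 1
      rw [IsLocalization.lift_eq]
      exact mul_inv_cancel₀ (fun h0 => hd0 (Subtype.ext h0))
    have h2 := hloc.map_nonunit _ h1
    rw [IsLocalization.AtPrime.isUnit_to_map_iff (Localization.AtPrime P) P] at h2
    exact h2 hdP
  have hd0P : d0 ∈ P := hχ0
  have hAtop : A ≠ ⊤ := by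
    intro htop
    refine hmem d0 ⟨?_, hd0⟩ hd0P
    rw [htop]
    exact ValuationSubring.mem_top _
  have hk : ∀ a : ℂ, algebraMap ℂ E a ∈ A := fun a => hD (algebraMap ℂ D a)
  obtain ⟨w, hw⟩ := exists_place (k := ℂ) A hk hAtop
  refine ⟨⟨w, by rw [hw]; exact hk⟩, by intro d; change (d : E) ∈ w.ring; rw [hw]; exact hD d, ?_⟩
  intro d
  set wk : PlaceOver ℂ E := ⟨w, by rw [hw]; exact hk⟩ with hwk
  have hDw : ∀ d : D, (d : E) ∈ wk.1.ring := by
    intro d; change (d : E) ∈ w.ring; rw [hw]; exact hD d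
  have key : ∀ d : D, χ d = 0 → evalAt wk ⟨d, hDw d⟩ = 0 := by
    intro d hd
    rw [evalAt_eq_zero_iff]
    by_contra hc
    rw [IsLocalRing.mem_maximalIdeal, mem_nonunits_iff, not_not] at hc
    obtain ⟨b, hb⟩ := hc.exists_right_inv
    have h1 : (d : E) * (b : E) = 1 := congrArg (fun z : wk.1.ring => (z : E)) hb
    have hd0 : d ≠ 0 := by
      rintro rfl
      simp at h1
    refine hmem d ⟨?_, hd0⟩ hd
    rw [← eq_inv_of_mul_eq_one_right h1, ← hw]
    exact b.2
  have h1 := key (d - algebraMap ℂ D (χ d)) (by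
    rw [map_sub, AlgHom.commutes]; simp)
  have h2 : (⟨((d - algebraMap ℂ D (χ d) : D) : E), hDw _⟩ : wk.1.ring) =
      ⟨d, hDw d⟩ - constTo wk.1 wk.2 (χ d) := rfl
  rw [h2, map_sub, evalAt_const, sub_eq_zero] at h1
  exact h1

theorem transcendental_sub {t : E} (ht : Transcendental ℂ t) (a : ℂ) :
    Transcendental ℂ (t - algebraMap ℂ E a) := by
  intro hc
  apply ht
  have := hc.add (isAlgebraic_algebraMap (R := ℂ) (A := E) a)
  simpa using this

theorem adjoin_sub (t : E) (a : ℂ) : ℂ⟮t - algebraMap ℂ E a⟯ = ℂ⟮t⟯ := by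
  apply le_antisymm
  · rw [IntermediateField.adjoin_simple_le_iff]
    exact sub_mem (IntermediateField.mem_adjoin_simple_self ℂ t) (_root_.algebraMap_mem _ a)
  · rw [IntermediateField.adjoin_simple_le_iff]
    have := add_mem (IntermediateField.mem_adjoin_simple_self ℂ (t - algebraMap ℂ E a))
      (_root_.algebraMap_mem ℂ⟮t - algebraMap ℂ E a⟯ a)
    simpa using this

/-- If we know `[E : ℂ(t)]` distinct places over `t = a`, these are all, and they are simple. -/
theorem pos_part_eq {t : E} (ht : Transcendental ℂ t) (a : ℂ) (T : Finset (PlaceOver ℂ E))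
    (hT : ∀ w ∈ T, 0 < w.1.ord (t - algebraMap ℂ E a))
    (hcard : Module.finrank ℂ⟮t⟯ E ≤ T.card) (w : PlaceOver ℂ E) [Decidable (w ∈ T)] :
    max (w.1.ord (t - algebraMap ℂ E a)) 0 = if w ∈ T then 1 else 0 := by
  classical
  set s := t - algebraMap ℂ E a with hs
  have hstr : Transcendental ℂ s := transcendental_sub ht a
  have hsum : ∑ᶠ w : PlaceOver ℂ E, max (w.1.ord s) 0 = Module.finrank ℂ⟮t⟯ E := by
    rw [finsum_pos_part, (degree_formula hstr).2, hs, adjoin_sub]
  have hfin : (Function.support (fun w : PlaceOver ℂ E => max (w.1.ord s) 0)).Finite := by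
    refine (finite_zeros (k := ℂ) s).subset ?_
    intro w hw
    simp only [Function.mem_support] at hw
    simp only [Set.mem_ofPred_eq]
    omega
  set F : Finset (PlaceOver ℂ E) := insert w (hfin.toFinset ∪ T) with hF
  have hsub : Function.support (fun w : PlaceOver ℂ E => max (w.1.ord s) 0) ⊆ F := by
    intro v hv
    rw [hF, Finset.coe_insert, Finset.coe_union]
    right; left
    simpa using hv
  rw [finsum_eq_sum_of_support_subset _ hsub] at hsum
  have hTF : T ⊆ F := by
    intro v hv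
    rw [hF]
    exact Finset.mem_insert_of_mem (Finset.mem_union_right _ hv)
  have h1 : ∀ v ∈ F, (if v ∈ T then (1 : ℤ) else 0) ≤ max (v.1.ord s) 0 := by
    intro v _
    split_ifs with hv
    · have := hT v hv
      omega
    · exact le_max_right _ _
  have h2 : ∑ v ∈ F, (if v ∈ T then (1 : ℤ) else 0) = T.card := by
    rw [Finset.sum_ite_mem, Finset.inter_eq_right.2 hTF]
    simp
  have h3 : ∑ v ∈ F, (if v ∈ T then (1 : ℤ) else 0) = ∑ v ∈ F, max (v.1.ord s) 0 := by
    apply le_antisymm (Finset.sum_le_sum h1)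
    rw [hsum, h2]
    exact_mod_cast hcard
  have h4 := (Finset.sum_eq_sum_iff_of_le h1).1 h3 w (by rw [hF]; exact Finset.mem_insert_self _ _)
  rw [← h4]
  split_ifs <;> rfl

theorem ord_sub_of_neg {t : E} (a b : ℂ) (w : PlaceOver ℂ E)
    (h : w.1.ord (t - algebraMap ℂ E a) < 0) :
    w.1.ord (t - algebraMap ℂ E b) = w.1.ord (t - algebraMap ℂ E a) := by
  by_cases hab : a = b
  · rw [hab]
  have h0 : t - algebraMap ℂ E a ≠ 0 := by
    intro h0
    rw [h0, Place.ord_zero] at h
    exact lt_irrefl _ h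
  have h1 : t - algebraMap ℂ E b = (t - algebraMap ℂ E a) + algebraMap ℂ E (a - b) := by
    rw [map_sub]; ring
  have h2 : algebraMap ℂ E (a - b) ≠ 0 := (map_ne_zero (algebraMap ℂ E)).2 (sub_ne_zero.2 hab)
  rw [h1]
  apply Place.ord_add_eq_of_lt _ h0 h2
  rw [ord_const]
  exact h

theorem neg_part_eq {t : E} (a b : ℂ) (w : PlaceOver ℂ E) :
    max (-w.1.ord (t - algebraMap ℂ E a)) 0 = max (-w.1.ord (t - algebraMap ℂ E b)) 0 := by
  by_cases ha : w.1.ord (t - algebraMap ℂ E a) < 0
  · rw [ord_sub_of_neg a b w ha]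
  · by_cases hb : w.1.ord (t - algebraMap ℂ E b) < 0
    · rw [ord_sub_of_neg b a w hb]
    · omega

/-- The divisor of `(t - a)/(t - b)`. -/
theorem div_frac_eq {t : E} (ht : Transcendental ℂ t) (a b : ℂ) (T T' : Finset (PlaceOver ℂ E))
    (hT : ∀ w ∈ T, 0 < w.1.ord (t - algebraMap ℂ E a))
    (hT' : ∀ w ∈ T', 0 < w.1.ord (t - algebraMap ℂ E b))
    (hcard : Module.finrank ℂ⟮t⟯ E ≤ T.card) (hcard' : Module.finrank ℂ⟮t⟯ E ≤ T'.card) :
    div ℂ ((t - algebraMap ℂ E a) / (t - algebraMap ℂ E b)) =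
      ∑ w ∈ T, Finsupp.single w 1 - ∑ w ∈ T', Finsupp.single w 1 := by
  classical
  have hne : ∀ c : ℂ, t - algebraMap ℂ E c ≠ 0 := by
    intro c h0
    apply transcendental_sub ht c
    rw [h0]
    exact isAlgebraic_zero
  ext w
  rw [div_apply, Place.ord_div _ (hne a) (hne b), Finsupp.sub_apply, Finsupp.finsetSum_apply,
    Finsupp.finsetSum_apply]
  have hsum : ∀ T : Finset (PlaceOver ℂ E), ∑ v ∈ T, (Finsupp.single v (1 : ℤ)) w =
      if w ∈ T then 1 else 0 := by
    intro T
    simp [Finsupp.single_apply]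
  rw [hsum, hsum, ← pos_part_eq ht a T hT hcard, ← pos_part_eq ht b T' hT' hcard']
  have := neg_part_eq (t := t) a b w
  omega

end

section

variable {S : Scheme.{0}} (f : S ⟶ Spec (.of ℂ)) {C : Type} [CommRing C]
  [Algebra ℂ C] (j : Spec (.of C) ⟶ S)

theorem pt_aux (hj : j ≫ f = Spec.map (CommRingCat.ofHom (algebraMap ℂ C))) (φ : C →ₐ[ℂ] ℂ) :
    (Spec.map (CommRingCat.ofHom φ.toRingHom) ≫ j) ≫ f = 𝟙 _ := by
  rw [Category.assoc, hj, ← Spec.map_comp, ← CommRingCat.ofHom_comp]
  have : φ.toRingHom.comp (algebraMap ℂ C) = RingHom.id ℂ := RingHom.ext fun a => φ.commutes a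
  rw [this]
  exact Spec.map_id _

/-- The closed point of `S` attached to a `ℂ`-point of an affine chart. -/
noncomputable def pt [LocallyOfFiniteType f]
    (hj : j ≫ f = Spec.map (CommRingCat.ofHom (algebraMap ℂ C))) (φ : C →ₐ[ℂ] ℂ) :
    closedPoints S :=
  cpt f (Spec.map (CommRingCat.ofHom φ.toRingHom) ≫ j) (pt_aux f j hj φ)

/-- The line lemma. -/
theorem line_lemma [IsProper f] {E : Type} [Field E] [Algebra ℂ E] [IsFF ℂ E]
    (hj : j ≫ f = Spec.map (CommRingCat.ofHom (algebraMap ℂ C)))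
    {t : E} (ht : Transcendental ℂ t) (D : Subalgebra ℂ E) (htD : t ∈ D)
    (ι : C →ₐ[ℂ] D) (a b : ℂ) {I J : Type} [Fintype I] [Fintype J]
    (X : I → (D →ₐ[ℂ] ℂ)) (Y : J → (D →ₐ[ℂ] ℂ))
    (hXinj : Function.Injective X) (hYinj : Function.Injective Y)
    (hX : ∀ i, X i ⟨t, htD⟩ = a) (hY : ∀ i, Y i ⟨t, htD⟩ = b)
    (hcardX : Fintype.card I = Module.finrank ℂ⟮t⟯ E)
    (hcardY : Fintype.card J = Module.finrank ℂ⟮t⟯ E) :
    ∑ i, Finsupp.single (pt f j hj ((X i).comp ι)) (1 : ℤ) -
      ∑ i, Finsupp.single (pt f j hj ((Y i).comp ι)) (1 : ℤ) ∈ Rat f := by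
  classical
  have key : ∀ (a : ℂ) {I : Type} [Fintype I] (X : I → (D →ₐ[ℂ] ℂ)), Function.Injective X →
      (∀ i, X i ⟨t, htD⟩ = a) → ∃ W : I → PlaceOver ℂ E, Function.Injective W ∧
        (∀ i, 0 < (W i).1.ord (t - algebraMap ℂ E a)) ∧
        ∀ i, ∃ hD : ∀ d : D, (d : E) ∈ (W i).1.ring, ∀ d : D, evalAt (W i) ⟨d, hD d⟩ = X i d := by
    intro a I _ X hXinj hX
    have h1 : ∀ i, ∃ w : PlaceOver ℂ E, ∃ hD : ∀ d : D, (d : E) ∈ w.1.ring,
        ∀ d : D, evalAt w ⟨d, hD d⟩ = X i d := by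
      intro i
      apply exists_place_dominating D (X i) (⟨t, htD⟩ - algebraMap ℂ D a)
      · intro h0
        apply transcendental_sub ht a
        have h2 : t - algebraMap ℂ E a = 0 := congrArg (fun z : D => (z : E)) h0
        rw [h2]
        exact isAlgebraic_zero
      · rw [map_sub, hX i, AlgHom.commutes]
        simp
    choose W hW using h1
    refine ⟨W, ?_, ?_, hW⟩
    · intro i i' hii
      apply hXinj
      apply AlgHom.ext
      intro d
      obtain ⟨hD, hd⟩ := hW i
      obtain ⟨hD', hd'⟩ := hW i'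
      rw [← hd d, ← hd' d]
      have : ∀ (w w' : PlaceOver ℂ E) (hw : (d : E) ∈ w.1.ring) (hw' : (d : E) ∈ w'.1.ring),
          w = w' → evalAt w ⟨d, hw⟩ = evalAt w' ⟨d, hw'⟩ := by
        rintro w _ hw hw' rfl
        rfl
      exact this _ _ _ _ hii
    · intro i
      obtain ⟨hD, hd⟩ := hW i
      apply (W i).1.ord_pos_of_inv_notMem
      intro hinv
      have h3 := hd (⟨t, htD⟩ - algebraMap ℂ D a)
      rw [map_sub, hX i, AlgHom.commutes] at h3
      have h4 : X i ⟨t, htD⟩ - algebraMap ℂ ℂ a = 0 := by rw [hX i]; simp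
      rw [show (a - (algebraMap ℂ ℂ) a : ℂ) = 0 by simp, evalAt_eq_zero_iff,
        IsLocalRing.mem_maximalIdeal] at h3
      apply h3
      refine IsUnit.of_mul_eq_one ⟨_, hinv⟩ ?_
      apply Subtype.ext
      refine mul_inv_cancel₀ ?_
      intro h0
      apply transcendental_sub ht a
      have h5 : t - algebraMap ℂ E a = 0 := h0
      rw [h5]
      exact isAlgebraic_zero
  obtain ⟨W, hWinj, hWpos, hW⟩ := key a X hXinj hX
  obtain ⟨W', hWinj', hWpos', hW'⟩ := key b Y hYinj hY
  let γ : Spec (.of E) ⟶ S :=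
    Spec.map (CommRingCat.ofHom ((algebraMap D E).comp ι.toRingHom)) ≫ j
  have hγ : γ ≫ f = Spec.map (CommRingCat.ofHom (algebraMap ℂ E)) := by
    change (Spec.map (CommRingCat.ofHom ((algebraMap D E).comp ι.toRingHom)) ≫ j) ≫ f = _
    rw [Category.assoc, hj, ← Spec.map_comp, ← CommRingCat.ofHom_comp]
    congr 2
    ext c
    change ((ι (algebraMap ℂ C c) : D) : E) = _
    rw [AlgHom.commutes]
    rfl
  have hdiv := div_frac_eq ht a b (Finset.univ.image W) (Finset.univ.image W')
    (by intro w hw; rw [Finset.mem_image] at hw; obtain ⟨i, _, rfl⟩ := hw; exact hWpos i)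
    (by intro w hw; rw [Finset.mem_image] at hw; obtain ⟨i, _, rfl⟩ := hw; exact hWpos' i)
    (by rw [Finset.card_image_of_injective _ hWinj, Finset.card_univ, hcardX])
    (by rw [Finset.card_image_of_injective _ hWinj', Finset.card_univ, hcardY])
  rw [Finset.sum_image (fun x _ y _ h => hWinj h),
    Finset.sum_image (fun x _ y _ h => hWinj' h)] at hdiv
  have hcen : ∀ (w : PlaceOver ℂ E) (φ : D →ₐ[ℂ] ℂ) (hD : ∀ d : D, (d : E) ∈ w.1.ring)
      (_ : ∀ d : D, evalAt w ⟨d, hD d⟩ = φ d), centerMap f γ hγ w = pt f j hj (φ.comp ι) := by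
    intro w φ hD hφ
    exact centerMap_eq_cpt f γ hγ w j ((algebraMap D E).comp ι.toRingHom) rfl
      (fun c => hD (ι c)) (φ.comp ι).toRingHom (fun c => hφ (ι c)) (pt_aux f j hj _)
  have hfinal := pushDiv_mem_Rat f γ hγ ((t - algebraMap ℂ E a) / (t - algebraMap ℂ E b))
  unfold pushDiv at hfinal
  have hsub : ∀ z z' : PlaceOver ℂ E →₀ ℤ, Finsupp.mapDomain (centerMap f γ hγ) (z - z') =
      Finsupp.mapDomain (centerMap f γ hγ) z - Finsupp.mapDomain (centerMap f γ hγ) z' :=
    fun z z' => map_sub (Finsupp.mapDomain.addMonoidHom (centerMap f γ hγ)) z z'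
  rw [hdiv, hsub, Finsupp.mapDomain_finsetSum, Finsupp.mapDomain_finsetSum] at hfinal
  have e1 : ∀ i, Finsupp.mapDomain (centerMap f γ hγ) (Finsupp.single (W i) (1 : ℤ)) =
      Finsupp.single (pt f j hj ((X i).comp ι)) (1 : ℤ) := by
    intro i
    obtain ⟨hD, hd⟩ := hW i
    rw [Finsupp.mapDomain_single, hcen (W i) (X i) hD hd]
  have e2 : ∀ i, Finsupp.mapDomain (centerMap f γ hγ) (Finsupp.single (W' i) (1 : ℤ)) =
      Finsupp.single (pt f j hj ((Y i).comp ι)) (1 : ℤ) := by
    intro i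
    obtain ⟨hD, hd⟩ := hW' i
    rw [Finsupp.mapDomain_single, hcen (W' i) (Y i) hD hd]
  rw [Finset.sum_congr rfl (fun i _ => e1 i), Finset.sum_congr rfl (fun i _ => e2 i)] at hfinal
  exact hfinal

end

end Vale.Agent.P297
end
end

section

section

set_option linter.unusedSectionVars false
set_option linter.style.haveILetI false

open CategoryTheory AlgebraicGeometry IntermediateField Polynomial

namespace Vale.Agent.P297

theorem ff_of_adjoin_top {K E : Type} [Field K] [Field E] [Algebra ℂ K] [Algebra ℂ E]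
    [Algebra K E] [IsScalarTower ℂ K E] [FiniteDimensional K E] {t : K}
    (ht : Transcendental ℂ t) (htop : ℂ⟮t⟯ = ⊤) :
    IsFF ℂ E ∧ Transcendental ℂ (algebraMap K E t) ∧
      Module.finrank ℂ⟮algebraMap K E t⟯ E = Module.finrank K E := by
  let φ : K →ₐ[ℂ] E := IsScalarTower.toAlgHom ℂ K E
  have hφ : φ.fieldRange = ℂ⟮algebraMap K E t⟯ := by
    rw [AlgHom.fieldRange_eq_map, ← htop, IntermediateField.adjoin_map, Set.image_singleton]
    rfl
  let e : K ≃ₐ[ℂ] ℂ⟮algebraMap K E t⟯ :=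
    (AlgEquiv.ofInjectiveField φ).trans (IntermediateField.equivOfEq hφ)
  have he : ∀ x : K, ((e x : ℂ⟮algebraMap K E t⟯) : E) = algebraMap K E x := fun x => rfl
  have htr : Transcendental ℂ (algebraMap K E t) := by
    intro hc
    apply ht
    exact (isAlgebraic_algebraMap_iff (algebraMap K E).injective).1 hc
  have hfr : Module.finrank K E = Module.finrank ℂ⟮algebraMap K E t⟯ E := by
    apply Algebra.finrank_eq_of_equiv_equiv e.toRingEquiv (RingEquiv.refl E)
    ext x
    exact he x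
  have hfin : FiniteDimensional ℂ⟮algebraMap K E t⟯ E := by
    have : Module.Finite K E := inferInstance
    obtain ⟨s, hs⟩ := this.fg_top
    refine ⟨⟨s, ?_⟩⟩
    rw [eq_top_iff]
    intro x _
    have hx : x ∈ Submodule.span K (s : Set E) := by rw [hs]; trivial
    induction hx using Submodule.span_induction with
    | mem y hy => exact Submodule.subset_span hy
    | zero => exact zero_mem _
    | add y z _ _ hy hz => exact add_mem (hy trivial) (hz trivial)
    | smul a y _ hy =>
      have h1 : a • y = (e a) • y := by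
        rw [Algebra.smul_def]
        rfl
      rw [h1]
      exact Submodule.smul_mem _ _ (hy trivial)
  exact ⟨IsFF.of_finiteDimensional htr hfin, htr, hfr.symm⟩

/-- The fibre of `Spec B → Spec R` over a `ℂ`-point. -/
abbrev Fib {R : Type} [CommRing R] [Algebra ℂ R] (e : R →ₐ[ℂ] ℂ) (B : Type) [CommRing B]
    [Algebra ℂ B] [Algebra R B] : Type :=
  {χ : B →ₐ[ℂ] ℂ // ∀ r : R, χ (algebraMap R B r) = e r}

section

variable {R : Type} [CommRing R] [Algebra ℂ R] (e : R →ₐ[ℂ] ℂ) (F : R[X])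

theorem fib_root (χ : Fib e (AdjoinRoot F)) :
    (F.map e.toRingHom).IsRoot (χ.1 (AdjoinRoot.root F)) := by
  rw [IsRoot, Polynomial.eval_map]
  have h1 : χ.1.toRingHom.comp (AdjoinRoot.of F) = e.toRingHom := RingHom.ext fun r => χ.2 r
  have h2 := AdjoinRoot.eval₂_root F
  have h3 := congrArg χ.1.toRingHom h2
  rw [Polynomial.hom_eval₂, h1, map_zero] at h3
  exact h3

theorem fib_ext {χ χ' : Fib e (AdjoinRoot F)}
    (h : χ.1 (AdjoinRoot.root F) = χ'.1 (AdjoinRoot.root F)) : χ = χ' := by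
  apply Subtype.ext
  apply AdjoinRoot.algHom_ext'
  · apply AlgHom.ext
    intro r
    exact (χ.2 r).trans (χ'.2 r).symm
  · exact h

/-- The point of the fibre at a root. -/
noncomputable def fibMk (ρ : ℂ) (h : (F.map e.toRingHom).IsRoot ρ) : Fib e (AdjoinRoot F) :=
  ⟨AdjoinRoot.liftAlgHom F e ρ (by
    rw [IsRoot, Polynomial.eval_map] at h
    exact h), fun r => AdjoinRoot.liftAlgHom_of _ _ _ _ _⟩

theorem fibMk_root (ρ : ℂ) (h : (F.map e.toRingHom).IsRoot ρ) :
    (fibMk e F ρ h).1 (AdjoinRoot.root F) = ρ :=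
  AdjoinRoot.liftAlgHom_root _ _ _ _

/-- The fibre is the set of roots. -/
noncomputable def fibEquiv : Fib e (AdjoinRoot F) ≃ {ρ : ℂ // (F.map e.toRingHom).IsRoot ρ} where
  toFun χ := ⟨χ.1 (AdjoinRoot.root F), fib_root e F χ⟩
  invFun ρ := fibMk e F ρ.1 ρ.2
  left_inv _ := fib_ext e F (fibMk_root e F _ _)
  right_inv _ := Subtype.ext (fibMk_root e F _ _)

theorem fib_finite (hF : F.Monic) : Finite (Fib e (AdjoinRoot F)) := by
  haveI : Finite {ρ : ℂ // (F.map e.toRingHom).IsRoot ρ} := by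
    have h := (F.map e.toRingHom).roots.toFinset.finite_toSet
    refine Set.Finite.subset h ?_
    intro ρ hρ
    simp only [Finset.mem_coe, Multiset.mem_toFinset]
    rw [mem_roots (hF.map _).ne_zero]
    exact hρ
  exact Finite.of_equiv _ (fibEquiv e F).symm

theorem fib_card (hF : F.Monic) (hs : (F.map e.toRingHom).Separable) :
    Nat.card (Fib e (AdjoinRoot F)) = F.natDegree := by
  rw [Nat.card_congr (fibEquiv e F)]
  have h1 : Nat.card {ρ : ℂ // (F.map e.toRingHom).IsRoot ρ} =
      (F.map e.toRingHom).roots.toFinset.card := by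
    apply Nat.subtype_card
    intro ρ
    rw [Multiset.mem_toFinset, mem_roots (hF.map _).ne_zero]
  rw [h1, Multiset.toFinset_card_of_nodup (nodup_roots hs),
    ← (IsAlgClosed.splits (F.map e.toRingHom)).natDegree_eq_card_roots, hF.natDegree_map]

end

section

variable {S : Scheme.{0}} (f : S ⟶ Spec (.of ℂ)) {C : Type} [CommRing C]
  [Algebra ℂ C] (j : Spec (.of C) ⟶ S)
  (hj : j ≫ f = Spec.map (CommRingCat.ofHom (algebraMap ℂ C)))

/-- The cycle of a fibre. -/
noncomputable def fibCyc [LocallyOfFiniteType f] {R : Type} [CommRing R] [Algebra ℂ R]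
    (e : R →ₐ[ℂ] ℂ) {B : Type} [CommRing B] [Algebra ℂ B] [Algebra R B] (θ : C →ₐ[ℂ] B) :
    ZeroCycle S :=
  ∑ᶠ χ : Fib e B, Finsupp.single (pt f j hj (χ.1.comp θ)) (1 : ℤ)

variable {R : Type} [CommRing R] [IsDomain R] [IsIntegrallyClosed R] [Algebra ℂ R]

theorem adjoin_fractionRing_top {t : R}
    (hgen : ∀ r : R, ∃ p q : ℂ[X], aeval t q ≠ 0 ∧ r * aeval t q = aeval t p) :
    ℂ⟮algebraMap R (FractionRing R) t⟯ = ⊤ := by
  rw [eq_top_iff]
  intro x _
  have hpoly : ∀ p : ℂ[X], algebraMap R (FractionRing R) (aeval t p) ∈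
      ℂ⟮algebraMap R (FractionRing R) t⟯ := by
    intro p
    rw [← aeval_algebraMap_apply]
    exact IntermediateField.algebra_adjoin_le_adjoin ℂ _
      (aeval_mem_adjoin_singleton ℂ _)
  have hR : ∀ r : R, algebraMap R (FractionRing R) r ∈
      ℂ⟮algebraMap R (FractionRing R) t⟯ := by
    intro r
    obtain ⟨p, q, hq, hr⟩ := hgen r
    have h1 : algebraMap R (FractionRing R) r = algebraMap R (FractionRing R) (aeval t p) /
        algebraMap R (FractionRing R) (aeval t q) := by
      rw [eq_div_iff, ← map_mul, hr]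
      simpa using hq
    rw [h1]
    exact div_mem (hpoly p) (hpoly q)
  obtain ⟨a, b, _, rfl⟩ := IsFractionRing.div_surjective (A := R) x
  exact div_mem (hR a) (hR b)

theorem transfer_irreducible [IsProper f] {t : R} (ht : Transcendental ℂ t)
    (hgen : ∀ r : R, ∃ p q : ℂ[X], aeval t q ≠ 0 ∧ r * aeval t q = aeval t p)
    (e₀ e₁ : R →ₐ[ℂ] ℂ) (F : R[X]) (hF : F.Monic) (hirr : Irreducible F)
    (hs₀ : (F.map e₀.toRingHom).Separable) (hs₁ : (F.map e₁.toRingHom).Separable)
    (θ : C →ₐ[ℂ] AdjoinRoot F) :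
    fibCyc f j hj e₀ θ - fibCyc f j hj e₁ θ ∈ Rat f := by
  let K := FractionRing R
  let FK : K[X] := F.map (algebraMap R K)
  have hFK : FK.Monic := hF.map _
  haveI : Fact (Irreducible FK) :=
    ⟨(hF.irreducible_iff_irreducible_map_fraction_map (K := K)).1 hirr⟩
  have hdvd : FK ∣ F.map (IsScalarTower.toAlgHom ℂ R K).toRingHom := dvd_refl _
  let Ψ : AdjoinRoot F →ₐ[ℂ] AdjoinRoot FK :=
    AdjoinRoot.mapAlgHom (IsScalarTower.toAlgHom ℂ R K) F FK hdvd
  have hΨmk : ∀ g : R[X], Ψ (AdjoinRoot.mk F g) = AdjoinRoot.mk FK (g.map (algebraMap R K)) := by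
    intro g
    change AdjoinRoot.map _ F FK hdvd (AdjoinRoot.mk F g) = _
    unfold AdjoinRoot.map
    rw [AdjoinRoot.lift_mk, ← Polynomial.eval₂_map, ← AdjoinRoot.aeval_eq]
    rfl
  have hΨinj : Function.Injective Ψ := by
    rw [injective_iff_map_eq_zero]
    intro x hx
    obtain ⟨g, rfl⟩ := AdjoinRoot.mk_surjective x
    rw [hΨmk, AdjoinRoot.mk_eq_zero] at hx
    rw [AdjoinRoot.mk_eq_zero]
    exact (Polynomial.map_dvd_map _ (IsFractionRing.injective R K) hF).1 hx
  haveI : FiniteDimensional K (AdjoinRoot FK) := (AdjoinRoot.powerBasis hFK.ne_zero).finite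
  have htK : Transcendental ℂ (algebraMap R K t) := by
    intro hc
    apply ht
    exact (isAlgebraic_algebraMap_iff (IsFractionRing.injective R K)).1 hc
  obtain ⟨hFF, htE, hfr⟩ := ff_of_adjoin_top (E := AdjoinRoot FK) htK
    (adjoin_fractionRing_top hgen)
  have hdeg : Module.finrank K (AdjoinRoot FK) = F.natDegree := by
    rw [(AdjoinRoot.powerBasis hFK.ne_zero).finrank, AdjoinRoot.powerBasis_dim, hF.natDegree_map]
  let ψ : AdjoinRoot F ≃ₐ[ℂ] Ψ.range := AlgEquiv.ofInjective Ψ hΨinj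
  have htD : algebraMap K (AdjoinRoot FK) (algebraMap R K t) ∈ Ψ.range := by
    refine ⟨AdjoinRoot.of F t, ?_⟩
    change Ψ (AdjoinRoot.of F t) = _
    rw [← AdjoinRoot.mk_C, hΨmk, Polynomial.map_C, AdjoinRoot.mk_C]
    rfl
  have hψt : ψ (AdjoinRoot.of F t) = ⟨_, htD⟩ := by
    apply Subtype.ext
    change Ψ (AdjoinRoot.of F t) = _
    rw [← AdjoinRoot.mk_C, hΨmk, Polynomial.map_C, AdjoinRoot.mk_C]
    rfl
  haveI := fib_finite e₀ F hF
  haveI := fib_finite e₁ F hF
  letI := Fintype.ofFinite (Fib e₀ (AdjoinRoot F))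
  letI := Fintype.ofFinite (Fib e₁ (AdjoinRoot F))
  have key := line_lemma f j hj htE Ψ.range htD (ψ.toAlgHom.comp θ) (e₀ t) (e₁ t)
    (fun χ : Fib e₀ (AdjoinRoot F) => χ.1.comp ψ.symm.toAlgHom)
    (fun χ : Fib e₁ (AdjoinRoot F) => χ.1.comp ψ.symm.toAlgHom)
    (by
      intro χ χ' h
      apply Subtype.ext
      apply AlgHom.ext
      intro x
      have := DFunLike.congr_fun h (ψ x)
      simpa using this)
    (by
      intro χ χ' h
      apply Subtype.ext
      apply AlgHom.ext
      intro x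
      have := DFunLike.congr_fun h (ψ x)
      simpa using this)
    (by
      intro χ
      rw [← hψt]
      have h2 : (χ.1.comp ψ.symm.toAlgHom) (ψ (AdjoinRoot.of F t)) = χ.1 (AdjoinRoot.of F t) := by
        simp
      rw [h2]
      exact χ.2 t)
    (by
      intro χ
      rw [← hψt]
      have h2 : (χ.1.comp ψ.symm.toAlgHom) (ψ (AdjoinRoot.of F t)) = χ.1 (AdjoinRoot.of F t) := by
        simp
      rw [h2]
      exact χ.2 t)
    (by rw [← Nat.card_eq_fintype_card, fib_card e₀ F hF hs₀, hfr, hdeg])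
    (by rw [← Nat.card_eq_fintype_card, fib_card e₁ F hF hs₁, hfr, hdeg])
  unfold fibCyc
  rw [finsum_eq_sum_of_fintype, finsum_eq_sum_of_fintype]
  have hc : ∀ φ : AdjoinRoot F →ₐ[ℂ] ℂ,
      (φ.comp ψ.symm.toAlgHom).comp (ψ.toAlgHom.comp θ) = φ.comp θ := by
    intro φ
    apply AlgHom.ext
    intro x
    simp
  simp only [hc] at key
  exact key

theorem algHomOfDvd_algebraMap (P Q : R[X]) (h : Q ∣ P) (r : R) :
    AdjoinRoot.algHomOfDvd ℂ P Q h (algebraMap R (AdjoinRoot P) r) =
      algebraMap R (AdjoinRoot Q) r := by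
  rw [AdjoinRoot.algebraMap_eq, AdjoinRoot.algebraMap_eq]
  simp [AdjoinRoot.algHomOfDvd]

/-- Decomposition of a fibre for a product of polynomials. -/
theorem fibCyc_mul [LocallyOfFiniteType f] (e : R →ₐ[ℂ] ℂ) (G H : R[X]) (hG : G.Monic)
    (hH : H.Monic) (hs : ((G * H).map e.toRingHom).Separable)
    (θ : C →ₐ[ℂ] AdjoinRoot (G * H)) :
    fibCyc f j hj e θ =
      fibCyc f j hj e ((AdjoinRoot.algHomOfDvd ℂ (G * H) G (dvd_mul_right G H)).comp θ) +
      fibCyc f j hj e ((AdjoinRoot.algHomOfDvd ℂ (G * H) H (dvd_mul_left H G)).comp θ) := by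
  let p1 : Fib e (AdjoinRoot G) → Fib e (AdjoinRoot (G * H)) := fun χ =>
    ⟨χ.1.comp (AdjoinRoot.algHomOfDvd ℂ (G * H) G (dvd_mul_right G H)), fun r =>
      (congrArg χ.1 (algHomOfDvd_algebraMap _ _ (dvd_mul_right G H) r)).trans (χ.2 r)⟩
  let p2 : Fib e (AdjoinRoot H) → Fib e (AdjoinRoot (G * H)) := fun χ =>
    ⟨χ.1.comp (AdjoinRoot.algHomOfDvd ℂ (G * H) H (dvd_mul_left H G)), fun r =>
      (congrArg χ.1 (algHomOfDvd_algebraMap _ _ (dvd_mul_left H G) r)).trans (χ.2 r)⟩
  have hr1 : ∀ χ, (p1 χ).1 (AdjoinRoot.root (G * H)) = χ.1 (AdjoinRoot.root G) := by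
    intro χ
    change χ.1 (AdjoinRoot.algHomOfDvd ℂ (G * H) G (dvd_mul_right G H) _) = _
    rw [AdjoinRoot.algHomOfDvd_root]
  have hr2 : ∀ χ, (p2 χ).1 (AdjoinRoot.root (G * H)) = χ.1 (AdjoinRoot.root H) := by
    intro χ
    change χ.1 (AdjoinRoot.algHomOfDvd ℂ (G * H) H (dvd_mul_left H G) _) = _
    rw [AdjoinRoot.algHomOfDvd_root]
  let E : Fib e (AdjoinRoot G) ⊕ Fib e (AdjoinRoot H) ≃ Fib e (AdjoinRoot (G * H)) := by
    refine Equiv.ofBijective (Sum.elim p1 p2) ⟨?_, ?_⟩
    · have hcross : ∀ χ χ', p1 χ ≠ p2 χ' := by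
        intro χ χ' h
        have h2 : χ.1 (AdjoinRoot.root G) = χ'.1 (AdjoinRoot.root H) := by
          rw [← hr1, ← hr2, h]
        have h3 := fib_root e G χ
        have h4 := fib_root e H χ'
        rw [← h2] at h4
        rw [Polynomial.map_mul] at hs
        have h5 := hs.isCoprime
        obtain ⟨u, v, huv⟩ := h5
        have h6 := congrArg (Polynomial.eval (χ.1 (AdjoinRoot.root G))) huv
        rw [Polynomial.eval_add, Polynomial.eval_mul, Polynomial.eval_mul, h3.eq_zero,
          h4.eq_zero] at h6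
        simp at h6
      rintro (χ | χ) (χ' | χ') h
      · congr 1
        apply fib_ext
        rw [← hr1, ← hr1]
        exact congrArg (fun z => z.1 (AdjoinRoot.root (G * H))) h
      · exact absurd h (hcross χ χ')
      · exact absurd h.symm (hcross χ' χ)
      · congr 1
        apply fib_ext
        rw [← hr2, ← hr2]
        exact congrArg (fun z => z.1 (AdjoinRoot.root (G * H))) h
    · intro χ
      have h2 := fib_root e (G * H) χ
      rw [Polynomial.map_mul, Polynomial.root_mul] at h2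
      rcases h2 with h2 | h2
      · refine ⟨Sum.inl (fibMk e G _ h2), ?_⟩
        apply fib_ext
        change (p1 _).1 _ = _
        rw [hr1, fibMk_root]
      · refine ⟨Sum.inr (fibMk e H _ h2), ?_⟩
        apply fib_ext
        change (p2 _).1 _ = _
        rw [hr2, fibMk_root]
  haveI := fib_finite e G hG
  haveI := fib_finite e H hH
  letI := Fintype.ofFinite (Fib e (AdjoinRoot G))
  letI := Fintype.ofFinite (Fib e (AdjoinRoot H))
  have e1 : ∀ χ, (E (Sum.inl χ)).1.comp θ =
      χ.1.comp ((AdjoinRoot.algHomOfDvd ℂ (G * H) G (dvd_mul_right G H)).comp θ) := by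
    intro χ
    have h2 : E (Sum.inl χ) = p1 χ := rfl
    rw [h2]
    exact AlgHom.comp_assoc _ _ _
  have e2 : ∀ χ, (E (Sum.inr χ)).1.comp θ =
      χ.1.comp ((AdjoinRoot.algHomOfDvd ℂ (G * H) H (dvd_mul_left H G)).comp θ) := by
    intro χ
    have h2 : E (Sum.inr χ) = p2 χ := rfl
    rw [h2]
    exact AlgHom.comp_assoc _ _ _
  clear_value E
  unfold fibCyc
  rw [← finsum_comp_equiv E, finsum_eq_sum_of_fintype, finsum_eq_sum_of_fintype,
    finsum_eq_sum_of_fintype, Fintype.sum_sum_type]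
  simp only [e1, e2]

/-- The transfer lemma. -/
theorem transfer [IsProper f] {t : R} (ht : Transcendental ℂ t)
    (hgen : ∀ r : R, ∃ p q : ℂ[X], aeval t q ≠ 0 ∧ r * aeval t q = aeval t p)
    (e₀ e₁ : R →ₐ[ℂ] ℂ) (n : ℕ) : ∀ (F : R[X]), F.natDegree = n → F.Monic →
    (F.map e₀.toRingHom).Separable → (F.map e₁.toRingHom).Separable →
    ∀ θ : C →ₐ[ℂ] AdjoinRoot F, fibCyc f j hj e₀ θ - fibCyc f j hj e₁ θ ∈ Rat f := by
  induction n using Nat.strong_induction_on with
  | _ n ih =>
  intro F hn hF hs₀ hs₁ θ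
  by_cases hirr : Irreducible F
  · exact transfer_irreducible f j hj ht hgen e₀ e₁ F hF hirr hs₀ hs₁ θ
  by_cases h1 : F = 1
  · subst h1
    have hempty : ∀ e : R →ₐ[ℂ] ℂ, fibCyc f j hj e θ = 0 := by
      intro e
      haveI : IsEmpty (Fib e (AdjoinRoot (1 : R[X]))) := by
        constructor
        intro χ
        have := fib_root e 1 χ
        simp at this
      unfold fibCyc
      exact finsum_of_isEmpty _
    rw [hempty, hempty, sub_zero]
    exact (Rat f).zero_mem
  · rw [hF.irreducible_iff_natDegree' , not_and_or, not_not] at hirr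
    rcases hirr with hirr | hirr
    · exact absurd hirr h1
    · push Not at hirr
      obtain ⟨G, H, hG, hH, hGH, hmem⟩ := hirr
      rw [Finset.mem_Ioc] at hmem
      have hdeg : F.natDegree = G.natDegree + H.natDegree := by
        rw [← hGH, hG.natDegree_mul hH]
      subst hGH
      have hsG : ∀ e : R →ₐ[ℂ] ℂ, ((G * H).map e.toRingHom).Separable →
          (G.map e.toRingHom).Separable ∧ (H.map e.toRingHom).Separable := by
        intro e he
        rw [Polynomial.map_mul] at he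
        exact ⟨he.of_mul_left, he.of_mul_right⟩
      rw [fibCyc_mul f j hj e₀ G H hG hH hs₀, fibCyc_mul f j hj e₁ G H hG hH hs₁]
      have h3 := ih G.natDegree (by omega) G rfl hG (hsG _ hs₀).1 (hsG _ hs₁).1
        ((AdjoinRoot.algHomOfDvd ℂ (G * H) G (dvd_mul_right G H)).comp θ)
      have h4 := ih H.natDegree (by omega) H rfl hH (hsG _ hs₀).2 (hsG _ hs₁).2
        ((AdjoinRoot.algHomOfDvd ℂ (G * H) H (dvd_mul_left H G)).comp θ)
      have h5 := (Rat f).add_mem h3 h4
      convert h5 using 1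
      abel

end

end Vale.Agent.P297
end
end

section

section

set_option linter.unusedSectionVars false
set_option linter.style.haveILetI false

open CategoryTheory AlgebraicGeometry IntermediateField Polynomial

namespace Vale.Agent.P297

section

variable {R R' : Type} [CommRing R] [Algebra ℂ R] [CommRing R'] [Algebra ℂ R']

/-- Base change of `AdjoinRoot`. -/
noncomputable def bcMap (g : R →ₐ[ℂ] R') (F : R[X]) :
    AdjoinRoot F →ₐ[ℂ] AdjoinRoot (F.map g.toRingHom) :=
  AdjoinRoot.mapAlgHom g F (F.map g.toRingHom) dvd_rfl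

theorem bcMap_of (g : R →ₐ[ℂ] R') (F : R[X]) (r : R) :
    bcMap g F (algebraMap R (AdjoinRoot F) r) =
      algebraMap R' (AdjoinRoot (F.map g.toRingHom)) (g r) :=
  AdjoinRoot.map_of g.toRingHom F (F.map g.toRingHom) dvd_rfl r

theorem bcMap_root (g : R →ₐ[ℂ] R') (F : R[X]) :
    bcMap g F (AdjoinRoot.root F) = AdjoinRoot.root (F.map g.toRingHom) :=
  AdjoinRoot.map_root g.toRingHom F (F.map g.toRingHom) dvd_rfl

variable {S : Scheme.{0}} (f : S ⟶ Spec (.of ℂ)) {C : Type} [CommRing C]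
  [Algebra ℂ C] (j : Spec (.of C) ⟶ S)
  (hj : j ≫ f = Spec.map (CommRingCat.ofHom (algebraMap ℂ C)))

/-- Base change of a fibre. -/
theorem fibCyc_baseChange [LocallyOfFiniteType f] (g : R →ₐ[ℂ] R') (e : R →ₐ[ℂ] ℂ)
    (e' : R' →ₐ[ℂ] ℂ) (he : e'.comp g = e) (F : R[X]) (θ : C →ₐ[ℂ] AdjoinRoot F) :
    fibCyc f j hj e' ((bcMap g F).comp θ) = fibCyc f j hj e θ := by
  subst he
  have hmap : (F.map g.toRingHom).map e'.toRingHom = F.map (e'.comp g).toRingHom := by
    rw [Polynomial.map_map]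
    rfl
  let E : Fib e' (AdjoinRoot (F.map g.toRingHom)) ≃ Fib (e'.comp g) (AdjoinRoot F) :=
    { toFun := fun χ => ⟨χ.1.comp (bcMap g F),
        fun r => (congrArg χ.1 (bcMap_of g F r)).trans (χ.2 (g r))⟩
      invFun := fun χ => fibMk e' _ (χ.1 (AdjoinRoot.root F)) (by
        rw [hmap]; exact fib_root _ F χ)
      left_inv := fun χ => by
        apply fib_ext
        rw [fibMk_root]
        exact congrArg χ.1 (bcMap_root g F)
      right_inv := fun χ => by
        apply fib_ext
        exact (congrArg _ (bcMap_root g F)).trans (fibMk_root e' (F.map g.toRingHom)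
          (χ.1 (AdjoinRoot.root F)) (by rw [hmap]; exact fib_root _ F χ)) }
  have hE : ∀ χ, χ.1.comp ((bcMap g F).comp θ) = (E χ).1.comp θ := by
    intro χ
    exact (AlgHom.comp_assoc _ _ _).symm
  clear_value E
  unfold fibCyc
  rw [← finsum_comp_equiv E]
  simp only [hE]

end

end Vale.Agent.P297
end
end

section

section

set_option linter.unusedSectionVars false
set_option linter.style.haveILetI false

open CategoryTheory AlgebraicGeometry IntermediateField Polynomial

namespace Vale.Agent.P297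

/-- Any two `ℂ`-points of `P` lie on an open subset of a line. -/
def HasLines (P : Type) [CommRing P] [Algebra ℂ P] : Prop :=
  ∀ e₀ e₁ : P →ₐ[ℂ] ℂ, ∃ (R : Type) (_ : CommRing R) (_ : IsDomain R)
    (_ : IsIntegrallyClosed R) (_ : Algebra ℂ R) (t : R) (g : P →ₐ[ℂ] R)
    (ε₀ ε₁ : R →ₐ[ℂ] ℂ), Transcendental ℂ t ∧
    (∀ r : R, ∃ p q : ℂ[X], aeval t q ≠ 0 ∧ r * aeval t q = aeval t p) ∧
    ε₀.comp g = e₀ ∧ ε₁.comp g = e₁

section

variable {S : Scheme.{0}} (f : S ⟶ Spec (.of ℂ)) {C : Type} [CommRing C]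
  [Algebra ℂ C] (j : Spec (.of C) ⟶ S)
  (hj : j ≫ f = Spec.map (CommRingCat.ofHom (algebraMap ℂ C)))

theorem transfer_lines [IsProper f] {P : Type} [CommRing P] [Algebra ℂ P] (hP : HasLines P)
    (F : P[X]) (hF : F.Monic) (e₀ e₁ : P →ₐ[ℂ] ℂ)
    (hs₀ : (F.map e₀.toRingHom).Separable) (hs₁ : (F.map e₁.toRingHom).Separable)
    (θ : C →ₐ[ℂ] AdjoinRoot F) :
    fibCyc f j hj e₀ θ - fibCyc f j hj e₁ θ ∈ Rat f := by
  obtain ⟨R, _, _, _, _, t, g, ε₀, ε₁, ht, hgen, h0, h1⟩ := hP e₀ e₁
  rw [← fibCyc_baseChange f j hj g e₀ ε₀ h0 F θ, ← fibCyc_baseChange f j hj g e₁ ε₁ h1 F θ]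
  apply transfer f j hj ht hgen ε₀ ε₁ _ (F.map g.toRingHom) rfl (hF.map _)
  · rw [Polynomial.map_map]
    subst h0
    exact hs₀
  · rw [Polynomial.map_map]
    subst h1
    exact hs₁

end

/-- Lift to a localization. -/
noncomputable def awayLift {A B : Type} [CommRing A] [CommRing B] [Algebra ℂ A] [Algebra ℂ B]
    (φ : A →ₐ[ℂ] B) (h : A) (hu : IsUnit (φ h)) : Localization.Away h →ₐ[ℂ] B :=
  IsLocalization.liftAlgHom (M := Submonoid.powers h) (f := φ) (by
    rintro ⟨_, n, rfl⟩
    change IsUnit (φ (h ^ n))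
    rw [map_pow]
    exact hu.pow n)

theorem awayLift_algebraMap {A B : Type} [CommRing A] [CommRing B] [Algebra ℂ A] [Algebra ℂ B]
    (φ : A →ₐ[ℂ] B) (h : A) (hu : IsUnit (φ h)) (a : A) :
    awayLift φ h hu (algebraMap A (Localization.Away h) a) = φ a :=
  IsLocalization.lift_eq _ a

theorem away_ext {A B : Type} [CommRing A] [CommRing B] [Algebra ℂ A] [Algebra ℂ B] (h : A)
    {φ ψ : Localization.Away h →ₐ[ℂ] B}
    (he : ∀ a, φ (algebraMap A (Localization.Away h) a) = ψ (algebraMap A _ a)) : φ = ψ := by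
  apply AlgHom.coe_ringHom_injective
  apply IsLocalization.ringHom_ext (Submonoid.powers h)
  ext a
  exact he a

theorem hasLines_away {σ : Type} (h : MvPolynomial σ ℂ) : HasLines (Localization.Away h) := by
  intro e₀ e₁
  let a : σ → ℂ := fun i =>
    e₀ (algebraMap (MvPolynomial σ ℂ) (Localization.Away h) (MvPolynomial.X i))
  let b : σ → ℂ := fun i =>
    e₁ (algebraMap (MvPolynomial σ ℂ) (Localization.Away h) (MvPolynomial.X i))
  let ℓ : MvPolynomial σ ℂ →ₐ[ℂ] ℂ[X] :=
    MvPolynomial.aeval (fun i => C (a i) + X * C (b i - a i))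
  have h0 : (aeval (0 : ℂ)).comp ℓ =
      e₀.comp (IsScalarTower.toAlgHom ℂ (MvPolynomial σ ℂ) (Localization.Away h)) := by
    apply MvPolynomial.algHom_ext
    intro i
    simp [ℓ, a]
  have h1 : (aeval (1 : ℂ)).comp ℓ =
      e₁.comp (IsScalarTower.toAlgHom ℂ (MvPolynomial σ ℂ) (Localization.Away h)) := by
    apply MvPolynomial.algHom_ext
    intro i
    simp [ℓ, b]
  have h0' : ∀ x, aeval (0 : ℂ) (ℓ x) = e₀ (algebraMap _ _ x) := fun x => DFunLike.congr_fun h0 x
  have h1' : ∀ x, aeval (1 : ℂ) (ℓ x) = e₁ (algebraMap _ _ x) := fun x => DFunLike.congr_fun h1 x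
  have hu : ∀ (e : Localization.Away h →ₐ[ℂ] ℂ),
      e (algebraMap (MvPolynomial σ ℂ) (Localization.Away h) h) ≠ 0 := by
    intro e
    have : IsUnit (e (algebraMap (MvPolynomial σ ℂ) (Localization.Away h) h)) :=
      (IsLocalization.Away.algebraMap_isUnit h).map e
    exact this.ne_zero
  have hℓ0 : aeval (0 : ℂ) (ℓ h) ≠ 0 := by rw [h0']; exact hu e₀
  have hℓ1 : aeval (1 : ℂ) (ℓ h) ≠ 0 := by rw [h1']; exact hu e₁
  have hne : ℓ h ≠ 0 := by
    intro h0
    rw [h0, map_zero] at hℓ0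
    exact hℓ0 rfl
  have hle : Submonoid.powers (ℓ h) ≤ nonZeroDivisors ℂ[X] :=
    powers_le_nonZeroDivisors_of_noZeroDivisors hne
  haveI : IsDomain (Localization.Away (ℓ h)) := IsLocalization.isDomain_localization hle
  haveI : IsIntegrallyClosed (Localization.Away (ℓ h)) :=
    isIntegrallyClosed_of_isLocalization _ _ hle
  have hinj : Function.Injective (algebraMap ℂ[X] (Localization.Away (ℓ h))) :=
    IsLocalization.injective _ hle
  have haev : ∀ p : ℂ[X], aeval (algebraMap ℂ[X] (Localization.Away (ℓ h)) X) p =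
      algebraMap ℂ[X] (Localization.Away (ℓ h)) p := by
    intro p
    rw [aeval_algebraMap_apply, aeval_X_left_apply]
  let g : Localization.Away h →ₐ[ℂ] Localization.Away (ℓ h) :=
    awayLift ((IsScalarTower.toAlgHom ℂ ℂ[X] (Localization.Away (ℓ h))).comp ℓ) h
      (IsLocalization.Away.algebraMap_isUnit (ℓ h))
  have hg : ∀ x, g (algebraMap _ _ x) = algebraMap _ _ (ℓ x) := fun x =>
    awayLift_algebraMap _ h _ x
  let ε₀ : Localization.Away (ℓ h) →ₐ[ℂ] ℂ := awayLift (aeval (0 : ℂ)) (ℓ h) hℓ0.isUnit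
  let ε₁ : Localization.Away (ℓ h) →ₐ[ℂ] ℂ := awayLift (aeval (1 : ℂ)) (ℓ h) hℓ1.isUnit
  refine ⟨Localization.Away (ℓ h), inferInstance, inferInstance, inferInstance, inferInstance,
    algebraMap ℂ[X] _ X, g, ε₀, ε₁, ?_, ?_, ?_, ?_⟩
  · rw [transcendental_iff]
    intro p hp
    rw [haev] at hp
    exact hinj (by rw [hp, map_zero])
  · intro r
    obtain ⟨⟨x, ⟨_, n, rfl⟩⟩, hr⟩ := IsLocalization.surj (Submonoid.powers (ℓ h)) r
    refine ⟨x, (ℓ h) ^ n, ?_, ?_⟩
    · rw [haev]
      intro h0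
      exact pow_ne_zero n hne (hinj (by rw [h0, map_zero]))
    · rw [haev, haev]
      exact hr
  · apply away_ext
    intro x
    change ε₀ (g _) = _
    rw [hg]
    exact (awayLift_algebraMap _ _ _ _).trans (h0' x)
  · apply away_ext
    intro x
    change ε₁ (g _) = _
    rw [hg]
    exact (awayLift_algebraMap _ _ _ _).trans (h1' x)

end Vale.Agent.P297
end
end

section

section

set_option linter.unusedSectionVars false
set_option linter.style.haveILetI false

open CategoryTheory AlgebraicGeometry IntermediateField Polynomial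

namespace Vale.Agent.P297

section

variable {C : Type} [CommRing C] [Algebra ℂ C] {N : Type} [Field N] [Algebra ℂ N]

/-- The homomorphism `r ∘ ι` with values in `A`. -/
def tw (A : Subalgebra ℂ N) (r : N ≃ₐ[ℂ] N) (ι : C →ₐ[ℂ] N) (h : ∀ c, r (ι c) ∈ A) :
    C →ₐ[ℂ] A :=
  (r.toAlgHom.comp ι).codRestrict A h

variable {S : Scheme.{0}} (f : S ⟶ Spec (.of ℂ)) (j : Spec (.of C) ⟶ S)
  (hj : j ≫ f = Spec.map (CommRingCat.ofHom (algebraMap ℂ C)))

theorem transfer_group_loc [IsProper f] {P : Type} [CommRing P] [IsDomain P] [Algebra ℂ P]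
    [Algebra P N] [IsScalarTower ℂ P N] (hP : HasLines P)
    (G : Subgroup (N ≃ₐ[ℂ] N)) [Fintype G]
    (hfix : ∀ r ∈ G, ∀ x : P, r (algebraMap P N x) = algebraMap P N x)
    (α : N) (F : P[X]) (hF : F.Monic)
    (hprod : F.map (algebraMap P N) = ∏ r : G, (X - Polynomial.C (r.1 α)))
    (hdvd : ∀ g : P[X], aeval α g = 0 → F ∣ g)
    (hα : ∀ r ∈ G, r α ∈ Algebra.adjoin P {α})
    (hinv : ∀ r ∈ G, ∀ r' ∈ G, r ≠ r' → ∃ y ∈ Algebra.adjoin P {α}, (r α - r' α) * y = 1)
    (ι : C →ₐ[ℂ] N) (hι : ∀ c, ι c ∈ Algebra.adjoin P {α}) :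
    ∃ hA : ∀ (r : G) (c : C), r.1 (ι c) ∈ (Algebra.adjoin P {α}).restrictScalars ℂ,
      ∀ ξ₁ ξ₂ : (Algebra.adjoin P {α}).restrictScalars ℂ →ₐ[ℂ] ℂ,
        ∑ r : G, Finsupp.single (pt f j hj (ξ₁.comp (tw _ r.1 ι (hA r)))) (1 : ℤ) -
        ∑ r : G, Finsupp.single (pt f j hj (ξ₂.comp (tw _ r.1 ι (hA r)))) (1 : ℤ) ∈ Rat f := by
  set A : Subalgebra ℂ N := (Algebra.adjoin P {α}).restrictScalars ℂ with hAdef
  have hmemA : ∀ x : N, x ∈ A ↔ ∃ g : P[X], aeval α g = x := by
    intro x
    rw [hAdef, Subalgebra.mem_restrictScalars, Algebra.adjoin_singleton_eq_range_aeval]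
    rfl
  have hPA : ∀ x : P, algebraMap P N x ∈ A := by
    intro x
    rw [hAdef, Subalgebra.mem_restrictScalars]
    exact Subalgebra.algebraMap_mem _ x
  have hrA : ∀ r ∈ G, ∀ x ∈ A, r x ∈ A := by
    intro r hr x hx
    obtain ⟨g, rfl⟩ := (hmemA x).1 hx
    have h1 : r (aeval α g) = aeval (r α) g := by
      rw [aeval_def, aeval_def]
      have h2 := Polynomial.hom_eval₂ g (algebraMap P N) (r : N →+* N) α
      refine h2.trans ?_
      congr 1
      ext x
      exact hfix r hr x
    rw [h1, hAdef, Subalgebra.mem_restrictScalars]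
    exact Algebra.adjoin_le (Set.singleton_subset_iff.2 (hα r hr))
      (aeval_mem_adjoin_singleton P (r α))
  have hroot : aeval α F = 0 := by
    rw [aeval_def, ← Polynomial.eval_map, hprod, Polynomial.eval_prod]
    apply Finset.prod_eq_zero (Finset.mem_univ (1 : G))
    simp
  let Ψ : AdjoinRoot F →ₐ[ℂ] N := AdjoinRoot.liftAlgHom F (IsScalarTower.toAlgHom ℂ P N) α hroot
  have hΨmk : ∀ g : P[X], Ψ (AdjoinRoot.mk F g) = aeval α g := fun g =>
    AdjoinRoot.liftAlgHom_mk _ _ _ _ _
  have hΨA : ∀ x, Ψ x ∈ A := by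
    intro x
    obtain ⟨g, rfl⟩ := AdjoinRoot.mk_surjective x
    rw [hΨmk, hmemA]
    exact ⟨g, rfl⟩
  let ψ : AdjoinRoot F ≃ₐ[ℂ] A := AlgEquiv.ofBijective (Ψ.codRestrict A hΨA) (by
    constructor
    · rw [injective_iff_map_eq_zero]
      intro x hx
      obtain ⟨g, rfl⟩ := AdjoinRoot.mk_surjective x
      have h1 : Ψ (AdjoinRoot.mk F g) = 0 := congrArg (fun z : A => (z : N)) hx
      rw [hΨmk] at h1
      rw [AdjoinRoot.mk_eq_zero]
      exact hdvd g h1
    · rintro ⟨x, hx⟩
      obtain ⟨g, rfl⟩ := (hmemA x).1 hx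
      exact ⟨AdjoinRoot.mk F g, Subtype.ext (hΨmk g)⟩)
  have hψ : ∀ x, ((ψ x : A) : N) = Ψ x := fun x => rfl
  have hA : ∀ (r : G) (c : C), r.1 (ι c) ∈ A := fun r c => hrA r.1 r.2 _ (hι c)
  refine ⟨hA, ?_⟩
  let ι' : C →ₐ[ℂ] A := ι.codRestrict A hι
  let θ : C →ₐ[ℂ] AdjoinRoot F := ψ.symm.toAlgHom.comp ι'
  let rA : G → (A →ₐ[ℂ] A) := fun r => (r.1.toAlgHom.comp A.val).codRestrict A
    (fun x => hrA r.1 r.2 x.1 x.2)
  let PA : P →ₐ[ℂ] A := (IsScalarTower.toAlgHom ℂ P N).codRestrict A hPA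
  -- the fibre through a point
  have key : ∀ ξ : A →ₐ[ℂ] ℂ, (F.map (ξ.comp PA).toRingHom).Separable ∧
      fibCyc f j hj (ξ.comp PA) θ =
        ∑ r : G, Finsupp.single (pt f j hj (ξ.comp (tw A r.1 ι (hA r)))) (1 : ℤ) := by
    intro ξ
    have hαA : ∀ r : G, r.1 α ∈ A := fun r => hα r.1 r.2
    have hprodA : F.map PA.toRingHom = ∏ r : G, (X - Polynomial.C (⟨r.1 α, hαA r⟩ : A)) := by
      apply Polynomial.map_injective A.val.toRingHom Subtype.val_injective
      rw [Polynomial.map_map, Polynomial.map_prod]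
      simp only [Polynomial.map_sub, Polynomial.map_X, Polynomial.map_C]
      exact hprod
    have hprodξ : F.map (ξ.comp PA).toRingHom = ∏ r : G, (X - Polynomial.C (ξ ⟨r.1 α, hαA r⟩)) := by
      have h1 := congrArg (Polynomial.map ξ.toRingHom) hprodA
      rw [Polynomial.map_map, Polynomial.map_prod] at h1
      simp only [Polynomial.map_sub, Polynomial.map_X, Polynomial.map_C] at h1
      exact h1
    have hinjξ : Function.Injective (fun r : G => ξ ⟨r.1 α, hαA r⟩) := by
      intro r r' hrr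
      by_contra hne
      obtain ⟨y, hy, hyy⟩ := hinv r.1 r.2 r'.1 r'.2 (fun h => hne (Subtype.ext h))
      have hyA : y ∈ A := hy
      have h1 : ((⟨r.1 α, hαA r⟩ : A) - ⟨r'.1 α, hαA r'⟩) * ⟨y, hyA⟩ = 1 := Subtype.ext hyy
      have h2 := congrArg ξ h1
      rw [map_mul, map_sub, map_one] at h2
      have h3 : ξ ⟨r.1 α, hαA r⟩ = ξ ⟨r'.1 α, hαA r'⟩ := hrr
      rw [h3, sub_self, zero_mul] at h2
      exact zero_ne_one h2
    have hsep : (F.map (ξ.comp PA).toRingHom).Separable := by
      rw [hprodξ, Polynomial.separable_prod_X_sub_C_iff]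
      exact hinjξ
    refine ⟨hsep, ?_⟩
    let χ : G → Fib (ξ.comp PA) (AdjoinRoot F) := fun r =>
      ⟨(ξ.comp (rA r)).comp ψ.toAlgHom, fun x => by
        change ξ (rA r (ψ (AdjoinRoot.of F x))) = ξ (PA x)
        congr 1
        apply Subtype.ext
        change r.1 (Ψ (AdjoinRoot.of F x)) = algebraMap P N x
        rw [← AdjoinRoot.mk_C, hΨmk, aeval_C]
        exact hfix r.1 r.2 x⟩
    have hχroot : ∀ r, (χ r).1 (AdjoinRoot.root F) = ξ ⟨r.1 α, hαA r⟩ := by
      intro r
      change ξ (rA r (ψ (AdjoinRoot.root F))) = _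
      congr 1
      apply Subtype.ext
      change r.1 (Ψ (AdjoinRoot.root F)) = _
      rw [← AdjoinRoot.mk_X, hΨmk, aeval_X]
    haveI := fib_finite (ξ.comp PA) F hF
    letI := Fintype.ofFinite (Fib (ξ.comp PA) (AdjoinRoot F))
    have hcard : Fintype.card G = Fintype.card (Fib (ξ.comp PA) (AdjoinRoot F)) := by
      rw [← Nat.card_eq_fintype_card (α := Fib (ξ.comp PA) (AdjoinRoot F)),
        fib_card _ F hF hsep]
      have h1 := congrArg Polynomial.natDegree hprod
      rw [hF.natDegree_map, Polynomial.natDegree_prod_of_monic _ _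
        (fun r _ => Polynomial.monic_X_sub_C _)] at h1
      simpa using h1.symm
    have hχbij : Function.Bijective χ := by
      rw [Fintype.bijective_iff_injective_and_card]
      refine ⟨?_, hcard⟩
      intro r r' h
      apply hinjξ
      change ξ ⟨r.1 α, hαA r⟩ = ξ ⟨r'.1 α, hαA r'⟩
      rw [← hχroot, ← hχroot, h]
    let E := Equiv.ofBijective χ hχbij
    have hE : ∀ r, (E r).1.comp θ = ξ.comp (tw A r.1 ι (hA r)) := by
      intro r
      apply AlgHom.ext
      intro c
      change ξ (rA r (ψ (ψ.symm (ι' c)))) = ξ _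
      rw [AlgEquiv.apply_symm_apply]
      rfl
    clear_value E
    unfold fibCyc
    rw [← finsum_comp_equiv E, finsum_eq_sum_of_fintype]
    simp only [hE]
  intro ξ₁ ξ₂
  obtain ⟨hs₁, h1⟩ := key ξ₁
  obtain ⟨hs₂, h2⟩ := key ξ₂
  rw [← h1, ← h2]
  exact transfer_lines f j hj hP F hF _ _ hs₁ hs₂ θ

end

end Vale.Agent.P297
end
end

section

section

set_option linter.unusedSectionVars false
set_option linter.style.haveILetI false

open CategoryTheory AlgebraicGeometry IntermediateField Polynomial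

namespace Vale.Agent.P297

section

variable {N : Type} [Field N] [Algebra ℂ N]

/-- The fixed field. -/
abbrev FixL (G : Subgroup (N ≃ₐ[ℂ] N)) : Subfield N := FixedPoints.subfield G N

theorem dvd_of_prod {P : Type} [CommRing P] [Algebra P N]
    (hinj : Function.Injective (algebraMap P N)) (G : Subgroup (N ≃ₐ[ℂ] N)) [Fintype G]
    (hfix : ∀ r ∈ G, ∀ x : P, r (algebraMap P N x) = algebraMap P N x)
    (α : N) (F : P[X]) (hF : F.Monic)
    (hprod : F.map (algebraMap P N) = ∏ r : G, (X - Polynomial.C (r.1 α)))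
    (hα : Function.Injective (fun r : G => r.1 α)) (g : P[X]) (hg : aeval α g = 0) : F ∣ g := by
  rw [← Polynomial.map_dvd_map (algebraMap P N) hinj hF, hprod]
  apply Finset.prod_dvd_of_coprime
  · intro r _ r' _ hne
    exact Polynomial.pairwise_coprime_X_sub_C hα hne
  · intro r _
    rw [Polynomial.dvd_iff_isRoot, Polynomial.IsRoot, Polynomial.eval_map]
    have h1 : r.1 (aeval α g) = aeval (r.1 α) g := by
      rw [aeval_def, aeval_def]
      refine (Polynomial.hom_eval₂ g (algebraMap P N) (r.1 : N →+* N) α).trans ?_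
      congr 1
      ext x
      exact hfix r.1 r.2 x
    rw [hg, map_zero] at h1
    exact h1.symm

theorem exists_alpha (G : Subgroup (N ≃ₐ[ℂ] N)) [Fintype G] {P : Type} [CommRing P] [IsDomain P]
    [IsIntegrallyClosed P] [Algebra P N] [Algebra P (FixL G)]
    [IsScalarTower P (FixL G) N]
    [IsFractionRing P (FixL G)] :
    ∃ (α : N) (F : P[X]), F.Monic ∧
      F.map (algebraMap P N) = ∏ r : G, (X - Polynomial.C (r.1 α)) ∧
      Function.Injective (fun r : G => r.1 α) ∧
      ∀ y : N, ∃ h : P, h ≠ 0 ∧ ∃ g : P[X], algebraMap P N h * y = aeval α g := by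
  haveI : CharZero N := charZero_of_injective_algebraMap (algebraMap ℂ N).injective
  obtain ⟨α₀, hα₀⟩ := Field.exists_primitive_element (FixL G) N
  haveI : Algebra.IsAlgebraic P (FixL G) := IsLocalization.isAlgebraic (FixL G) (nonZeroDivisors P)
  haveI : Algebra.IsAlgebraic P N := Algebra.IsAlgebraic.trans P (FixL G) N
  obtain ⟨d, hd, hint⟩ := 
    (Algebra.IsAlgebraic.isAlgebraic (R := P) α₀).exists_integral_multiple
  have hinjPL : Function.Injective (algebraMap P (FixL G)) := IsFractionRing.injective P (FixL G)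
  have hinj : Function.Injective (algebraMap P N) := by
    rw [IsScalarTower.algebraMap_eq P (FixL G) N]
    exact (algebraMap (FixL G) N).injective.comp hinjPL
  set α := d • α₀ with hα
  have hdN : algebraMap P N d ≠ 0 := by
    intro h
    exact hd (hinj (by rw [h, map_zero]))
  have htop : (FixL G)⟮α⟯ = ⊤ := by
    rw [eq_top_iff, ← hα₀, IntermediateField.adjoin_simple_le_iff]
    have h1 : α₀ = (algebraMap (FixL G) N (algebraMap P (FixL G) d))⁻¹ * α := by
      rw [hα, Algebra.smul_def, ← IsScalarTower.algebraMap_apply, inv_mul_cancel_left₀ hdN]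
    rw [h1]
    exact mul_mem (inv_mem (IntermediateField.algebraMap_mem _ _))
      (IntermediateField.mem_adjoin_simple_self (FixL G) α)
  have hfixP : ∀ r ∈ G, ∀ x : P, r (algebraMap P N x) = algebraMap P N x := by
    intro r hr x
    rw [IsScalarTower.algebraMap_apply P (FixL G) N]
    exact (algebraMap P (FixL G) x).2 ⟨r, hr⟩
  have hαinj : Function.Injective (fun r : G => r.1 α) := by
    intro r r' hrr
    have h1 : ∀ y ∈ (FixL G)⟮α⟯, r.1 y = r'.1 y := by
      intro y hy
      induction hy using IntermediateField.adjoin_induction with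
      | mem x hx => rw [Set.mem_singleton_iff] at hx; subst hx; exact hrr
      | algebraMap x =>
        have e1 : r.1 (algebraMap (FixL G) N x) = algebraMap (FixL G) N x := x.2 r
        have e2 : r'.1 (algebraMap (FixL G) N x) = algebraMap (FixL G) N x := x.2 r'
        rw [e1, e2]
      | add x y _ _ hx hy => rw [map_add, map_add, hx, hy]
      | inv x _ hx => rw [map_inv₀, map_inv₀, hx]
      | mul x y _ _ hx hy => rw [map_mul, map_mul, hx, hy]
    apply Subtype.ext
    apply AlgEquiv.ext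
    intro y
    exact h1 y (by rw [htop]; trivial)
  have hmin : minpoly (FixL G) α = (minpoly P α).map (algebraMap P (FixL G)) :=
    minpoly.isIntegrallyClosed_eq_field_fractions (FixL G) N hint
  refine ⟨α, minpoly P α, minpoly.monic hint, ?_, hαinj, ?_⟩
  · have h1 : (minpoly P α).map (algebraMap P N) = (minpoly (FixL G) α).map (algebraMap (FixL G) N) := by
      rw [hmin, Polynomial.map_map, ← IsScalarTower.algebraMap_eq]
    rw [h1]
    have hLint : IsIntegral (FixL G) α := Algebra.IsIntegral.isIntegral α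
    apply Polynomial.eq_of_monic_of_dvd_of_natDegree_le
      (Polynomial.monic_prod_of_monic Finset.univ (fun r : G => X - Polynomial.C (r.1 α))
        (fun r _ => Polynomial.monic_X_sub_C _)) ((minpoly.monic hLint).map _)
    · apply Finset.prod_dvd_of_coprime
      · intro r _ r' _ hne
        exact Polynomial.pairwise_coprime_X_sub_C hαinj hne
      · intro r _
        rw [Polynomial.dvd_iff_isRoot, Polynomial.IsRoot, Polynomial.eval_map]
        have h2 : r.1 (aeval α (minpoly (FixL G) α)) = aeval (r.1 α) (minpoly (FixL G) α) := by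
          rw [aeval_def, aeval_def]
          refine (Polynomial.hom_eval₂ _ (algebraMap (FixL G) N) (r.1 : N →+* N) α).trans ?_
          congr 1
          ext x
          exact x.2 r
        rw [minpoly.aeval, map_zero] at h2
        exact h2.symm
    · rw [Polynomial.natDegree_prod_of_monic _ _ (fun r _ => Polynomial.monic_X_sub_C _),
        (minpoly.monic hLint).natDegree_map, ← IntermediateField.adjoin.finrank hLint, htop]
      simp only [Polynomial.natDegree_X_sub_C, Finset.sum_const, Finset.card_univ, smul_eq_mul,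
        mul_one]
      rw [IntermediateField.finrank_top']
      exact (FixedPoints.finrank_eq_card G N).le
  · intro y
    have hy : y ∈ (FixL G)⟮α⟯.toSubalgebra := by rw [htop]; trivial
    rw [IntermediateField.adjoin_simple_toSubalgebra_of_isAlgebraic
      (Algebra.IsAlgebraic.isAlgebraic α), Algebra.adjoin_singleton_eq_range_aeval] at hy
    obtain ⟨gL, hgL⟩ := hy
    obtain ⟨b, hb, hbg⟩ := IsLocalization.integerNormalization_spec (nonZeroDivisors P) gL
    refine ⟨b, nonZeroDivisors.ne_zero hb,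
      IsLocalization.integerNormalization (nonZeroDivisors P) gL, ?_⟩
    have h1 : aeval α (IsLocalization.integerNormalization (nonZeroDivisors P) gL) =
        aeval α ((IsLocalization.integerNormalization (nonZeroDivisors P) gL).map
          (algebraMap P (FixL G))) := (Polynomial.aeval_map_algebraMap (FixL G) α _).symm
    rw [h1, hbg]
    have hgL' : aeval α gL = y := hgL
    rw [← hgL', ← algebraMap_smul (FixL G) b gL, map_smul, Algebra.smul_def,
      ← IsScalarTower.algebraMap_apply]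

variable {S : Scheme.{0}} (f : S ⟶ Spec (.of ℂ)) {C : Type} [CommRing C] [Algebra ℂ C]
  (j : Spec (.of C) ⟶ S)
  (hj : j ≫ f = Spec.map (CommRingCat.ofHom (algebraMap ℂ C)))

/-- Constancy of the orbit cycle for a finite group whose fixed field is purely transcendental. -/
def OrbitConst [IsProper f] (G : Subgroup (N ≃ₐ[ℂ] N)) [Fintype G] (ι : C →ₐ[ℂ] N)
    (A : Subalgebra ℂ N) : Prop :=
  ∃ hA : ∀ (r : G) (c : C), r.1 (ι c) ∈ A, ∀ ξ₁ ξ₂ : A →ₐ[ℂ] ℂ,
    ∑ r : G, Finsupp.single (pt f j hj (ξ₁.comp (tw A r.1 ι (hA r)))) (1 : ℤ) -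
    ∑ r : G, Finsupp.single (pt f j hj (ξ₂.comp (tw A r.1 ι (hA r)))) (1 : ℤ) ∈ Rat f

theorem OrbitConst.mono [IsProper f] {G : Subgroup (N ≃ₐ[ℂ] N)} [Fintype G] {ι : C →ₐ[ℂ] N}
    {A B : Subalgebra ℂ N} (hAB : A ≤ B) (h : OrbitConst f j hj G ι A) :
    OrbitConst f j hj G ι B := by
  obtain ⟨hA, h1⟩ := h
  refine ⟨fun r c => hAB (hA r c), fun ξ₁ ξ₂ => ?_⟩
  exact h1 (ξ₁.comp (Subalgebra.inclusion hAB)) (ξ₂.comp (Subalgebra.inclusion hAB))

theorem core [IsProper f] [Algebra.FiniteType ℂ C] (G : Subgroup (N ≃ₐ[ℂ] N)) [Fintype G]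
    {σ : Type} [Finite σ] (x : σ → N) (hx : AlgebraicIndependent ℂ x)
    (hfix : ∀ r ∈ G, ∀ i, r (x i) = x i)
    (hgen : ∀ y : N, (∀ r ∈ G, r y = y) → y ∈ IntermediateField.adjoin ℂ (Set.range x))
    (ι : C →ₐ[ℂ] N) : ∃ A : Subalgebra ℂ N, A.FG ∧ OrbitConst f j hj G ι A := by
  classical
  letI : Algebra (MvPolynomial σ ℂ) N := (MvPolynomial.aeval x).toRingHom.toAlgebra
  have halg : ∀ g : MvPolynomial σ ℂ, algebraMap (MvPolynomial σ ℂ) N g = MvPolynomial.aeval x g :=
    fun _ => rfl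
  have hfixP : ∀ r ∈ G, ∀ g : MvPolynomial σ ℂ, r (algebraMap (MvPolynomial σ ℂ) N g) =
      algebraMap (MvPolynomial σ ℂ) N g := by
    intro r hr g
    rw [halg]
    have h1 : r.toAlgHom.comp (MvPolynomial.aeval x) = MvPolynomial.aeval (R := ℂ) x := by
      apply MvPolynomial.algHom_ext
      intro i
      simp [hfix r hr i]
    exact DFunLike.congr_fun h1 g
  let PL : MvPolynomial σ ℂ →+* FixL G :=
    (algebraMap (MvPolynomial σ ℂ) N).codRestrict (FixL G) (fun g r => hfixP r.1 r.2 g)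
  letI : Algebra (MvPolynomial σ ℂ) (FixL G) := PL.toAlgebra
  haveI : IsScalarTower (MvPolynomial σ ℂ) (FixL G) N := IsScalarTower.of_algebraMap_eq' rfl
  haveI : IsScalarTower ℂ (MvPolynomial σ ℂ) N := by
    apply IsScalarTower.of_algebraMap_eq
    intro a
    rw [halg, MvPolynomial.algebraMap_eq, MvPolynomial.aeval_C]
  have hinj : Function.Injective (algebraMap (MvPolynomial σ ℂ) N) := hx
  haveI : FaithfulSMul (MvPolynomial σ ℂ) (FixL G) := by
    rw [faithfulSMul_iff_algebraMap_injective]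
    intro a b hab
    exact hinj (congrArg (fun z : FixL G => (z : N)) hab)
  haveI : IsFractionRing (MvPolynomial σ ℂ) (FixL G) := by
    apply IsFractionRing.of_field
    rintro ⟨z, hz⟩
    have h1 := hgen z (fun r hr => hz ⟨r, hr⟩)
    rw [IntermediateField.mem_adjoin_range_iff] at h1
    obtain ⟨a, b, hab⟩ := h1
    exact ⟨a, b, Subtype.ext hab⟩
  obtain ⟨α, F, hF, hprod, hαinj, hstar⟩ := exists_alpha G (P := MvPolynomial σ ℂ)
  obtain ⟨s, hs⟩ := (inferInstance : Algebra.FiniteType ℂ C).out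
  -- the finite set of elements that we need
  let T : Finset N := (s.image ι ∪ Finset.univ.image (fun r : G => r.1 α)) ∪
    Finset.univ.image (fun r : G × G => (r.1.1 α - r.2.1 α)⁻¹)
  choose hh hh0 gg hgg using hstar
  let h : MvPolynomial σ ℂ := ∏ y ∈ T, hh y
  have hne : h ≠ 0 := Finset.prod_ne_zero_iff.2 fun y _ => hh0 y
  have hhN : MvPolynomial.aeval x h ≠ 0 := by
    intro h0
    apply hne
    apply hinj
    rw [map_zero]
    exact h0
  have hle : Submonoid.powers h ≤ nonZeroDivisors (MvPolynomial σ ℂ) :=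
    powers_le_nonZeroDivisors_of_noZeroDivisors hne
  haveI : IsDomain (Localization.Away h) := IsLocalization.isDomain_localization hle
  let PN : Localization.Away h →ₐ[ℂ] N := awayLift (MvPolynomial.aeval x) h hhN.isUnit
  letI : Algebra (Localization.Away h) N := PN.toRingHom.toAlgebra
  haveI : IsScalarTower ℂ (Localization.Away h) N :=
    IsScalarTower.of_algebraMap_eq fun a => (PN.commutes a).symm
  haveI : IsScalarTower (MvPolynomial σ ℂ) (Localization.Away h) N := by
    apply IsScalarTower.of_algebraMap_eq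
    intro a
    exact (awayLift_algebraMap (MvPolynomial.aeval x) h hhN.isUnit a).symm
  have hinj' : Function.Injective (algebraMap (Localization.Away h) N) := by
    rw [injective_iff_map_eq_zero]
    intro z hz
    obtain ⟨⟨a, b⟩, hab⟩ := IsLocalization.surj (Submonoid.powers h) z
    have h1 := congrArg (algebraMap (Localization.Away h) N) hab
    rw [map_mul, hz, zero_mul, ← IsScalarTower.algebraMap_apply] at h1
    have h2 : a = 0 := hinj (by rw [← h1, map_zero])
    rw [h2, map_zero] at hab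
    exact (IsLocalization.map_units (Localization.Away h) b).mul_left_eq_zero.1 hab
  have hfixP' : ∀ r ∈ G, ∀ z : Localization.Away h, r (algebraMap (Localization.Away h) N z) =
      algebraMap (Localization.Away h) N z := by
    intro r hr z
    have h1 : r.toAlgHom.comp PN = PN := by
      apply away_ext
      intro a
      change r (algebraMap (Localization.Away h) N (algebraMap _ _ a)) =
        algebraMap (Localization.Away h) N (algebraMap _ _ a)
      rw [← IsScalarTower.algebraMap_apply, hfixP r hr]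
    exact DFunLike.congr_fun h1 z
  have hT : ∀ y ∈ T, y ∈ Algebra.adjoin (Localization.Away h) {α} := by
    intro y hy
    have hdvd : hh y ∣ h := Finset.dvd_prod_of_mem _ hy
    have hunit : IsUnit (algebraMap (MvPolynomial σ ℂ) (Localization.Away h) (hh y)) :=
      isUnit_of_dvd_unit (map_dvd _ hdvd) (IsLocalization.Away.algebraMap_isUnit h)
    obtain ⟨u, hu⟩ := hunit
    have h1 : y = ((u⁻¹ : (Localization.Away h)ˣ) : Localization.Away h) •
        aeval α ((gg y).map (algebraMap (MvPolynomial σ ℂ) (Localization.Away h))) := by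
      rw [Polynomial.aeval_map_algebraMap, ← hgg y, Algebra.smul_def,
        IsScalarTower.algebraMap_apply (MvPolynomial σ ℂ) (Localization.Away h) N, ← hu,
        ← mul_assoc, ← map_mul, Units.inv_mul, map_one, one_mul]
    rw [h1]
    exact Subalgebra.smul_mem _ (aeval_mem_adjoin_singleton _ _) _
  have hprod' : (F.map (algebraMap (MvPolynomial σ ℂ) (Localization.Away h))).map
      (algebraMap (Localization.Away h) N) = ∏ r : G, (X - Polynomial.C (r.1 α)) := by
    rw [Polynomial.map_map, ← IsScalarTower.algebraMap_eq]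
    exact hprod
  refine ⟨(Algebra.adjoin (Localization.Away h) {α}).restrictScalars ℂ, ?_, ?_⟩
  · haveI : Algebra.FiniteType ℂ (Localization.Away h) := by
      haveI : Algebra.FiniteType (MvPolynomial σ ℂ) (Localization.Away h) :=
        IsLocalization.finiteType_of_monoid_fg (Submonoid.powers h) _
      exact Algebra.FiniteType.trans (S := MvPolynomial σ ℂ) inferInstance inferInstance
    haveI : Algebra.FiniteType (Localization.Away h)
        (Algebra.adjoin (Localization.Away h) {α}) :=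
      (Subalgebra.fg_iff_finiteType _).1 ⟨{α}, by simp⟩
    rw [Subalgebra.fg_iff_finiteType]
    change Algebra.FiniteType ℂ (Algebra.adjoin (Localization.Away h) {α})
    exact Algebra.FiniteType.trans (S := Localization.Away h) inferInstance inferInstance
  · apply transfer_group_loc f j hj (hasLines_away h) G hfixP' α
      (F.map (algebraMap (MvPolynomial σ ℂ) (Localization.Away h))) (hF.map _) hprod'
    · intro g hg
      exact dvd_of_prod hinj' G hfixP' α _ (hF.map _) hprod' hαinj g hg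
    · intro r hr
      apply hT
      apply Finset.mem_union_left
      apply Finset.mem_union_right
      exact Finset.mem_image.2 ⟨⟨r, hr⟩, Finset.mem_univ _, rfl⟩
    · intro r hr r' hr' hne'
      refine ⟨(r α - r' α)⁻¹, ?_, ?_⟩
      · apply hT
        apply Finset.mem_union_right
        exact Finset.mem_image.2 ⟨(⟨r, hr⟩, ⟨r', hr'⟩), Finset.mem_univ _, rfl⟩
      · apply mul_inv_cancel₀
        rw [sub_ne_zero]
        intro h0
        exact hne' (congrArg Subtype.val (@hαinj ⟨r, hr⟩ ⟨r', hr'⟩ h0))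
    · intro c
      have hc : c ∈ Algebra.adjoin ℂ (s : Set C) := by rw [hs]; trivial
      induction hc using Algebra.adjoin_induction with
      | mem c hc =>
        apply hT
        apply Finset.mem_union_left
        apply Finset.mem_union_left
        exact Finset.mem_image_of_mem _ hc
      | algebraMap a =>
        rw [AlgHom.commutes, IsScalarTower.algebraMap_apply ℂ (Localization.Away h) N]
        exact Subalgebra.algebraMap_mem _ _
      | add c d _ _ hc hd => rw [map_add]; exact add_mem hc hd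
      | mul c d _ _ hc hd => rw [map_mul]; exact mul_mem hc hd

end

end Vale.Agent.P297
end
end

section

section

set_option linter.unusedSectionVars false
set_option linter.style.haveILetI false

open CategoryTheory AlgebraicGeometry IntermediateField Polynomial

namespace Vale.Agent.P297

/-- Extension of `ℂ`-points along a generically finite map. -/
theorem exists_extend {C : Type} [CommRing C] [IsDomain C] [Algebra ℂ C] {N : Type} [Field N]
    [Algebra ℂ N] (ι : C →ₐ[ℂ] N) (hι : Function.Injective ι)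
    (halg : ∀ y : N, ∃ p : C[X], p ≠ 0 ∧ p.eval₂ ι.toRingHom y = 0)
    (A : Subalgebra ℂ N) (hA : A.FG) (hCA : ∀ c, ι c ∈ A) :
    ∃ b : C, b ≠ 0 ∧ ∀ φ : C →ₐ[ℂ] ℂ, φ b ≠ 0 →
      ∃ ξ : A →ₐ[ℂ] ℂ, ∀ c, ξ ⟨ι c, hCA c⟩ = φ c := by
  classical
  obtain ⟨s, hs⟩ := hA
  choose p hp0 hp using halg
  let b : C := ∏ y ∈ s, (p y).leadingCoeff
  have hb : b ≠ 0 := Finset.prod_ne_zero_iff.2 fun y _ => leadingCoeff_ne_zero.2 (hp0 y)
  refine ⟨b, hb, fun φ hφ => ?_⟩
  have hιb : ι b ≠ 0 := by
    intro h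
    exact hb (hι (by rw [h, map_zero]))
  let R := Localization.Away b
  let RN : R →ₐ[ℂ] N := awayLift ι b hιb.isUnit
  letI : Algebra R N := RN.toRingHom.toAlgebra
  have hRN : ∀ c, algebraMap R N (algebraMap C R c) = ι c := fun c =>
    awayLift_algebraMap ι b hιb.isUnit c
  have hinj : Function.Injective (algebraMap R N) := by
    rw [injective_iff_map_eq_zero]
    intro z hz
    obtain ⟨⟨a, d⟩, had⟩ := IsLocalization.surj (Submonoid.powers b) z
    have h1 := congrArg (algebraMap R N) had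
    rw [map_mul, hz, zero_mul, hRN] at h1
    have h2 : a = 0 := hι (by rw [← h1, map_zero])
    rw [h2, map_zero] at had
    exact (IsLocalization.map_units R d).mul_left_eq_zero.1 had
  let B := integralClosure R N
  have hsB : ∀ y ∈ s, y ∈ B := by
    intro y hy
    have hdvd : (p y).leadingCoeff ∣ b := Finset.dvd_prod_of_mem _ hy
    have hunit : IsUnit (algebraMap C R (p y).leadingCoeff) :=
      isUnit_of_dvd_unit (map_dvd _ hdvd) (IsLocalization.Away.algebraMap_isUnit b)
    obtain ⟨u, hu⟩ := hunit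
    have hCR : Function.Injective (algebraMap C R) := by
      intro x y hxy
      apply hι
      rw [← hRN, ← hRN, hxy]
    refine ⟨Polynomial.C ((u⁻¹ : Rˣ) : R) * (p y).map (algebraMap C R), ?_, ?_⟩
    · rw [Polynomial.Monic, Polynomial.leadingCoeff_mul', Polynomial.leadingCoeff_C,
        Polynomial.leadingCoeff_map_of_injective hCR, ← hu, Units.inv_mul]
      rw [Polynomial.leadingCoeff_C, Polynomial.leadingCoeff_map_of_injective hCR, ← hu,
        Units.inv_mul]
      intro h0
      apply hφ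
      have h1 : (1 : R) = 0 := h0
      have h2 : ι 1 = 0 := by rw [← hRN, map_one, h1, map_zero]
      rw [map_one] at h2
      exact absurd h2 one_ne_zero
    · rw [Polynomial.eval₂_mul, Polynomial.eval₂_map]
      have h1 : (algebraMap R N).comp (algebraMap C R) = ι.toRingHom := RingHom.ext hRN
      rw [h1, hp y, mul_zero]
  have hall : ∀ x ∈ Algebra.adjoin ℂ (s : Set N), x ∈ B := by
    intro x hx
    induction hx using Algebra.adjoin_induction with
    | mem x hx => exact hsB x hx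
    | algebraMap a =>
      have h1 : algebraMap ℂ N a = algebraMap R N (algebraMap C R (algebraMap ℂ C a)) := by
        rw [hRN, AlgHom.commutes]
      rw [h1]
      exact Subalgebra.algebraMap_mem B _
    | add x y _ _ hx hy => exact add_mem hx hy
    | mul x y _ _ hx hy => exact mul_mem hx hy
  have hAB : ∀ x : A, (x : N) ∈ B := fun x => hall x (by rw [hs]; exact x.2)
  let φ₁ : R →ₐ[ℂ] ℂ := awayLift φ b hφ.isUnit
  have hφ₁ : ∀ c, φ₁ (algebraMap C R c) = φ c := fun c => awayLift_algebraMap φ b _ c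
  have hφsurj : Function.Surjective φ₁.toRingHom := fun a => ⟨algebraMap ℂ R a, φ₁.commutes a⟩
  let 𝔪 : Ideal R := RingHom.ker φ₁.toRingHom
  haveI h𝔪 : 𝔪.IsMaximal := RingHom.ker_isMaximal_of_surjective _ hφsurj
  haveI : FaithfulSMul R B := by
    rw [faithfulSMul_iff_algebraMap_injective]
    intro x y hxy
    exact hinj (congrArg (fun z : B => (z : N)) hxy)
  obtain ⟨Q, hQ, hQl⟩ := Ideal.exists_maximal_ideal_liesOver_of_isIntegral 𝔪 (S := B)
  letI : Field (R ⧸ 𝔪) := Ideal.Quotient.field _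
  letI : Field (B ⧸ Q) := Ideal.Quotient.field _
  let e1 : R ⧸ 𝔪 ≃+* ℂ := RingHom.quotientKerEquivOfSurjective hφsurj
  haveI : IsAlgClosed (R ⧸ 𝔪) := IsAlgClosed.of_ringEquiv ℂ _ e1.symm
  haveI : Algebra.IsIntegral (R ⧸ 𝔪) (B ⧸ Q) := inferInstance
  have hbij := IsAlgClosed.algebraMap_bijective_of_isIntegral (k := R ⧸ 𝔪) (K := B ⧸ Q)
  let e2 : R ⧸ 𝔪 ≃+* B ⧸ Q := RingEquiv.ofBijective (algebraMap (R ⧸ 𝔪) (B ⧸ Q)) hbij
  let AB : A →+* B := (algebraMap A N).codRestrict B hAB
  let ξ₀ : A →+* ℂ := ((e1 : R ⧸ 𝔪 →+* ℂ).comp (e2.symm : B ⧸ Q →+* R ⧸ 𝔪)).comp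
    ((Ideal.Quotient.mk Q).comp AB)
  have hξ₀ : ∀ c, ξ₀ ⟨ι c, hCA c⟩ = φ c := by
    intro c
    have h1 : AB ⟨ι c, hCA c⟩ = algebraMap R B (algebraMap C R c) :=
      Subtype.ext (hRN c).symm
    have h2 : Ideal.Quotient.mk Q (AB ⟨ι c, hCA c⟩) =
        e2 (Ideal.Quotient.mk 𝔪 (algebraMap C R c)) := by
      rw [h1]
      rfl
    change e1 (e2.symm (Ideal.Quotient.mk Q (AB ⟨ι c, hCA c⟩))) = φ c
    rw [h2, RingEquiv.symm_apply_apply, ← hφ₁ c]
    rfl
  refine ⟨{ ξ₀ with commutes' := ?_ }, hξ₀⟩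
  intro a
  have h1 : algebraMap ℂ A a = ⟨ι (algebraMap ℂ C a), hCA _⟩ := by
    apply Subtype.ext
    change algebraMap ℂ N a = ι (algebraMap ℂ C a)
    rw [AlgHom.commutes]
  change ξ₀ (algebraMap ℂ A a) = _
  rw [h1, hξ₀, AlgHom.commutes]

end Vale.Agent.P297
end
end

section

section

set_option linter.unusedSectionVars false
set_option linter.style.haveILetI false

open CategoryTheory AlgebraicGeometry IntermediateField Polynomial

namespace Vale.Agent.P297

theorem finiteDimensional_of_essFinite (K E : Type) [Field K] [Field E] [Algebra K E]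
    [Algebra.EssFiniteType K E] [Algebra.IsAlgebraic K E] : FiniteDimensional K E := by
  obtain ⟨s, hs⟩ := IntermediateField.fg_top K E
  haveI : FiniteDimensional K (IntermediateField.adjoin K (s : Set E)) :=
    IntermediateField.finiteDimensional_adjoin (fun x _ => Algebra.IsIntegral.isIntegral x)
  rw [hs] at this
  exact (IntermediateField.topEquiv (F := K) (E := E)).toLinearEquiv.finiteDimensional

/-- Through every closed point there is a curve meeting a given dense open set. -/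
theorem exists_curve {C : Type} [CommRing C] [IsDomain C] [Algebra ℂ C] [Algebra.FiniteType ℂ C]
    (ψ : C →ₐ[ℂ] ℂ) (b : C) (hb : b ≠ 0) (hψb : ψ b = 0) :
    ∃ 𝔭 : Ideal C, ∃ _ : 𝔭.IsPrime, 𝔭 ≤ RingHom.ker ψ ∧ b ∉ 𝔭 ∧
      IsFF ℂ (FractionRing (C ⧸ 𝔭)) := by
  obtain ⟨d, g, hginj, hgint⟩ := exists_integral_inj_algHom_of_fg ℂ C
  letI algP : Algebra (MvPolynomial (Fin d) ℂ) C := g.toRingHom.toAlgebra
  have hgalg : ∀ x, algebraMap (MvPolynomial (Fin d) ℂ) C x = g x := fun _ => rfl
  haveI : Algebra.IsIntegral (MvPolynomial (Fin d) ℂ) C := ⟨hgint⟩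
  haveI : FaithfulSMul (MvPolynomial (Fin d) ℂ) C := by
    rw [faithfulSMul_iff_algebraMap_injective]
    exact hginj
  obtain ⟨b₀, hb₀, hbb₀⟩ : ∃ b₀ : MvPolynomial (Fin d) ℂ, b₀ ≠ 0 ∧ b ∣ g b₀ := by
    have h1 := Ideal.comap_ne_bot_of_integral_mem (R := MvPolynomial (Fin d) ℂ) hb
      (Ideal.mem_span_singleton_self b) (Algebra.IsIntegral.isIntegral b)
    rw [Submodule.ne_bot_iff] at h1
    obtain ⟨x, hx, hx0⟩ := h1
    exact ⟨x, hx0, Ideal.mem_span_singleton.1 hx⟩
  let a : Fin d → ℂ := fun i => ψ (g (MvPolynomial.X i))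
  have ha : ψ.comp g = MvPolynomial.aeval a := by
    apply MvPolynomial.algHom_ext
    intro i
    simp [a]
  have hab₀ : MvPolynomial.aeval a b₀ = 0 := by
    rw [← ha]
    obtain ⟨y, hy⟩ := hbb₀
    rw [AlgHom.comp_apply, hy, map_mul, hψb, zero_mul]
  obtain ⟨c, hc⟩ : ∃ c : Fin d → ℂ, MvPolynomial.eval c b₀ ≠ 0 := by
    by_contra hcon
    push Not at hcon
    exact hb₀ (MvPolynomial.funext fun x => by rw [hcon x, map_zero])
  let v : Fin d → ℂ := fun i => c i - a i
  obtain ⟨i₀, hi₀⟩ : ∃ i, v i ≠ 0 := by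
    by_contra hcon
    push Not at hcon
    have : c = a := funext fun i => sub_eq_zero.1 (hcon i)
    rw [this] at hc
    exact hc hab₀
  let ℓ : MvPolynomial (Fin d) ℂ →ₐ[ℂ] ℂ[X] :=
    MvPolynomial.aeval (fun i => Polynomial.C (a i) + X * Polynomial.C (v i))
  have hℓ0 : (aeval (0 : ℂ)).comp ℓ = MvPolynomial.aeval a := by
    apply MvPolynomial.algHom_ext
    intro i
    simp [ℓ]
  have hℓ1 : (aeval (1 : ℂ)).comp ℓ = MvPolynomial.aeval c := by
    apply MvPolynomial.algHom_ext
    intro i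
    simp [ℓ, v]
  have hℓb₀ : ℓ b₀ ≠ 0 := by
    intro h0
    have h1 := DFunLike.congr_fun hℓ1 b₀
    rw [AlgHom.comp_apply, h0, map_zero] at h1
    exact hc h1.symm
  let τ : MvPolynomial (Fin d) ℂ :=
    MvPolynomial.C (v i₀)⁻¹ * (MvPolynomial.X i₀ - MvPolynomial.C (a i₀))
  have hℓτ : ℓ τ = X := by
    change ℓ (MvPolynomial.C (v i₀)⁻¹ * (MvPolynomial.X i₀ - MvPolynomial.C (a i₀))) = X
    have e : ∀ z : ℂ, algebraMap ℂ ℂ[X] z = Polynomial.C z := fun _ => rfl
    simp only [ℓ, map_mul, map_sub, MvPolynomial.aeval_X, MvPolynomial.aeval_C, e]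
    rw [add_sub_cancel_left, mul_comm X, ← mul_assoc, ← Polynomial.C_mul, inv_mul_cancel₀ hi₀,
      Polynomial.C_1, one_mul]
  let 𝔮 : Ideal (MvPolynomial (Fin d) ℂ) := RingHom.ker ℓ.toRingHom
  haveI h𝔮 : 𝔮.IsPrime := RingHom.ker_isPrime _
  let Q : Ideal C := RingHom.ker ψ
  haveI hQ : Q.IsPrime := RingHom.ker_isPrime _
  have hle : 𝔮 ≤ Q.under (MvPolynomial (Fin d) ℂ) := by
    intro x hx
    have hx' : ℓ x = 0 := hx
    change ψ (g x) = 0
    have h1 := DFunLike.congr_fun ha x
    have h2 := DFunLike.congr_fun hℓ0 x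
    rw [AlgHom.comp_apply] at h1 h2
    rw [h1, ← h2, hx', map_zero]
  obtain ⟨𝔭, h𝔭Q, h𝔭, h𝔭𝔮⟩ := Ideal.exists_ideal_le_liesOver_of_le (p := 𝔮)
    (q := Q.under (MvPolynomial (Fin d) ℂ)) Q hle
  have hmem : ∀ x : MvPolynomial (Fin d) ℂ, g x ∈ 𝔭 ↔ ℓ x = 0 := by
    intro x
    have h1 : 𝔮 = 𝔭.under _ := h𝔭𝔮.over
    have h2 : x ∈ 𝔮 ↔ ℓ x = 0 := Iff.rfl
    rw [← h2, h1]
    rfl
  have hb𝔭 : b ∉ 𝔭 := by
    intro hb𝔭
    apply hℓb₀
    rw [← hmem]
    exact 𝔭.mem_of_dvd hbb₀ hb𝔭
  refine ⟨𝔭, h𝔭, h𝔭Q, hb𝔭, ?_⟩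
  let E := FractionRing (C ⧸ 𝔭)
  let m : C →ₐ[ℂ] E := (IsScalarTower.toAlgHom ℂ (C ⧸ 𝔭) E).comp (Ideal.Quotient.mkₐ ℂ 𝔭)
  have hm0 : ∀ x, m x = 0 ↔ x ∈ 𝔭 := by
    intro x
    change algebraMap (C ⧸ 𝔭) E (Ideal.Quotient.mk 𝔭 x) = 0 ↔ _
    rw [map_eq_zero_iff _ (IsFractionRing.injective (C ⧸ 𝔭) E), Ideal.Quotient.eq_zero_iff_mem]
  let t : E := m (g τ)
  have haev : ∀ p : ℂ[X], aeval t p = m (g (aeval τ p)) := by
    intro p
    rw [← aeval_algHom_apply, ← aeval_algHom_apply]
  have ht : Transcendental ℂ t := by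
    rw [transcendental_iff]
    intro p hp
    rw [haev, hm0, hmem, ← aeval_algHom_apply, hℓτ, aeval_X_left_apply] at hp
    exact hp
  have hgt : ∀ x, m (g x) = aeval t (ℓ x) := by
    intro x
    rw [haev, ← sub_eq_zero, ← map_sub, ← map_sub, hm0, hmem, map_sub, ← aeval_algHom_apply,
      hℓτ, aeval_X_left_apply, sub_self]
  apply IsFF.of_finiteDimensional ht
  haveI : Algebra.EssFiniteType ℂ E := by
    haveI : Algebra.FiniteType ℂ (C ⧸ 𝔭) := inferInstance
    haveI : Algebra.EssFiniteType (C ⧸ 𝔭) E :=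
      Algebra.EssFiniteType.of_isLocalization _ (nonZeroDivisors (C ⧸ 𝔭))
    exact Algebra.EssFiniteType.comp ℂ (C ⧸ 𝔭) E
  haveI : Algebra.EssFiniteType ℂ⟮t⟯ E := Algebra.EssFiniteType.of_comp ℂ ℂ⟮t⟯ E
  haveI : Algebra.IsAlgebraic ℂ⟮t⟯ E := by
    have hC : ∀ x : C, IsAlgebraic ℂ⟮t⟯ (m x) := by
      intro x
      obtain ⟨p, hp, hpx⟩ := hgint x
      have hmg : ∀ y : MvPolynomial (Fin d) ℂ, m (g y) ∈ ℂ⟮t⟯ := by
        intro y
        rw [hgt]
        exact IntermediateField.algebra_adjoin_le_adjoin ℂ _ (aeval_mem_adjoin_singleton ℂ _)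
      let ρ : MvPolynomial (Fin d) ℂ →+* ℂ⟮t⟯ :=
        (m.toRingHom.comp g.toRingHom).codRestrict ℂ⟮t⟯ hmg
      have hint : IsIntegral ℂ⟮t⟯ (m x) := by
        refine ⟨p.map ρ, hp.map ρ, ?_⟩
        rw [Polynomial.eval₂_map]
        have h1 : (algebraMap ℂ⟮t⟯ E).comp ρ = m.toRingHom.comp g.toRingHom := rfl
        rw [h1]
        have h2 : Polynomial.eval₂ g.toRingHom x p = 0 := hpx
        have h3 := Polynomial.hom_eval₂ p g.toRingHom m.toRingHom x
        rw [h2, map_zero] at h3
        exact h3.symm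
      exact hint.isAlgebraic
    constructor
    intro y
    obtain ⟨u, w, _, rfl⟩ := IsFractionRing.div_surjective (A := C ⧸ 𝔭) y
    obtain ⟨u, rfl⟩ := Ideal.Quotient.mk_surjective u
    obtain ⟨w, rfl⟩ := Ideal.Quotient.mk_surjective w
    rw [div_eq_mul_inv]
    exact (hC u).mul (hC w).inv
  exact finiteDimensional_of_essFinite ℂ⟮t⟯ E

end Vale.Agent.P297
end
end

section

section

set_option linter.unusedSectionVars false
set_option linter.style.haveILetI false

open CategoryTheory AlgebraicGeometry IntermediateField Polynomial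

namespace Vale.Agent.P297

section

variable {S : Scheme.{0}} (f : S ⟶ Spec (.of ℂ)) {U : S.Opens} (hU : IsAffineOpen U)

/-- The `ℂ`-algebra structure on the sections over an affine open subset. -/
@[reducible] noncomputable def chartAlg : Algebra ℂ Γ(S, U) :=
  (constHom f hU.fromSpec).toAlgebra

theorem chart_hj : letI := chartAlg f hU
    (hU.fromSpec : Spec (.of Γ(S, U)) ⟶ S) ≫ f =
      Spec.map (CommRingCat.ofHom (algebraMap ℂ Γ(S, U))) :=
  (constHom_spec f _).symm

theorem chart_finiteType [LocallyOfFiniteType f] : letI := chartAlg f hU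
    Algebra.FiniteType ℂ Γ(S, U) := by
  letI := chartAlg f hU
  have h1 : LocallyOfFiniteType (hU.fromSpec ≫ f) := inferInstance
  rw [← constHom_spec f hU.fromSpec] at h1
  have h2 := (HasRingHomProperty.Spec_iff (P := @LocallyOfFiniteType)).1 h1
  exact h2

/-- Every closed point of `U` is a `ℂ`-point of the chart. -/
theorem chart_exists_pt [LocallyOfFiniteType f] (x : closedPoints S) (hx : (x : S) ∈ U) :
    letI := chartAlg f hU
    ∃ ψ : Γ(S, U) →ₐ[ℂ] ℂ, pt f hU.fromSpec (chart_hj f hU) ψ = x := by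
  letI := chartAlg f hU
  let p := pointOfClosedPoint f x.1 x.2
  have hp : p ≫ f = 𝟙 _ := pointOfClosedPoint_comp f x.1 x.2
  have hrange : Set.range p ⊆ Set.range hU.fromSpec := by
    rw [hU.range_fromSpec]
    rintro _ ⟨y, rfl⟩
    have h1 : p y = x.1 := pointOfClosedPoint_apply f x.1 x.2 y
    rw [h1]
    exact hx
  let q : Spec (.of ℂ) ⟶ Spec Γ(S, U) := IsOpenImmersion.lift hU.fromSpec p hrange
  have hq : q ≫ hU.fromSpec = p := IsOpenImmersion.lift_fac _ _ _
  let φ : Γ(S, U) →+* ℂ := (Spec.preimage q).hom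
  have hφ : Spec.map (CommRingCat.ofHom φ) = q := Spec.map_preimage q
  have hcomm : ∀ a : ℂ, φ (algebraMap ℂ Γ(S, U) a) = a := by
    intro a
    have h1 : Spec.map (CommRingCat.ofHom (φ.comp (algebraMap ℂ Γ(S, U)))) = 𝟙 _ := by
      rw [CommRingCat.ofHom_comp, Spec.map_comp, hφ, ← chart_hj f hU]
      change q ≫ hU.fromSpec ≫ f = _
      rw [← Category.assoc, hq, hp]
    have h2 : Spec.map (CommRingCat.ofHom (φ.comp (algebraMap ℂ Γ(S, U)))) =
        Spec.map (CommRingCat.ofHom (RingHom.id ℂ)) := h1.trans (Spec.map_id _).symm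
    have h3 := congrArg CommRingCat.Hom.hom (Spec.map_injective h2)
    exact DFunLike.congr_fun h3 a
  let ψ : Γ(S, U) →ₐ[ℂ] ℂ := { φ with commutes' := hcomm }
  refine ⟨ψ, Subtype.ext ?_⟩
  change (Spec.map (CommRingCat.ofHom ψ.toRingHom) ≫ hU.fromSpec) (IsLocalRing.closedPoint ℂ) = x
  have h1 : Spec.map (CommRingCat.ofHom ψ.toRingHom) = q := hφ
  rw [h1, hq]
  exact pointOfClosedPoint_apply f x.1 x.2 _

theorem chart_pt_mem [LocallyOfFiniteType f] (b : Γ(S, U)) :
    letI := chartAlg f hU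
    ∀ ψ : Γ(S, U) →ₐ[ℂ] ℂ,
      (pt f hU.fromSpec (chart_hj f hU) ψ : S) ∈ S.basicOpen b ↔ ψ b ≠ 0 := by
  letI := chartAlg f hU
  intro ψ
  let y : Spec Γ(S, U) := Spec.map (CommRingCat.ofHom ψ.toRingHom) (IsLocalRing.closedPoint ℂ)
  have h1 : (pt f hU.fromSpec (chart_hj f hU) ψ : S) = hU.fromSpec y := rfl
  have h2 : hU.fromSpec y ∈ S.basicOpen b ↔ y ∈ hU.fromSpec ⁻¹ᵁ S.basicOpen b := Iff.rfl
  rw [h1, h2, hU.fromSpec_preimage_basicOpen]
  have h3 : y ∈ PrimeSpectrum.basicOpen b ↔ b ∉ y.asIdeal := Iff.rfl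
  have h4 : b ∈ y.asIdeal ↔ ψ b ∈ IsLocalRing.maximalIdeal ℂ := Iff.rfl
  refine h3.trans ?_
  rw [h4, IsLocalRing.mem_maximalIdeal, mem_nonunits_iff, isUnit_iff_ne_zero, not_not]

theorem chart_pt_mem_chart [LocallyOfFiniteType f] :
    letI := chartAlg f hU
    ∀ ψ : Γ(S, U) →ₐ[ℂ] ℂ, (pt f hU.fromSpec (chart_hj f hU) ψ : S) ∈ U := by
  letI := chartAlg f hU
  intro ψ
  have h1 : (pt f hU.fromSpec (chart_hj f hU) ψ : S) =
    hU.fromSpec (Spec.map (CommRingCat.ofHom ψ.toRingHom) (IsLocalRing.closedPoint ℂ)) := rfl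
  rw [h1]
  have := Set.mem_range_self (f := hU.fromSpec)
    (Spec.map (CommRingCat.ofHom ψ.toRingHom) (IsLocalRing.closedPoint ℂ))
  rwa [hU.range_fromSpec] at this

end

end Vale.Agent.P297
end
end

section

section

set_option linter.unusedSectionVars false
set_option linter.style.haveILetI false

open CategoryTheory AlgebraicGeometry IntermediateField Polynomial

namespace Vale.Agent.P297

/-- Places where a finitely generated ring is not regular, or a given function is not a unit, form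
a finite set. -/
theorem finite_bad {C E : Type} [CommRing C] [Algebra ℂ C] [Algebra.FiniteType ℂ C] [Field E]
    [Algebra ℂ E] [IsFF ℂ E] (m : C →ₐ[ℂ] E) (b : C) :
    {w : PlaceOver ℂ E | (∃ c, m c ∉ w.1.ring) ∨ w.1.ord (m b) ≠ 0}.Finite := by
  obtain ⟨s, hs⟩ := (inferInstance : Algebra.FiniteType ℂ C).out
  have h1 : (⋃ c ∈ s, {w : PlaceOver ℂ E | w.1.ord (m c) ≠ 0}).Finite :=
    s.finite_toSet.biUnion fun c _ => finite_support (k := ℂ) (m c)
  have h2 : {w : PlaceOver ℂ E | w.1.ord (m b) ≠ 0}.Finite := finite_support (k := ℂ) (m b)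
  refine (h1.union h2).subset ?_
  rintro w (hw | hw)
  · left
    by_contra hcon
    simp only [Set.mem_iUnion, not_exists, Set.mem_ofPred_eq, not_not] at hcon
    obtain ⟨c, hc⟩ := hw
    apply hc
    have hall : ∀ c ∈ Algebra.adjoin ℂ (s : Set C), m c ∈ w.1.ring := by
      intro c hcs
      induction hcs using Algebra.adjoin_induction with
      | mem c hc =>
        by_cases h0 : m c = 0
        · rw [h0]; exact w.1.ring.zero_mem
        · rw [← w.1.ord_nonneg_iff h0, hcon c hc]
      | algebraMap a => rw [AlgHom.commutes]; exact w.2 a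
      | add c d _ _ hc hd => rw [map_add]; exact w.1.ring.add_mem _ _ hc hd
      | mul c d _ _ hc hd => rw [map_mul]; exact w.1.ring.mul_mem _ _ hc hd
    exact hall c (by rw [hs]; trivial)
  · right
    exact hw

theorem evalAt_algHom {E : Type} [Field E] [Algebra ℂ E] [IsFF ℂ E] {C : Type} [CommRing C]
    [Algebra ℂ C] (m : C →ₐ[ℂ] E) (w : PlaceOver ℂ E) (hw : ∀ c, m c ∈ w.1.ring) :
    ∃ χ : C →ₐ[ℂ] ℂ, ∀ c, χ c = evalAt w ⟨m c, hw c⟩ := by
  let φ : C →+* ℂ := (evalAt w).comp (m.toRingHom.codRestrict w.1.ring hw)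
  refine ⟨{ φ with commutes' := ?_ }, fun c => rfl⟩
  intro a
  change evalAt w ⟨m (algebraMap ℂ C a), _⟩ = a
  have h1 : (⟨m (algebraMap ℂ C a), hw _⟩ : w.1.ring) = constTo w.1 w.2 a :=
    Subtype.ext (m.commutes a)
  rw [h1, evalAt_const]

/-- The moving lemma for zero-cycles. -/
theorem moving {S : Scheme.{0}} [IsIntegral S] (f : S ⟶ Spec (.of ℂ)) [IsProper f]
    (V : S.Opens) (hV : (V : Set S).Nonempty) (x : closedPoints S) :
    ∃ z : ZeroCycle S, (∀ y ∈ z.support, (y : S) ∈ V) ∧ deg z = 1 ∧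
      Finsupp.single x 1 - z ∈ Rat f := by
  classical
  by_cases hx : (x : S) ∈ V
  · refine ⟨Finsupp.single x 1, ?_, deg_single _ _, ?_⟩
    · intro y hy
      have := Finsupp.support_single_subset hy
      rw [Finset.mem_singleton] at this
      rw [this]
      exact hx
    · rw [sub_self]
      exact (Rat f).zero_mem
  obtain ⟨U, hU, hxU, -⟩ := exists_isAffineOpen_mem_and_subset (X := S) (x := (x : S)) (U := ⊤)
    trivial
  haveI : Nonempty U := ⟨⟨x, hxU⟩⟩
  letI := chartAlg f hU
  haveI := chart_finiteType f hU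
  obtain ⟨y, hyU, hyV⟩ : ((U : Set S) ∩ V).Nonempty :=
    nonempty_preirreducible_inter U.isOpen V.isOpen ⟨x, hxU⟩ hV
  obtain ⟨b, hbV, hyb⟩ := hU.exists_basicOpen_le ⟨y, hyV⟩ hyU
  have hb : b ≠ 0 := by
    rintro rfl
    rw [Scheme.basicOpen_zero] at hyb
    exact hyb
  obtain ⟨ψ, hψ⟩ := chart_exists_pt f hU x hxU
  have hψb : ψ b = 0 := by
    by_contra hne
    apply hx
    rw [← hψ]
    exact hbV ((chart_pt_mem f hU b ψ).2 hne)
  obtain ⟨𝔭, h𝔭, h𝔭ψ, hb𝔭, hFF⟩ := exists_curve ψ b hb hψb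
  let C := Γ(S, U)
  let E := FractionRing (C ⧸ 𝔭)
  let κ : (C ⧸ 𝔭) →ₐ[ℂ] E := IsScalarTower.toAlgHom ℂ (C ⧸ 𝔭) E
  have hκ : Function.Injective κ := IsFractionRing.injective (C ⧸ 𝔭) E
  let m : C →ₐ[ℂ] E := κ.comp (Ideal.Quotient.mkₐ ℂ 𝔭)
  let e : (C ⧸ 𝔭) ≃ₐ[ℂ] κ.range := AlgEquiv.ofInjective κ hκ
  let ψ' : (C ⧸ 𝔭) →ₐ[ℂ] ℂ := Ideal.Quotient.liftₐ 𝔭 ψ (fun a ha => h𝔭ψ ha)
  let χ : κ.range →ₐ[ℂ] ℂ := ψ'.comp e.symm.toAlgHom
  have hχ : ∀ c, χ (e (Ideal.Quotient.mk 𝔭 c)) = ψ c := by
    intro c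
    change ψ' (e.symm (e (Ideal.Quotient.mk 𝔭 c))) = ψ c
    rw [AlgEquiv.symm_apply_apply]
    rfl
  obtain ⟨P, hPD, hP⟩ := exists_place_dominating κ.range χ (e (Ideal.Quotient.mk 𝔭 b)) (by
    rw [Ne, EmbeddingLike.map_eq_zero_iff, Ideal.Quotient.eq_zero_iff_mem]
    exact hb𝔭) (by rw [hχ, hψb])
  let γ : Spec (.of E) ⟶ S := Spec.map (CommRingCat.ofHom m.toRingHom) ≫ hU.fromSpec
  have hγ : γ ≫ f = Spec.map (CommRingCat.ofHom (algebraMap ℂ E)) := by
    change (Spec.map (CommRingCat.ofHom m.toRingHom) ≫ hU.fromSpec) ≫ f = _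
    rw [Category.assoc]
    have h1 := chart_hj f hU
    have h2 : (hU.fromSpec ≫ f) = Spec.map (CommRingCat.ofHom (algebraMap ℂ Γ(S, U))) := h1
    rw [h2, ← Spec.map_comp, ← CommRingCat.ofHom_comp]
    congr 2
  have hcen : ∀ (w : PlaceOver ℂ E) (hw : ∀ c, m c ∈ w.1.ring) (φ : C →ₐ[ℂ] ℂ)
      (_ : ∀ c, φ c = evalAt w ⟨m c, hw c⟩),
      centerMap f γ hγ w = pt f hU.fromSpec (chart_hj f hU) φ := by
    intro w hw φ hφ
    exact centerMap_eq_cpt f γ hγ w hU.fromSpec m.toRingHom rfl hw φ.toRingHom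
      (fun c => (hφ c).symm) (pt_aux f _ (chart_hj f hU) _)
  have hPx : centerMap f γ hγ P = x := by
    rw [← hψ]
    exact hcen P (fun c => hPD (e (Ideal.Quotient.mk 𝔭 c))) ψ
      (fun c => ((hP (e (Ideal.Quotient.mk 𝔭 c))).trans (hχ c)).symm)
  have hbad := finite_bad m b
  let T : Finset (PlaceOver ℂ E) := hbad.toFinset.erase P
  obtain ⟨u, hu0, huP, huT⟩ := exists_ord_one T P (Finset.notMem_erase _ _)
  let D₀ : PlaceOver ℂ E →₀ ℤ := div ℂ u - Finsupp.single P 1
  refine ⟨- Finsupp.mapDomain (centerMap f γ hγ) D₀, ?_, ?_, ?_⟩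
  · intro z hz
    rw [Finsupp.support_neg] at hz
    have h1 := Finsupp.mapDomain_support hz
    rw [Finset.mem_image] at h1
    obtain ⟨w, hw, rfl⟩ := h1
    rw [Finsupp.mem_support_iff] at hw
    have hwP : w ≠ P := by
      rintro rfl
      apply hw
      change div ℂ u w - (Finsupp.single w (1 : ℤ)) w = 0
      rw [div_apply, huP, Finsupp.single_eq_same, sub_self]
    have hwu : w.1.ord u ≠ 0 := by
      intro h0
      apply hw
      change div ℂ u w - (Finsupp.single P (1 : ℤ)) w = 0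
      rw [div_apply, h0, Finsupp.single_eq_of_ne hwP, sub_zero]
    have hwT : w ∉ T := fun h => hwu (huT w h)
    have hwbad : ¬ ((∃ c, m c ∉ w.1.ring) ∨ w.1.ord (m b) ≠ 0) := by
      intro h
      apply hwT
      exact Finset.mem_erase.2 ⟨hwP, hbad.mem_toFinset.2 h⟩
    push Not at hwbad
    obtain ⟨hreg, hord⟩ := hwbad
    obtain ⟨φ, hφ⟩ := evalAt_algHom m w hreg
    rw [hcen w hreg φ hφ]
    apply hbV
    rw [chart_pt_mem f hU b φ, hφ]
    intro h0
    rw [evalAt_eq_zero_iff, IsLocalRing.mem_maximalIdeal] at h0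
    apply h0
    have hmb : m b ≠ 0 := by
      intro h1
      apply hb𝔭
      rw [← Ideal.Quotient.eq_zero_iff_mem]
      exact hκ (h1.trans (map_zero κ).symm)
    have hinv : (m b)⁻¹ ∈ w.1.ring := ((w.1.ord_eq_zero_iff hmb).1 hord).2
    refine IsUnit.of_mul_eq_one ⟨_, hinv⟩ ?_
    exact Subtype.ext (mul_inv_cancel₀ hmb)
  · rw [map_neg, deg_mapDomain]
    change -deg (div ℂ u - Finsupp.single P 1) = 1
    rw [map_sub, deg_div, deg_single]
    norm_num
  · have h1 := pushDiv_mem_Rat f γ hγ u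
    have h2 : Finsupp.single x (1 : ℤ) - - Finsupp.mapDomain (centerMap f γ hγ) D₀ =
        pushDiv f γ hγ u := by
      unfold pushDiv
      have h3 : div ℂ u = D₀ + Finsupp.single P 1 := by
        change div ℂ u = div ℂ u - Finsupp.single P 1 + Finsupp.single P 1
        rw [sub_add_cancel]
      rw [h3, Finsupp.mapDomain_add, Finsupp.mapDomain_single, hPx, sub_neg_eq_add, add_comm]
    rw [h2]
    exact h1

end Vale.Agent.P297
end
end

section

section

set_option linter.unusedSectionVars false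
set_option linter.style.haveILetI false

open CategoryTheory AlgebraicGeometry IntermediateField Polynomial

namespace Vale.Agent.P297

/-- A zero-cycle supported in a set of points which are all equivalent (up to `n`) is equivalent
to its degree times one of them. -/
theorem smul_sub_mem_of_support {S : Scheme.{0}} (R : AddSubgroup (ZeroCycle S)) (n : ℤ)
    (V : Set (closedPoints S)) (p₀ : closedPoints S)
    (hV : ∀ p ∈ V, n • (Finsupp.single p (1 : ℤ) - Finsupp.single p₀ 1) ∈ R)
    (z : ZeroCycle S) (hz : ∀ y ∈ z.support, y ∈ V) :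
    n • (z - Finsupp.single p₀ (deg z)) ∈ R := by
  classical
  have h1 : n • (z - Finsupp.single p₀ (deg z)) =
      ∑ y ∈ z.support, z y • (n • (Finsupp.single y (1 : ℤ) - Finsupp.single p₀ 1)) := by
    have h2 : z = ∑ y ∈ z.support, z y • Finsupp.single y (1 : ℤ) := by
      conv_lhs => rw [← Finsupp.sum_single z]
      rw [Finsupp.sum]
      refine Finset.sum_congr rfl fun y _ => ?_
      rw [Finsupp.smul_single, smul_eq_mul, mul_one]
    have h3 : Finsupp.single p₀ (deg z) =
        ∑ y ∈ z.support, z y • Finsupp.single p₀ (1 : ℤ) := by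
      have h4 : deg z = ∑ y ∈ z.support, z y := by
        conv_lhs => rw [h2]
        rw [map_sum]
        refine Finset.sum_congr rfl fun y _ => ?_
        rw [map_zsmul, deg_single, smul_eq_mul, mul_one]
      rw [h4, ← Finset.sum_smul, Finsupp.smul_single, smul_eq_mul, mul_one]
    conv_lhs => rw [h3]
    conv_lhs =>
      enter [2, 1]
      rw [h2]
    rw [← Finset.sum_sub_distrib, Finset.smul_sum]
    refine Finset.sum_congr rfl fun y _ => ?_
    rw [← smul_sub, smul_comm]
  rw [h1]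
  exact R.sum_mem fun y hy => R.zsmul_mem (hV y (hz y hy)) _

/-- From generic points to all points. -/
theorem global_of_generic {S : Scheme.{0}} [IsIntegral S] (f : S ⟶ Spec (.of ℂ)) [IsProper f]
    {U : S.Opens} (hU : IsAffineOpen U) [Nonempty U] {N : Type} [Field N] [Algebra ℂ N] (n : ℤ)
    (R : AddSubgroup (ZeroCycle S)) (hR : Rat f ≤ R) :
    letI := chartAlg f hU
    ∀ (ι : Γ(S, U) →ₐ[ℂ] N) (_ : Function.Injective ι)
    (_ : ∀ y : N, ∃ p : Γ(S, U)[X], p ≠ 0 ∧ p.eval₂ ι.toRingHom y = 0)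
    (A : Subalgebra ℂ N) (_ : A.FG) (hCA : ∀ c, ι c ∈ A)
    (_ : ∀ ξ₁ ξ₂ : A →ₐ[ℂ] ℂ, n •
      (Finsupp.single (pt f hU.fromSpec (chart_hj f hU) (ξ₁.comp (ι.codRestrict A hCA))) (1 : ℤ) -
       Finsupp.single (pt f hU.fromSpec (chart_hj f hU) (ξ₂.comp (ι.codRestrict A hCA))) (1 : ℤ))
        ∈ R),
    ∀ x y : closedPoints S, n • (Finsupp.single x (1 : ℤ) - Finsupp.single y 1) ∈ R := by
  classical
  letI := chartAlg f hU
  intro ι hι halg A hA hCA hgen x y
  obtain ⟨b, hb, hext⟩ := exists_extend ι hι halg A hA hCA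
  have hVne : ((S.basicOpen b : S.Opens) : Set S).Nonempty := by
    by_contra hcon
    rw [Set.not_nonempty_iff_eq_empty] at hcon
    apply hb
    rw [← AlgebraicGeometry.basicOpen_eq_bot_iff]
    exact TopologicalSpace.Opens.ext hcon
  obtain ⟨zx, hzx, hdx, hmx⟩ := moving f (S.basicOpen b) hVne x
  obtain ⟨zy, hzy, hdy, hmy⟩ := moving f (S.basicOpen b) hVne y
  -- a point of the open set
  have hne : zx.support.Nonempty := by
    rw [Finset.nonempty_iff_ne_empty, Ne, Finsupp.support_eq_empty]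
    rintro rfl
    rw [map_zero] at hdx
    exact one_ne_zero hdx.symm
  obtain ⟨p₀, hp₀⟩ := hne
  have hex : ∀ p : closedPoints S, (p : S) ∈ S.basicOpen b →
      ∃ ξ : A →ₐ[ℂ] ℂ, pt f hU.fromSpec (chart_hj f hU) (ξ.comp (ι.codRestrict A hCA)) = p := by
    intro p hp
    have hpU : (p : S) ∈ U := S.basicOpen_le b hp
    obtain ⟨ψ, hψ⟩ := chart_exists_pt f hU p hpU
    have hψb : ψ b ≠ 0 := by
      rw [← chart_pt_mem f hU b ψ, hψ]
      exact hp
    obtain ⟨ξ, hξ⟩ := hext ψ hψb
    refine ⟨ξ, ?_⟩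
    rw [← hψ]
    congr 1
    exact AlgHom.ext hξ
  obtain ⟨ξ₀, hξ₀⟩ := hex p₀ (hzx p₀ hp₀)
  have hV : ∀ p ∈ {p : closedPoints S | (p : S) ∈ S.basicOpen b},
      n • (Finsupp.single p (1 : ℤ) - Finsupp.single p₀ 1) ∈ R := by
    intro p hp
    obtain ⟨ξ, hξ⟩ := hex p hp
    rw [← hξ, ← hξ₀]
    exact hgen ξ ξ₀
  have h1 := smul_sub_mem_of_support R n _ p₀ hV zx hzx
  have h2 := smul_sub_mem_of_support R n _ p₀ hV zy hzy
  rw [hdx] at h1
  rw [hdy] at h2
  have h3 : n • (Finsupp.single x (1 : ℤ) - Finsupp.single y 1) =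
      n • (Finsupp.single x (1 : ℤ) - zx) - n • (Finsupp.single y (1 : ℤ) - zy) +
      (n • (zx - Finsupp.single p₀ 1) - n • (zy - Finsupp.single p₀ 1)) := by
    rw [← smul_sub, ← smul_sub, ← smul_add]
    congr 1
    abel
  rw [h3]
  exact R.add_mem (R.sub_mem (R.zsmul_mem (hR hmx) n) (R.zsmul_mem (hR hmy) n))
    (R.sub_mem h1 h2)

end Vale.Agent.P297
end
end

section

section

set_option linter.unusedSectionVars false
set_option linter.style.haveILetI false

open CategoryTheory AlgebraicGeometry IntermediateField Polynomial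

namespace Vale.Agent.P297

theorem constHom_comp {S : Scheme.{0}} (f : S ⟶ Spec (.of ℂ)) {R R' : CommRingCat.{0}}
    (γ : Spec R ⟶ S) (m : R ⟶ R') :
    constHom f (Spec.map m ≫ γ) = m.hom.comp (constHom f γ) := by
  have h : CommRingCat.ofHom (constHom f (Spec.map m ≫ γ)) =
      CommRingCat.ofHom (constHom f γ) ≫ m := by
    apply Spec.map_injective
    rw [constHom_spec, Spec.map_comp, constHom_spec, Category.assoc]
  exact congrArg CommRingCat.Hom.hom h

/-- A chart whose coordinate ring embeds in the function field. -/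
theorem exists_chart {S : Scheme.{0}} [IsIntegral S] (f : S ⟶ Spec (.of ℂ)) [IsProper f]
    {K : Type} [Field K] [Algebra ℂ K] (h : IsFunctionFieldOf f K) :
    ∃ (U : S.Opens) (hU : IsAffineOpen U) (_ : Nonempty U),
      letI := chartAlg f hU
      ∃ i : Γ(S, U) →ₐ[ℂ] K, Function.Injective i ∧
        ∀ y : K, ∃ a b : Γ(S, U), b ≠ 0 ∧ y * i b = i a := by
  obtain ⟨e, he⟩ := h
  obtain ⟨U, hU, hxU, -⟩ := exists_isAffineOpen_mem_and_subset (X := S) (x := genericPoint S)
    (U := ⊤) trivial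
  haveI : Nonempty U := ⟨⟨genericPoint S, hxU⟩⟩
  letI := chartAlg f hU
  haveI : IsFractionRing Γ(S, U) S.functionField :=
    functionField_isFractionRing_of_isAffineOpen S U hU
  refine ⟨U, hU, inferInstance, ?_⟩
  let i : Γ(S, U) →+* K := (e : S.functionField →+* K).comp (algebraMap Γ(S, U) S.functionField)
  have hi : ∀ a : ℂ, i (algebraMap ℂ Γ(S, U) a) = algebraMap ℂ K a := by
    intro a
    rw [← he]
    change e (algebraMap Γ(S, U) S.functionField (constHom f hU.fromSpec a)) = _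
    congr 1
    have h1 := constHom_comp f hU.fromSpec (S.presheaf.germ U (genericPoint S) hxU)
    have h2 : Spec.map (S.presheaf.germ U (genericPoint S) hxU) ≫ hU.fromSpec =
      S.fromSpecStalk (genericPoint S) := hU.fromSpecStalk_eq_fromSpecStalk hxU
    rw [h2] at h1
    rw [h1]
    rfl
  refine ⟨{ i with commutes' := hi }, ?_, ?_⟩
  · change Function.Injective i
    exact e.injective.comp (IsFractionRing.injective Γ(S, U) S.functionField)
  · intro y
    obtain ⟨⟨a, b⟩, hab⟩ := IsLocalization.surj (nonZeroDivisors Γ(S, U)) (e.symm y)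
    refine ⟨a, b, nonZeroDivisors.ne_zero b.2, ?_⟩
    change y * e (algebraMap Γ(S, U) S.functionField b) = e (algebraMap Γ(S, U) S.functionField a)
    rw [← hab, map_mul, RingEquiv.apply_symm_apply]

/-- Algebraicity over the chart from algebraicity over the function field. -/
theorem exists_poly_of_algebraic {C K N : Type} [CommRing C] [IsDomain C] [Field K] [Field N]
    (i : C →+* K) (hi : Function.Injective i) (hfrac : ∀ y : K, ∃ a b : C, b ≠ 0 ∧ y * i b = i a)
    (m : K →+* N) (y : N) (hy : ∃ p : K[X], p ≠ 0 ∧ p.eval₂ m y = 0) :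
    ∃ p : C[X], p ≠ 0 ∧ p.eval₂ (m.comp i) y = 0 := by
  letI : Algebra C K := i.toAlgebra
  haveI : IsFractionRing C K := by
    haveI : FaithfulSMul C K := (faithfulSMul_iff_algebraMap_injective C K).2 hi
    apply IsFractionRing.of_field
    intro z
    obtain ⟨a, b, hb, hab⟩ := hfrac z
    refine ⟨a, b, ?_⟩
    rw [eq_div_iff]
    · exact hab
    · intro h0
      exact hb (hi (h0.trans (map_zero i).symm))
  obtain ⟨p, hp0, hp⟩ := hy
  obtain ⟨b, hb, hbp⟩ := IsLocalization.integerNormalization_spec (nonZeroDivisors C) p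
  refine ⟨IsLocalization.integerNormalization (nonZeroDivisors C) p, ?_, ?_⟩
  · intro h0
    rw [h0, Polynomial.map_zero] at hbp
    apply hp0
    have h1 : i b ≠ 0 := by
      intro h0
      exact nonZeroDivisors.ne_zero hb (hi (h0.trans (map_zero i).symm))
    have h2 : (algebraMap C K b) • p = 0 := by
      rw [algebraMap_smul]
      exact hbp.symm
    exact (smul_eq_zero.1 h2).resolve_left h1
  · have h1 : eval₂ (m.comp i) y (IsLocalization.integerNormalization (nonZeroDivisors C) p) =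
        eval₂ m y ((IsLocalization.integerNormalization (nonZeroDivisors C) p).map
          (algebraMap C K)) := by
      rw [Polynomial.eval₂_map]
      rfl
    rw [h1, hbp, ← algebraMap_smul K b p, Polynomial.eval₂_smul, hp, mul_zero]

end Vale.Agent.P297
end
end

section

section

set_option linter.unusedSectionVars false
set_option linter.style.haveILetI false

open CategoryTheory AlgebraicGeometry IntermediateField Polynomial

namespace Vale.Agent.P297

section

variable {S : Scheme.{0}} (f : S ⟶ Spec (.of ℂ)) [IsProper f] {C : Type} [CommRing C] [Algebra ℂ C]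
  (j : Spec (.of C) ⟶ S)
  (hj : j ≫ f = Spec.map (CommRingCat.ofHom (algebraMap ℂ C)))

open Classical in
/-- The point cut out by `ξ : A → ℂ` on the `N`-valued point `ι`. -/
noncomputable def cyc {N : Type} [Field N] [Algebra ℂ N] (A : Subalgebra ℂ N) (ξ : A →ₐ[ℂ] ℂ)
    (ι : C →ₐ[ℂ] N) : ZeroCycle S :=
  if h : ∀ c, ι c ∈ A then Finsupp.single (pt f j hj (ξ.comp (ι.codRestrict A h))) (1 : ℤ) else 0

theorem cyc_of_mem {N : Type} [Field N] [Algebra ℂ N] (A : Subalgebra ℂ N) (ξ : A →ₐ[ℂ] ℂ)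
    (ι : C →ₐ[ℂ] N) (h : ∀ c, ι c ∈ A) :
    cyc f j hj A ξ ι = Finsupp.single (pt f j hj (ξ.comp (ι.codRestrict A h))) (1 : ℤ) := by
  unfold cyc
  rw [dif_pos h]

/-- Specialization of a cycle of `N`-valued points. -/
noncomputable def pair {N : Type} [Field N] [Algebra ℂ N] (A : Subalgebra ℂ N) (ξ : A →ₐ[ℂ] ℂ) :
    ((C →ₐ[ℂ] N) →₀ ℤ) →+ ZeroCycle S :=
  (Finsupp.linearCombination ℤ (cyc f j hj A ξ)).toAddMonoidHom

theorem pair_single {N : Type} [Field N] [Algebra ℂ N] (A : Subalgebra ℂ N) (ξ : A →ₐ[ℂ] ℂ)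
    (ι : C →ₐ[ℂ] N) (n : ℤ) : pair f j hj A ξ (Finsupp.single ι n) = n • cyc f j hj A ξ ι :=
  Finsupp.linearCombination_single _ _ _

/-- The cycles of `N`-valued points whose specializations are all congruent modulo `R`. -/
def Good (R : AddSubgroup (ZeroCycle S)) (N : Type) [Field N] [Algebra ℂ N] :
    AddSubgroup ((C →ₐ[ℂ] N) →₀ ℤ) where
  carrier := {v | ∃ A₀ : Subalgebra ℂ N, A₀.FG ∧ ∀ B : Subalgebra ℂ N, A₀ ≤ B →
    ∀ ξ₁ ξ₂ : B →ₐ[ℂ] ℂ, pair f j hj B ξ₁ v - pair f j hj B ξ₂ v ∈ R}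
  zero_mem' := by
    refine ⟨⊥, Subalgebra.fg_bot, fun B _ ξ₁ ξ₂ => ?_⟩
    rw [map_zero, map_zero, sub_zero]
    exact R.zero_mem
  add_mem' := by
    rintro v w ⟨A, hA, hv⟩ ⟨A', hA', hw⟩
    refine ⟨A ⊔ A', hA.sup hA', fun B hB ξ₁ ξ₂ => ?_⟩
    rw [map_add, map_add, add_sub_add_comm]
    exact R.add_mem (hv B (le_sup_left.trans hB) ξ₁ ξ₂) (hw B (le_sup_right.trans hB) ξ₁ ξ₂)
  neg_mem' := by
    rintro v ⟨A, hA, hv⟩
    refine ⟨A, hA, fun B hB ξ₁ ξ₂ => ?_⟩
    rw [map_neg, map_neg, ← neg_sub']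
    exact R.neg_mem (hv B hB ξ₁ ξ₂)

variable {f j hj}

theorem Good.mono {R R' : AddSubgroup (ZeroCycle S)} (h : R ≤ R') {N : Type} [Field N]
    [Algebra ℂ N] : Good f j hj R N ≤ Good f j hj R' N := by
  rintro v ⟨A, hA, hv⟩
  exact ⟨A, hA, fun B hB ξ₁ ξ₂ => h (hv B hB ξ₁ ξ₂)⟩

theorem pair_map {K N : Type} [Field K] [Algebra ℂ K] [Field N] [Algebra ℂ N] (m : K →ₐ[ℂ] N)
    (B : Subalgebra ℂ N) (ξ : B →ₐ[ℂ] ℂ) (v : (C →ₐ[ℂ] K) →₀ ℤ) :
    pair f j hj B ξ (Finsupp.mapDomain (fun ι => m.comp ι) v) =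
      pair f j hj (B.comap m) (ξ.comp ((m.comp (B.comap m).val).codRestrict B (fun x => x.2))) v := by
  induction v using Finsupp.induction_linear with
  | zero => rw [Finsupp.mapDomain_zero, map_zero, map_zero]
  | add v w hv hw => rw [Finsupp.mapDomain_add, map_add, map_add, hv, hw]
  | single ι n =>
    rw [Finsupp.mapDomain_single, pair_single, pair_single]
    congr 1

theorem Good.map {R : AddSubgroup (ZeroCycle S)} {K N : Type} [Field K] [Algebra ℂ K] [Field N]
    [Algebra ℂ N] (m : K →ₐ[ℂ] N) {v : (C →ₐ[ℂ] K) →₀ ℤ} (hv : v ∈ Good f j hj R K) :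
    Finsupp.mapDomain (fun ι => m.comp ι) v ∈ Good f j hj R N := by
  obtain ⟨A, hA, h⟩ := hv
  refine ⟨A.map m, hA.map m, fun B hB ξ₁ ξ₂ => ?_⟩
  rw [pair_map, pair_map]
  exact h (B.comap m) (Subalgebra.map_le.1 hB) _ _

/-- The orbit of a finite group with purely transcendental fixed field. -/
theorem good_orbit [Algebra.FiniteType ℂ C] {N : Type} [Field N] [Algebra ℂ N]
    (G : Subgroup (N ≃ₐ[ℂ] N)) [Fintype G]
    {σ : Type} [Finite σ] (x : σ → N) (hx : AlgebraicIndependent ℂ x)
    (hfix : ∀ r ∈ G, ∀ i, r (x i) = x i)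
    (hgen : ∀ y : N, (∀ r ∈ G, r y = y) → y ∈ IntermediateField.adjoin ℂ (Set.range x))
    (ι : C →ₐ[ℂ] N) :
    ∑ r : G, Finsupp.single (r.1.toAlgHom.comp ι) (1 : ℤ) ∈ Good f j hj (Rat f) N := by
  obtain ⟨A, hA, hc⟩ := core f j hj G x hx hfix hgen ι
  refine ⟨A, hA, fun B hB ξ₁ ξ₂ => ?_⟩
  obtain ⟨hB', h⟩ := hc.mono f j hj hB
  have key : ∀ ξ : B →ₐ[ℂ] ℂ, pair f j hj B ξ
      (∑ r : G, Finsupp.single (r.1.toAlgHom.comp ι) (1 : ℤ)) =
      ∑ r : G, Finsupp.single (pt f j hj (ξ.comp (tw B r.1 ι (hB' r)))) (1 : ℤ) := by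
    intro ξ
    rw [map_sum]
    refine Finset.sum_congr rfl fun r _ => ?_
    rw [pair_single, one_smul, cyc_of_mem f j hj B ξ (r.1.toAlgHom.comp ι) (hB' r)]
    rfl
  rw [key, key]
  exact h ξ₁ ξ₂

end

/-- From a relation among `N`-valued points to all closed points. -/
theorem global_of_good {S : Scheme.{0}} [IsIntegral S] (f : S ⟶ Spec (.of ℂ)) [IsProper f]
    {U : S.Opens} (hU : IsAffineOpen U) [Nonempty U] {N : Type} [Field N] [Algebra ℂ N] (n : ℤ)
    (R : AddSubgroup (ZeroCycle S)) (hR : Rat f ≤ R) :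
    letI := chartAlg f hU
    ∀ (ι : Γ(S, U) →ₐ[ℂ] N) (_ : Function.Injective ι)
    (_ : ∀ y : N, ∃ p : Γ(S, U)[X], p ≠ 0 ∧ p.eval₂ ι.toRingHom y = 0)
    (_ : Finsupp.single ι n ∈ Good f hU.fromSpec (chart_hj f hU) R N),
    ∀ x y : closedPoints S, n • (Finsupp.single x (1 : ℤ) - Finsupp.single y 1) ∈ R := by
  letI := chartAlg f hU
  haveI := chart_finiteType f hU
  intro ι hι halg hgood
  obtain ⟨A₀, hA₀, h⟩ := hgood
  let A : Subalgebra ℂ N := A₀ ⊔ ι.range
  have hιA : ∀ c, ι c ∈ A := fun c => (le_sup_right : ι.range ≤ A) ⟨c, rfl⟩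
  have hA : A.FG := by
    apply hA₀.sup
    rw [← Algebra.map_top]
    exact (Algebra.FiniteType.out).map ι
  refine global_of_generic f hU n R hR ι hι halg A hA hιA ?_
  intro ξ₁ ξ₂
  have h1 := h A le_sup_left ξ₁ ξ₂
  rw [pair_single, pair_single, cyc_of_mem f _ _ A ξ₁ ι hιA, cyc_of_mem f _ _ A ξ₂ ι hιA,
    ← smul_sub] at h1
  exact h1

end Vale.Agent.P297
end
end

section

section

set_option linter.unusedSectionVars false
set_option linter.style.haveILetI false

open CategoryTheory AlgebraicGeometry IntermediateField Polynomial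

namespace Vale.Agent.P297

section Quad

variable {N : Type} [Field N] [Algebra ℂ N]

/-- The elements `a + b y` with `a`, `b` in `F`. -/
def quadField (F : IntermediateField ℂ N) (y : N) (hy : y ^ 2 ∈ F) : IntermediateField ℂ N where
  carrier := {x | ∃ a ∈ F, ∃ b ∈ F, x = a + b * y}
  mul_mem' := by
    rintro _ _ ⟨a, ha, b, hb, rfl⟩ ⟨a', ha', b', hb', rfl⟩
    refine ⟨a * a' + b * b' * y ^ 2, F.add_mem (F.mul_mem ha ha')
      (F.mul_mem (F.mul_mem hb hb') hy), a * b' + b * a',
      F.add_mem (F.mul_mem ha hb') (F.mul_mem hb ha'), by ring⟩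
  one_mem' := ⟨1, F.one_mem, 0, F.zero_mem, by ring⟩
  add_mem' := by
    rintro _ _ ⟨a, ha, b, hb, rfl⟩ ⟨a', ha', b', hb', rfl⟩
    exact ⟨a + a', F.add_mem ha ha', b + b', F.add_mem hb hb', by ring⟩
  zero_mem' := ⟨0, F.zero_mem, 0, F.zero_mem, by ring⟩
  algebraMap_mem' := fun r => ⟨algebraMap ℂ N r, F.algebraMap_mem r, 0, F.zero_mem, by ring⟩
  inv_mem' := by
    rintro x ⟨a, ha, b, hb, hx⟩
    by_cases hx0 : x = 0
    · rw [hx0, inv_zero]
      exact ⟨0, F.zero_mem, 0, F.zero_mem, by ring⟩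
    · by_cases hn : a ^ 2 - b ^ 2 * y ^ 2 = 0
      · have h1 : (a - b * y) * x = 0 := by rw [hx, ← hn]; ring
        have h2 : a - b * y = 0 := (mul_eq_zero.1 h1).resolve_right hx0
        have h3 : x = a + a := by rw [hx]; linear_combination - h2
        refine ⟨x⁻¹, F.inv_mem ?_, 0, F.zero_mem, by ring⟩
        rw [h3]
        exact F.add_mem ha ha
      · have hnF : a ^ 2 - b ^ 2 * y ^ 2 ∈ F :=
          F.sub_mem (pow_mem ha 2) (F.mul_mem (pow_mem hb 2) hy)
        refine ⟨a * (a ^ 2 - b ^ 2 * y ^ 2)⁻¹, F.mul_mem ha (F.inv_mem hnF),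
          - b * (a ^ 2 - b ^ 2 * y ^ 2)⁻¹, F.mul_mem (F.neg_mem hb) (F.inv_mem hnF), ?_⟩
        rw [inv_eq_iff_eq_inv, hx]
        apply eq_inv_of_mul_eq_one_left
        have h4 : (a + b * y) * (a * (a ^ 2 - b ^ 2 * y ^ 2)⁻¹ +
            -b * (a ^ 2 - b ^ 2 * y ^ 2)⁻¹ * y) =
            (a ^ 2 - b ^ 2 * y ^ 2) * (a ^ 2 - b ^ 2 * y ^ 2)⁻¹ := by ring
        rw [h4, mul_inv_cancel₀ hn]

theorem exists_quad (F : IntermediateField ℂ N) (y : N) (hy : y ^ 2 ∈ F) (s : Set N)
    (hs : ∀ x ∈ s, x ∈ F ∨ x = y) (htop : IntermediateField.adjoin ℂ s = ⊤) (x : N) :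
    ∃ a ∈ F, ∃ b ∈ F, x = a + b * y := by
  have h1 : IntermediateField.adjoin ℂ s ≤ quadField F y hy := by
    rw [IntermediateField.adjoin_le_iff]
    intro z hz
    rcases hs z hz with h | h
    · exact ⟨z, h, 0, F.zero_mem, by ring⟩
    · exact ⟨0, F.zero_mem, 1, F.one_mem, by rw [h]; ring⟩
  rw [htop] at h1
  exact h1 trivial

theorem quad_unique (F : IntermediateField ℂ N) (y : N) (hyF : y ∉ F) {a b a' b' : N}
    (ha : a ∈ F) (hb : b ∈ F) (ha' : a' ∈ F) (hb' : b' ∈ F) (h : a + b * y = a' + b' * y) :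
    a = a' ∧ b = b' := by
  have hb2 : b = b' := by
    by_contra hne
    apply hyF
    have h1 : b - b' ≠ 0 := sub_ne_zero.2 hne
    have h2 : y = (a' - a) * (b - b')⁻¹ := by
      rw [eq_mul_inv_iff_mul_eq₀ h1]
      linear_combination h
    rw [h2]
    exact F.mul_mem (F.sub_mem ha' ha) (F.inv_mem (F.sub_mem hb hb'))
  subst hb2
  exact ⟨add_right_cancel h, rfl⟩

/-- The nontrivial automorphism of a quadratic extension. -/
theorem exists_quad_aut (F : IntermediateField ℂ N) (y : N) (hy : y ^ 2 ∈ F) (hyF : y ∉ F)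
    (hspan : ∀ x : N, ∃ a ∈ F, ∃ b ∈ F, x = a + b * y) :
    ∃ τ : N ≃ₐ[ℂ] N, (∀ a ∈ F, τ a = a) ∧ τ y = -y ∧ (∀ x, τ (τ x) = x) ∧
      ∀ x, τ x = x → x ∈ F := by
  choose a ha b hb hab using hspan
  have key : ∀ p ∈ F, ∀ q ∈ F, a (p + q * y) - b (p + q * y) * y = p - q * y := by
    intro p hp q hq
    obtain ⟨h1, h2⟩ := quad_unique F y hyF hp hq (ha _) (hb _) (hab (p + q * y))
    rw [← h1, ← h2]
  let T : N →ₐ[ℂ] N :=
    { toFun := fun x => a x - b x * y
      map_one' := by
        have := key 1 F.one_mem 0 F.zero_mem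
        simpa using this
      map_zero' := by
        have := key 0 F.zero_mem 0 F.zero_mem
        simpa using this
      map_mul' := by
        intro x x'
        have h1 : x * x' = (a x * a x' + b x * b x' * y ^ 2) + (a x * b x' + b x * a x') * y := by
          conv_lhs => rw [hab x, hab x']
          ring
        have h2 := key (a x * a x' + b x * b x' * y ^ 2)
          (F.add_mem (F.mul_mem (ha x) (ha x')) (F.mul_mem (F.mul_mem (hb x) (hb x')) hy))
          (a x * b x' + b x * a x') (F.add_mem (F.mul_mem (ha x) (hb x'))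
            (F.mul_mem (hb x) (ha x')))
        rw [← h1] at h2
        rw [h2]
        ring
      map_add' := by
        intro x x'
        have h1 : x + x' = (a x + a x') + (b x + b x') * y := by
          conv_lhs => rw [hab x, hab x']
          ring
        have h2 := key (a x + a x') (F.add_mem (ha x) (ha x')) (b x + b x')
          (F.add_mem (hb x) (hb x'))
        rw [← h1] at h2
        rw [h2]
        ring
      commutes' := by
        intro r
        have := key (algebraMap ℂ N r) (F.algebraMap_mem r) 0 F.zero_mem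
        simpa using this }
  have hT : ∀ x, T x = a x - b x * y := fun x => rfl
  have hTT : ∀ x, T (T x) = x := by
    intro x
    have h1 := key (a x) (ha x) (- b x) (F.neg_mem (hb x))
    have h2 : T x = a x + - b x * y := by rw [hT]; ring
    rw [hT (T x), h2, h1]
    conv_rhs => rw [hab x]
    ring
  have hTT' : T.comp T = AlgHom.id ℂ N := AlgHom.ext hTT
  refine ⟨AlgEquiv.ofAlgHom T T hTT' hTT', ?_, ?_, hTT, ?_⟩
  · intro p hp
    have := key p hp 0 F.zero_mem
    change a p - b p * y = p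
    simpa using this
  · have := key 0 F.zero_mem 1 F.one_mem
    change a y - b y * y = - y
    simpa using this
  · intro x hx
    have h1 : a x - b x * y = a x + b x * y := by
      rw [← hab x]
      exact hx
    have h2 : b x * y = 0 := by
      have h3 : (2 : N) * (b x * y) = 0 := by linear_combination - h1
      haveI : CharZero N := charZero_of_injective_algebraMap (algebraMap ℂ N).injective
      exact (mul_eq_zero.1 h3).resolve_left two_ne_zero
    rw [hab x, h2, add_zero]
    exact ha x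

end Quad

section

variable {S : Scheme.{0}} {f : S ⟶ Spec (.of ℂ)} [IsProper f] {C : Type} [CommRing C] [Algebra ℂ C]
  [Algebra.FiniteType ℂ C] {j : Spec (.of C) ⟶ S}
  {hj : j ≫ f = Spec.map (CommRingCat.ofHom (algebraMap ℂ C))}

theorem good_trivial {N : Type} [Field N] [Algebra ℂ N] {σ : Type} [Finite σ] (x : σ → N)
    (hx : AlgebraicIndependent ℂ x) (hgen : IntermediateField.adjoin ℂ (Set.range x) = ⊤)
    (ι : C →ₐ[ℂ] N) : Finsupp.single ι (1 : ℤ) ∈ Good f j hj (Rat f) N := by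
  have h := good_orbit (f := f) (j := j) (hj := hj) (⊥ : Subgroup (N ≃ₐ[ℂ] N)) x hx (by
    intro r hr i
    rw [Subgroup.mem_bot] at hr
    rw [hr]
    rfl) (by
    intro y _
    rw [hgen]
    trivial) ι
  rw [Fintype.sum_unique] at h
  exact h

theorem good_pair {N : Type} [Field N] [Algebra ℂ N] {σ : Type} [Finite σ] (x : σ → N)
    (hx : AlgebraicIndependent ℂ x) (τ : N ≃ₐ[ℂ] N) (hτ : ∀ y, τ (τ y) = y) (hτ1 : τ ≠ 1)
    (hfix : ∀ i, τ (x i) = x i)
    (hgen : ∀ y, τ y = y → y ∈ IntermediateField.adjoin ℂ (Set.range x))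
    (ι : C →ₐ[ℂ] N) :
    Finsupp.single ι (1 : ℤ) + Finsupp.single (τ.toAlgHom.comp ι) 1 ∈ Good f j hj (Rat f) N := by
  classical
  have hττ : τ * τ = 1 := AlgEquiv.ext hτ
  let G : Subgroup (N ≃ₐ[ℂ] N) :=
    { carrier := {1, τ}
      mul_mem' := by
        rintro a b (rfl | rfl) (rfl | rfl)
        · left; rfl
        · right; rfl
        · right; rfl
        · left; exact hττ
      one_mem' := Or.inl rfl
      inv_mem' := by
        rintro a (rfl | rfl)
        · left; exact inv_one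
        · right; exact inv_eq_of_mul_eq_one_left hττ }
  have hG : ∀ r, r ∈ G ↔ r = 1 ∨ r = τ := fun r => Iff.rfl
  let e : Bool ≃ G :=
    { toFun := fun b => if b then ⟨τ, Or.inr rfl⟩ else ⟨1, Or.inl rfl⟩
      invFun := fun r => decide (r.1 = τ)
      left_inv := by
        rintro (b | b)
        · simp [hτ1.symm]
        · simp
      right_inv := by
        rintro ⟨r, (rfl | rfl)⟩
        · simp [hτ1.symm]
        · simp }
  letI : Fintype G := Fintype.ofEquiv Bool e
  have h := good_orbit (f := f) (j := j) (hj := hj) G x hx (by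
    intro r hr i
    rcases (hG r).1 hr with rfl | rfl
    · rfl
    · exact hfix i) (by
    intro y hy
    exact hgen y (hy τ (Or.inr rfl))) ι
  rw [← e.sum_comp, Fintype.sum_bool] at h
  rw [add_comm]
  exact h

end

end Vale.Agent.P297
end
end

section

section

set_option linter.unusedSectionVars false
set_option linter.style.haveILetI false

open Polynomial

namespace Vale.Agent.P297

/-- Solving `u² - v² q = (X - α) w²`. -/
theorem exists_halving (q : ℂ[X]) (hq : Squarefree q) (α : ℂ) :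
    ∃ (u w : ℂ[X]) (v : ℂ), ¬ (u = 0 ∧ w = 0) ∧
      u ^ 2 - Polynomial.C (v ^ 2) * q = (X - Polynomial.C α) * w ^ 2 := by
  classical
  have hq0 : q ≠ 0 := hq.ne_zero
  set n := q.natDegree with hn
  have hsq : ∀ a : ℂ, ∃ r : ℂ, r * r = a - α := fun a => by
    obtain ⟨r, hr⟩ := IsAlgClosed.exists_pow_nat_eq (a - α) (n := 2) two_pos
    exact ⟨r, by rw [← hr]; ring⟩
  choose r hr using hsq
  let L : (degreeLT ℂ (n / 2 + 1) × degreeLT ℂ ((n + 1) / 2)) →ₗ[ℂ] (q.roots.toFinset → ℂ) :=
    { toFun := fun p a => p.1.1.eval a.1 - r a.1 * p.2.1.eval a.1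
      map_add' := by
        intro x y
        ext a
        simp only [Prod.fst_add, Prod.snd_add, Submodule.coe_add, eval_add, Pi.add_apply]
        ring
      map_smul' := by
        intro c x
        ext a
        simp only [Prod.smul_fst, Prod.smul_snd, SetLike.val_smul, eval_smul, smul_eq_mul,
          RingHom.id_apply, Pi.smul_apply]
        ring }
  have hdim : Module.finrank ℂ (q.roots.toFinset → ℂ) <
      Module.finrank ℂ (degreeLT ℂ (n / 2 + 1) × degreeLT ℂ ((n + 1) / 2)) := by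
    haveI : Module.Finite ℂ (degreeLT ℂ (n / 2 + 1)) :=
      Module.Finite.equiv (degreeLTEquiv ℂ (n / 2 + 1)).symm
    haveI : Module.Finite ℂ (degreeLT ℂ ((n + 1) / 2)) :=
      Module.Finite.equiv (degreeLTEquiv ℂ ((n + 1) / 2)).symm
    rw [Module.finrank_prod, (degreeLTEquiv ℂ (n / 2 + 1)).finrank_eq,
      (degreeLTEquiv ℂ ((n + 1) / 2)).finrank_eq, Module.finrank_fin_fun, Module.finrank_fin_fun,
      Module.finrank_fintype_fun_eq_card, Fintype.card_coe]
    have h1 : q.roots.toFinset.card ≤ n :=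
      (Multiset.toFinset_card_le _).trans (card_roots' q)
    omega
  haveI : Module.Finite ℂ (degreeLT ℂ (n / 2 + 1)) :=
    Module.Finite.equiv (degreeLTEquiv ℂ (n / 2 + 1)).symm
  haveI : Module.Finite ℂ (degreeLT ℂ ((n + 1) / 2)) :=
    Module.Finite.equiv (degreeLTEquiv ℂ ((n + 1) / 2)).symm
  have hker := LinearMap.ker_ne_bot_of_finrank_lt (f := L) hdim
  obtain ⟨⟨u, w⟩, huw, hne⟩ := Submodule.exists_mem_ne_zero_of_ne_bot hker
  rw [LinearMap.mem_ker] at huw
  have heval : ∀ a ∈ q.roots, u.1.eval a = r a * w.1.eval a := by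
    intro a ha
    have h1 := congrFun huw ⟨a, Multiset.mem_toFinset.2 ha⟩
    exact sub_eq_zero.1 h1
  set G : ℂ[X] := u.1 ^ 2 - (X - Polynomial.C α) * w.1 ^ 2 with hG
  have hGdeg : G.natDegree ≤ n := by
    have hu : u.1.natDegree ≤ n / 2 := by
      have h1 := mem_degreeLT.1 u.2
      by_cases hu0 : u.1 = 0
      · rw [hu0]; simp
      · have := (natDegree_lt_iff_degree_lt hu0).2 h1
        omega
    have h2 : (u.1 ^ 2).natDegree ≤ n := by
      refine natDegree_pow_le.trans ?_
      omega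
    have h3 : ((X - Polynomial.C α) * w.1 ^ 2).natDegree ≤ n := by
      by_cases hw : w.1 = 0
      · rw [hw]; simp
      · have hwd : w.1.natDegree < (n + 1) / 2 := by
          have h1 := mem_degreeLT.1 w.2
          exact (natDegree_lt_iff_degree_lt hw).2 h1
        refine natDegree_mul_le.trans ?_
        have h4 := natDegree_pow_le (p := w.1) (n := 2)
        have h5 := natDegree_X_sub_C (R := ℂ) α
        omega
    exact (natDegree_sub_le _ _).trans (max_le h2 h3)
  have hdvd : q ∣ G := by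
    by_cases hG0 : G = 0
    · rw [hG0]; exact dvd_zero q
    apply (IsAlgClosed.splits q).dvd_of_roots_le_roots hq0
    rw [Multiset.le_iff_subset (nodup_roots (PerfectField.separable_iff_squarefree.2 hq))]
    intro a ha
    rw [mem_roots hG0, IsRoot, hG]
    simp only [eval_sub, eval_pow, eval_mul, eval_X, eval_C]
    rw [heval a ha]
    linear_combination (w.1.eval a) ^ 2 * (hr a)
  obtain ⟨V, hV⟩ := hdvd
  have hV0 : ∃ c : ℂ, G = Polynomial.C c * q := by
    by_cases hG0 : G = 0
    · exact ⟨0, by rw [hG0]; simp⟩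
    · have hVne : V ≠ 0 := by
        rintro rfl
        exact hG0 (by rw [hV, mul_zero])
      have h1 : G.natDegree = n + V.natDegree := by rw [hV, natDegree_mul hq0 hVne]
      have h2 : V.natDegree = 0 := by omega
      rw [natDegree_eq_zero] at h2
      obtain ⟨c, hc⟩ := h2
      exact ⟨c, by rw [hV, ← hc, mul_comm]⟩
  obtain ⟨c, hc⟩ := hV0
  obtain ⟨v, hv⟩ := IsAlgClosed.exists_pow_nat_eq c (n := 2) two_pos
  refine ⟨u.1, w.1, v, ?_, ?_⟩
  · rintro ⟨h1, h2⟩
    apply hne
    exact Prod.ext (Subtype.ext h1) (Subtype.ext h2)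
  · rw [hv, ← hc, hG]
    ring

/-- Squarefree decomposition. -/
theorem exists_squarefree_mul_sq (p : ℂ[X]) (hp : p ≠ 0) :
    ∃ q r : ℂ[X], Squarefree q ∧ p = q * r ^ 2 := by
  induction hd : p.natDegree using Nat.strong_induction_on generalizing p with
  | _ n ih =>
    by_cases hs : Squarefree p
    · exact ⟨p, 1, hs, by ring⟩
    · unfold Squarefree at hs
      push Not at hs
      obtain ⟨x, ⟨y, hy⟩, hx⟩ := hs
      have hx0 : x ≠ 0 := by
        rintro rfl
        apply hp
        rw [hy]; ring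
      have hy0 : y ≠ 0 := by
        rintro rfl
        apply hp
        rw [hy]; ring
      have h1 : x.natDegree ≠ 0 := by
        intro h0
        rw [natDegree_eq_zero] at h0
        obtain ⟨c, hc⟩ := h0
        apply hx
        rw [← hc, isUnit_C, isUnit_iff_ne_zero]
        rintro rfl
        apply hx0
        rw [← hc, map_zero]
      have h2 : y.natDegree < n := by
        rw [← hd, hy, natDegree_mul (mul_ne_zero hx0 hx0) hy0, natDegree_mul hx0 hx0]
        omega
      obtain ⟨q, r, hq, hqr⟩ := ih _ h2 y hy0 rfl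
      exact ⟨q, r * x, hq, by rw [hy, hqr]; ring⟩

end Vale.Agent.P297
end
end

section

section

set_option linter.unusedSectionVars false
set_option linter.style.haveILetI false

namespace Vale.Agent.P297

section

variable {σ : Type}

theorem totalDegree_pos {x : MvPolynomial σ ℂ} (hx0 : x ≠ 0) (hx : ¬ IsUnit x) :
    0 < x.totalDegree := by
  rw [Nat.pos_iff_ne_zero]
  intro h0
  rw [MvPolynomial.totalDegree_eq_zero_iff_eq_C] at h0
  apply hx
  rw [h0]
  have h1 : x.coeff 0 ≠ 0 := by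
    intro h2
    apply hx0
    rw [h0, h2, map_zero]
  exact (isUnit_iff_ne_zero.2 h1).map MvPolynomial.C

/-- A polynomial is a square, up to a constant, or has an irreducible factor of odd
multiplicity. -/
theorem exists_prime_decomp (Q : MvPolynomial σ ℂ) (hQ : Q ≠ 0) :
    (∃ (c : ℂ) (s : MvPolynomial σ ℂ), Q = MvPolynomial.C c * s ^ 2) ∨
    ∃ s p r : MvPolynomial σ ℂ, s ≠ 0 ∧ Irreducible p ∧ ¬ p ∣ r ∧ Q = s ^ 2 * (p * r) := by
  induction hd : Q.totalDegree using Nat.strong_induction_on generalizing Q with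
  | _ n ih =>
    by_cases hs : Squarefree Q
    · by_cases hu : IsUnit Q
      · left
        rw [MvPolynomial.isUnit_iff_eq_C_of_isReduced] at hu
        obtain ⟨c, -, hc⟩ := hu
        exact ⟨c, 1, by rw [hc]; ring⟩
      · right
        obtain ⟨p, hp, r, hr⟩ := WfDvdMonoid.exists_irreducible_factor hu hQ
        refine ⟨1, p, r, one_ne_zero, hp, ?_, by rw [hr]; ring⟩
        rintro ⟨r', hr'⟩
        apply hp.not_isUnit
        apply hs
        exact ⟨r', by rw [hr, hr']; ring⟩
    · unfold Squarefree at hs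
      push Not at hs
      obtain ⟨x, ⟨y, hy⟩, hx⟩ := hs
      have hx0 : x ≠ 0 := by
        rintro rfl
        apply hQ
        rw [hy]; ring
      have hy0 : y ≠ 0 := by
        rintro rfl
        apply hQ
        rw [hy]; ring
      have h1 := totalDegree_pos hx0 hx
      have h2 : y.totalDegree < n := by
        rw [← hd, hy, MvPolynomial.totalDegree_mul_of_isDomain (mul_ne_zero hx0 hx0) hy0,
          MvPolynomial.totalDegree_mul_of_isDomain hx0 hx0]
        omega
      rcases ih _ h2 y hy0 rfl with ⟨c, s, hcs⟩ | ⟨s, p, r, hs, hp, hr, hspr⟩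
      · left
        exact ⟨c, s * x, by rw [hy, hcs]; ring⟩
      · right
        exact ⟨s * x, p, r, mul_ne_zero hs hx0, hp, hr, by rw [hy, hspr]; ring⟩

theorem exists_pderiv_not_dvd {p : MvPolynomial σ ℂ} (hp : Irreducible p) :
    ∃ i, ¬ p ∣ MvPolynomial.pderiv i p := by
  classical
  have hpos := totalDegree_pos hp.ne_zero hp.not_isUnit
  have hvars : p.vars.Nonempty := by
    rw [Finset.nonempty_iff_ne_empty]
    intro h
    rw [MvPolynomial.vars_eq_empty_iff_eq_C] at h
    apply hp.not_isUnit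
    rw [h]
    have h1 : p.coeff 0 ≠ 0 := by
      intro h2
      apply hp.ne_zero
      rw [h, h2, map_zero]
    exact (isUnit_iff_ne_zero.2 h1).map MvPolynomial.C
  obtain ⟨i, hi⟩ := hvars
  refine ⟨i, ?_⟩
  rw [MvPolynomial.mem_vars_iff_mem_support] at hi
  obtain ⟨m, hm, him⟩ := hi
  have hmi : m i ≠ 0 := Finsupp.mem_support_iff.1 him
  have hne : MvPolynomial.pderiv i p ≠ 0 := by
    intro h0
    have h1 := MvPolynomial.coeff_pderiv (i := i) p (m - Finsupp.single i 1)
    rw [h0, MvPolynomial.coeff_zero, tsub_add_cancel_of_le] at h1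
    · rw [eq_comm, mul_eq_zero] at h1
      rcases h1 with h1 | h1
      · exact (MvPolynomial.mem_support_iff.1 hm) h1
      · exact Nat.cast_add_one_ne_zero _ h1
    · rw [Finsupp.single_le_iff]
      omega
  rintro ⟨q, hq⟩
  have hq0 : q ≠ 0 := by
    rintro rfl
    apply hne
    rw [hq, mul_zero]
  have h1 : MvPolynomial.degreeOf i (MvPolynomial.pderiv i p) < MvPolynomial.degreeOf i p := by
    rw [MvPolynomial.degreeOf_lt_iff]
    · intro k hk
      have h2 : k + Finsupp.single i 1 ∈ p.support := by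
        rw [MvPolynomial.mem_support_iff]
        intro h3
        rw [MvPolynomial.mem_support_iff, MvPolynomial.coeff_pderiv, h3, zero_mul] at hk
        exact hk rfl
      have h4 := MvPolynomial.monomial_le_degreeOf i h2
      rw [Finsupp.add_apply, Finsupp.single_eq_same] at h4
      omega
    · have := MvPolynomial.monomial_le_degreeOf i hm
      omega
  rw [hq, MvPolynomial.degreeOf_mul_eq hp.ne_zero hq0] at h1
  omega

/-- A smooth point of the hypersurface `p = 0` outside `r = 0`. -/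
theorem exists_good_point [Finite σ] {p r : MvPolynomial σ ℂ} (hp : Irreducible p)
    (hr : ¬ p ∣ r) : ∃ (a : σ → ℂ) (i : σ), MvPolynomial.eval a p = 0 ∧
      MvPolynomial.eval a r ≠ 0 ∧ MvPolynomial.eval a (MvPolynomial.pderiv i p) ≠ 0 := by
  obtain ⟨i, hi⟩ := exists_pderiv_not_dvd hp
  have hprime : Prime p := hp.prime
  have h1 : ¬ p ∣ r * MvPolynomial.pderiv i p := by
    intro h
    rcases hprime.dvd_or_dvd h with h | h
    · exact hr h
    · exact hi h
  haveI : (Ideal.span {p}).IsPrime := (Ideal.span_singleton_prime hp.ne_zero).2 hprime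
  have h2 : r * MvPolynomial.pderiv i p ∉
      MvPolynomial.vanishingIdeal ℂ (MvPolynomial.zeroLocus ℂ (Ideal.span {p})) := by
    rw [MvPolynomial.IsPrime.vanishingIdeal_zeroLocus, Ideal.mem_span_singleton]
    exact h1
  rw [MvPolynomial.mem_vanishingIdeal_iff] at h2
  push Not at h2
  obtain ⟨a, ha, har⟩ := h2
  rw [MvPolynomial.mem_zeroLocus_iff] at ha
  have h3 := ha p (Ideal.mem_span_singleton_self p)
  rw [map_mul, mul_ne_zero_iff] at har
  exact ⟨a, i, h3, har.1, har.2⟩

open Classical in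
/-- First order expansion along a curve. -/
theorem expand_curve (a : σ → ℂ) (i : σ) (s : σ → Polynomial ℂ) (p : MvPolynomial σ ℂ) :
    ∃ R : Polynomial ℂ, MvPolynomial.aeval (fun k => Polynomial.C (a k) +
        (if k = i then Polynomial.X else 0) + Polynomial.X ^ 2 * s k) p =
      Polynomial.C (MvPolynomial.eval a p) +
        Polynomial.X * Polynomial.C (MvPolynomial.eval a (MvPolynomial.pderiv i p)) +
        Polynomial.X ^ 2 * R := by
  induction p using MvPolynomial.induction_on with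
  | C c => exact ⟨0, by simp⟩
  | add p q hp hq =>
    obtain ⟨R, hR⟩ := hp
    obtain ⟨R', hR'⟩ := hq
    refine ⟨R + R', ?_⟩
    rw [map_add, hR, hR']
    simp only [map_add]
    ring
  | mul_X p k hp =>
    obtain ⟨R, hR⟩ := hp
    rw [map_mul, hR, MvPolynomial.aeval_X]
    by_cases hk : k = i
    · subst hk
      refine ⟨Polynomial.C (MvPolynomial.eval a (MvPolynomial.pderiv k p)) +
        R * (Polynomial.C (a k) + Polynomial.X) + s k * (Polynomial.C (MvPolynomial.eval a p) +
        Polynomial.X * Polynomial.C (MvPolynomial.eval a (MvPolynomial.pderiv k p)) +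
        Polynomial.X ^ 2 * R), ?_⟩
      rw [Derivation.leibniz, MvPolynomial.pderiv_X_self]
      simp only [if_true, map_mul, map_add, MvPolynomial.eval_X, smul_eq_mul, mul_one]
      ring
    · refine ⟨R * Polynomial.C (a k) + s k * (Polynomial.C (MvPolynomial.eval a p) +
        Polynomial.X * Polynomial.C (MvPolynomial.eval a (MvPolynomial.pderiv i p)) +
        Polynomial.X ^ 2 * R), ?_⟩
      rw [Derivation.leibniz, MvPolynomial.pderiv_X_of_ne hk]
      simp only [if_neg hk, map_mul, MvPolynomial.eval_X, smul_eq_mul, mul_zero,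
        add_zero, zero_add]
      ring

/-- A polynomial curve through two given points, transversal to `p = 0` at `a`. -/
theorem exists_curve_through {p : MvPolynomial σ ℂ} {a : σ → ℂ} {i : σ}
    (h0 : MvPolynomial.eval a p = 0) (h1 : MvPolynomial.eval a (MvPolynomial.pderiv i p) ≠ 0)
    (p₁ p₂ : σ → ℂ) : ∃ l : σ → Polynomial ℂ, (∀ k, (l k).eval 1 = p₁ k) ∧
      (∀ k, (l k).eval (-1) = p₂ k) ∧ (∀ k, (l k).eval 0 = a k) ∧
      ∃ P₁ : Polynomial ℂ, MvPolynomial.aeval l p = Polynomial.X * P₁ ∧ P₁.eval 0 ≠ 0 := by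
  classical
  let d : σ → ℂ := fun k => if k = i then 1 else 0
  let s : σ → Polynomial ℂ := fun k =>
    Polynomial.C ((p₁ k - a k - d k + (p₂ k - a k + d k)) / 2) +
      Polynomial.X * Polynomial.C ((p₁ k - a k - d k - (p₂ k - a k + d k)) / 2)
  let l : σ → Polynomial ℂ := fun k => Polynomial.C (a k) +
        (if k = i then Polynomial.X else 0) + Polynomial.X ^ 2 * s k
  have hX : ∀ (k : σ) (c : ℂ), Polynomial.eval c (if k = i then Polynomial.X else 0) = c * d k := by
    intro k c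
    by_cases hk : k = i
    · simp [d, hk]
    · simp [d, hk]
  have hl : ∀ k c, (l k).eval c = a k + c * d k + c ^ 2 *
      ((p₁ k - a k - d k + (p₂ k - a k + d k)) / 2 +
        c * ((p₁ k - a k - d k - (p₂ k - a k + d k)) / 2)) := by
    intro k c
    simp only [l, s, Polynomial.eval_add, Polynomial.eval_mul, Polynomial.eval_pow,
      Polynomial.eval_C, Polynomial.eval_X, hX]
  refine ⟨l, fun k => ?_, fun k => ?_, fun k => ?_, ?_⟩
  · rw [hl]; ring
  · rw [hl]; ring
  · rw [hl]; ring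
  · obtain ⟨R, hR⟩ := expand_curve a i s p
    refine ⟨Polynomial.C (MvPolynomial.eval a (MvPolynomial.pderiv i p)) + Polynomial.X * R,
      ?_, ?_⟩
    · change MvPolynomial.aeval (fun k => Polynomial.C (a k) +
        (if k = i then Polynomial.X else 0) + Polynomial.X ^ 2 * s k) p = _
      rw [hR, h0, map_zero]
      ring
    · simpa using h1

end

end Vale.Agent.P297
end
end

section

section

set_option linter.unusedSectionVars false
set_option linter.style.haveILetI false

open CategoryTheory AlgebraicGeometry IntermediateField Polynomial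

namespace Vale.Agent.P297

section Alg

variable {N : Type} [Field N] [Algebra ℂ N]

theorem isAlgebraic_quad (F : IntermediateField ℂ N) (y : N) (hy : y ^ 2 ∈ F)
    (hspan : ∀ x : N, ∃ a ∈ F, ∃ b ∈ F, x = a + b * y) (x : N) : IsAlgebraic F x := by
  have h1 : IsIntegral F y := by
    refine IsIntegral.of_pow (n := 2) two_pos ?_
    exact isIntegral_algebraMap (x := (⟨y ^ 2, hy⟩ : F))
  obtain ⟨a, ha, b, hb, rfl⟩ := hspan x
  have h2 : IsIntegral F a := isIntegral_algebraMap (x := (⟨a, ha⟩ : F))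
  have h3 : IsIntegral F b := isIntegral_algebraMap (x := (⟨b, hb⟩ : F))
  exact (h2.add (h3.mul h1)).isAlgebraic

open scoped IntermediateField.algebraAdjoinAdjoin in
theorem algIndep_of_trdeg {n : ℕ} {s : Fin n → N} (hst : AlgebraicIndependent ℂ s)
    (x : Fin n → N)
    (halg : ∀ z : N, IsAlgebraic (IntermediateField.adjoin ℂ (Set.range x)) z) :
    AlgebraicIndependent ℂ x := by
  haveI : Algebra.IsAlgebraic (IntermediateField.adjoin ℂ (Set.range x)) N := ⟨halg⟩
  haveI : Algebra.IsAlgebraic (Algebra.adjoin ℂ (Set.range x))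
      (IntermediateField.adjoin ℂ (Set.range x)) :=
    IsLocalization.isAlgebraic _ (nonZeroDivisors (Algebra.adjoin ℂ (Set.range x)))
  haveI : Algebra.IsAlgebraic (Algebra.adjoin ℂ (Set.range x)) N :=
    Algebra.IsAlgebraic.trans _ (IntermediateField.adjoin ℂ (Set.range x)) N
  exact (Algebra.IsAlgebraic.isTranscendenceBasis_of_le_trdeg_of_finite ℂ x
    hst.cardinalMk_le_trdeg).1

theorem aeval_ne_zero {s t : N} (hst : AlgebraicIndependent ℂ ![s, t])
    (p : MvPolynomial (Fin 2) ℂ) (v : Fin 2 → ℂ) (hv : MvPolynomial.eval v p ≠ 0) :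
    MvPolynomial.aeval ![s, t] p ≠ 0 := by
  intro h
  apply hv
  rw [algebraicIndependent_iff.1 hst p h, map_zero]

/-- Nonvanishing of the auxiliary factors. -/
theorem factors_ne_zero (κ : ℂ) {s t : N}
    (hst : AlgebraicIndependent ℂ ![s, t]) :
    let k := algebraMap ℂ N κ
    (1 + k) * (s * t) - k * (s + t) ≠ 0 ∧ s + t - 1 - k ≠ 0 ∧ t - k * s ≠ 0 ∧ s - k * t ≠ 0 := by
  intro k
  refine ⟨?_, ?_, ?_, ?_⟩
  · have h := aeval_ne_zero hst (MvPolynomial.C (1 + κ) * (MvPolynomial.X 0 * MvPolynomial.X 1) -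
      MvPolynomial.C κ * (MvPolynomial.X 0 + MvPolynomial.X 1)) ![1, κ + 1] (by
        simp only [map_sub, map_mul, map_add, MvPolynomial.eval_C, MvPolynomial.eval_X,
          Matrix.cons_val_zero, Matrix.cons_val_one]
        ring_nf
        exact one_ne_zero)
    simpa [k] using h
  · have h := aeval_ne_zero hst (MvPolynomial.X 0 + MvPolynomial.X 1 - 1 -
      MvPolynomial.C κ) ![κ + 2, 0] (by
        simp only [map_sub, map_add, map_one, MvPolynomial.eval_C, MvPolynomial.eval_X,
          Matrix.cons_val_zero, Matrix.cons_val_one]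
        ring_nf
        exact one_ne_zero)
    simpa [k] using h
  · have h := aeval_ne_zero hst (MvPolynomial.X 1 - MvPolynomial.C κ * MvPolynomial.X 0) ![0, 1] (by
        simp only [map_sub, map_mul, MvPolynomial.eval_C, MvPolynomial.eval_X,
          Matrix.cons_val_zero, Matrix.cons_val_one]
        ring_nf
        exact one_ne_zero)
    simpa [k] using h
  · have h := aeval_ne_zero hst (MvPolynomial.X 0 - MvPolynomial.C κ * MvPolynomial.X 1) ![1, 0] (by
        simp only [map_sub, map_mul, MvPolynomial.eval_C, MvPolynomial.eval_X,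
          Matrix.cons_val_zero, Matrix.cons_val_one]
        ring_nf
        exact one_ne_zero)
    simpa [k] using h

theorem ne_const {s t : N} (hst : AlgebraicIndependent ℂ ![s, t]) (a : ℂ) :
    s ≠ algebraMap ℂ N a := by
  intro h
  have h1 := aeval_ne_zero hst (MvPolynomial.X 0 - MvPolynomial.C a) ![a + 1, 0] (by simp)
  apply h1
  simp [h]

/-- The field `ℂ(s,t,z)` is generated by `λ = M / L` and `ρ = z / L²`. -/
theorem mem_adjoin_of_pencil {κ c : ℂ} (hκ : κ ≠ -1) (hκc : κ ≠ c) {s t z : N}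
    (hst : AlgebraicIndependent ℂ ![s, t]) (hz : z ^ 2 = gg c s * Phi κ s t) :
    ∃ x : Fin 2 → N, (∀ i, x i ∈ IntermediateField.adjoin ℂ {s, t, z}) ∧
      s ∈ IntermediateField.adjoin ℂ (Set.range x) ∧ t ∈ IntermediateField.adjoin ℂ (Set.range x) ∧
      z ∈ IntermediateField.adjoin ℂ (Set.range x) := by
  set k := algebraMap ℂ N κ with hk
  set c' := algebraMap ℂ N c with hc'
  obtain ⟨hL, hE, h3, h4⟩ := factors_ne_zero κ hst
  rw [← hk] at hL hE h3 h4
  set L := (1 + k) * (s * t) - k * (s + t) with hLdef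
  set M := s * ((k + 1) * s - (k ^ 2 + k + 1)) + k * t with hMdef
  have hs0 : s ≠ 0 := by simpa using ne_const hst 0
  have hs1 : s - 1 ≠ 0 := sub_ne_zero.2 (by simpa using ne_const hst 1)
  have hsk : s - k ≠ 0 := sub_ne_zero.2 (ne_const hst κ)
  have hk1 : k + 1 ≠ 0 := by
    intro h
    apply hκ
    apply (algebraMap ℂ N).injective
    rw [map_neg, map_one]
    exact eq_neg_of_add_eq_zero_left h
  have hkc : k - c' ≠ 0 := by
    rw [sub_ne_zero]
    intro h
    exact hκc ((algebraMap ℂ N).injective h)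
  let F := IntermediateField.adjoin ℂ ({s, t, z} : Set N)
  have hsF : s ∈ F := IntermediateField.subset_adjoin _ _ (by simp)
  have htF : t ∈ F := IntermediateField.subset_adjoin _ _ (by simp)
  have hzF : z ∈ F := IntermediateField.subset_adjoin _ _ (by simp)
  have hkF : k ∈ F := F.algebraMap_mem κ
  have hLF : L ∈ F := F.sub_mem (F.mul_mem (F.add_mem F.one_mem hkF) (F.mul_mem hsF htF))
    (F.mul_mem hkF (F.add_mem hsF htF))
  have hMF : M ∈ F := F.add_mem (F.mul_mem hsF (F.sub_mem (F.mul_mem (F.add_mem hkF F.one_mem) hsF)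
    (F.add_mem (F.add_mem (pow_mem hkF 2) hkF) F.one_mem))) (F.mul_mem hkF htF)
  set l := M / L with hl
  set ρ := z / L ^ 2 with hρ
  refine ⟨![l, ρ], ?_, ?_⟩
  · intro i
    fin_cases i
    · exact F.div_mem hMF hLF
    · exact F.div_mem hzF (pow_mem hLF 2)
  have hrange : Set.range ![l, ρ] = {l, ρ} := by simp [Set.pair_comm]
  rw [hrange]
  let F' := IntermediateField.adjoin ℂ ({l, ρ} : Set N)
  have hlF : l ∈ F' := IntermediateField.subset_adjoin _ _ (by simp)
  have hρF : ρ ∈ F' := IntermediateField.subset_adjoin _ _ (by simp)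
  have hkF' : k ∈ F' := F'.algebraMap_mem κ
  have hcF' : c' ∈ F' := F'.algebraMap_mem c
  -- factorizations
  have e1 : L + M = (k + 1) * s * (s + t - 1 - k) := by rw [hLdef, hMdef]; ring
  have e2 : L - k * M = (k + 1) * (s - k) * (t - k * s) := by rw [hLdef, hMdef]; ring
  have e3 : M - k * L = (k + 1) * (s - 1) * (s - k * t) := by rw [hLdef, hMdef]; ring
  have e4 : M * ((k + 1) * s - k) - k * L = (k + 1) ^ 2 * s * (s - 1) * (s - k) := by
    rw [hLdef, hMdef]; ring
  -- the conic
  set P := (1 + l) * (1 - k * l) * (l - k) / (k + 1) ^ 3 with hP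
  have hP0 : P = s * (s + t - 1 - k) * (s - k) * (t - k * s) * (s - 1) * (s - k * t) / L ^ 3 := by
    have h1 : (1 + l) = (L + M) / L := by rw [hl]; field_simp
    have h2 : (1 - k * l) = (L - k * M) / L := by rw [hl]; field_simp
    have h3' : (l - k) = (M - k * L) / L := by rw [hl]; field_simp
    rw [hP, h1, h2, h3', e1, e2, e3]
    field_simp
  have hP1 : P ≠ 0 := by
    rw [hP0]
    apply div_ne_zero _ (pow_ne_zero 3 hL)
    exact mul_ne_zero (mul_ne_zero (mul_ne_zero (mul_ne_zero (mul_ne_zero hs0 hE) hsk) h3) hs1) h4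
  have hconic : (s - k) * ρ ^ 2 = (s - c') * P := by
    have h5 : ρ ^ 2 = z ^ 2 / L ^ 4 := by rw [hρ, div_pow]; ring
    rw [h5, hz, hP0]
    unfold gg Phi
    rw [← hk, ← hc', ← hLdef]
    field_simp
  have hne : ρ ^ 2 - P ≠ 0 := by
    intro h
    have h6 : ρ ^ 2 = P := sub_eq_zero.1 h
    rw [h6] at hconic
    have h7 : (k - c') * P = 0 := by linear_combination - hconic
    exact (mul_ne_zero hkc hP1) h7
  have hPF : P ∈ F' := by
    rw [hP]
    exact F'.div_mem (F'.mul_mem (F'.mul_mem (F'.add_mem F'.one_mem hlF)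
      (F'.sub_mem F'.one_mem (F'.mul_mem hkF' hlF))) (F'.sub_mem hlF hkF'))
      (pow_mem (F'.add_mem hkF' F'.one_mem) 3)
  have hsF' : s ∈ F' := by
    have h8 : s = (k * ρ ^ 2 - c' * P) / (ρ ^ 2 - P) := by
      rw [eq_div_iff hne]
      linear_combination hconic
    rw [h8]
    exact F'.div_mem (F'.sub_mem (F'.mul_mem hkF' (pow_mem hρF 2)) (F'.mul_mem hcF' hPF))
      (F'.sub_mem (pow_mem hρF 2) hPF)
  have htF' : t ∈ F' := by
    have h9 : l * ((k + 1) * s - k) - k ≠ 0 := by
      have h10 : l * ((k + 1) * s - k) - k = (M * ((k + 1) * s - k) - k * L) / L := by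
        rw [hl]; field_simp
      rw [h10, e4]
      exact div_ne_zero (mul_ne_zero (mul_ne_zero (mul_ne_zero (pow_ne_zero 2 hk1) hs0) hs1) hsk) hL
    have h11 : t = (l * k * s + s * ((k + 1) * s - (k ^ 2 + k + 1))) /
        (l * ((k + 1) * s - k) - k) := by
      rw [eq_div_iff h9]
      have h12 : l * L = M := by rw [hl, div_mul_cancel₀ _ hL]
      rw [hLdef, hMdef] at h12
      linear_combination h12
    rw [h11]
    refine F'.div_mem ?_ ?_
    · exact F'.add_mem (F'.mul_mem (F'.mul_mem hlF hkF') hsF') (F'.mul_mem hsF'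
        (F'.sub_mem (F'.mul_mem (F'.add_mem hkF' F'.one_mem) hsF')
        (F'.add_mem (F'.add_mem (pow_mem hkF' 2) hkF') F'.one_mem)))
    · exact F'.sub_mem (F'.mul_mem hlF (F'.sub_mem
        (F'.mul_mem (F'.add_mem hkF' F'.one_mem) hsF') hkF')) hkF'
  have hLF' : L ∈ F' := F'.sub_mem (F'.mul_mem (F'.add_mem F'.one_mem hkF') (F'.mul_mem hsF' htF'))
    (F'.mul_mem hkF' (F'.add_mem hsF' htF'))
  refine ⟨hsF', htF', ?_⟩
  have h13 : z = ρ * L ^ 2 := by rw [hρ, div_mul_cancel₀ _ (pow_ne_zero 2 hL)]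
  rw [h13]
  exact F'.mul_mem hρF (pow_mem hLF' 2)

end Alg

section

variable {S : Scheme.{0}} {f : S ⟶ Spec (.of ℂ)} [IsProper f] {C : Type} [CommRing C] [Algebra ℂ C]
  [Algebra.FiniteType ℂ C] {j : Spec (.of C) ⟶ S}
  {hj : j ≫ f = Spec.map (CommRingCat.ofHom (algebraMap ℂ C))}

theorem part_one {N : Type} [Field N] [Algebra ℂ N] {κ c : ℂ} (hκ : κ ≠ -1) (hκc : κ ≠ c)
    {s t z w : N} (hst : AlgebraicIndependent ℂ ![s, t]) (hz : z ^ 2 = gg c s * Phi κ s t)
    (hw : w ^ 2 = gg c t * Phi κ s t) (htop : IntermediateField.adjoin ℂ {s, t, z, w} = ⊤) :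
    (∀ ι : C →ₐ[ℂ] N, Finsupp.single ι (1 : ℤ) ∈ Good f j hj (Rat f) N) ∨
    ∃ τ : N ≃ₐ[ℂ] N, τ s = s ∧ τ t = t ∧ τ z = z ∧ τ w = -w ∧ ∀ ι : C →ₐ[ℂ] N,
      Finsupp.single ι (1 : ℤ) + Finsupp.single (τ.toAlgHom.comp ι) 1 ∈
        Good f j hj (Rat f) N := by
  obtain ⟨x, hxF, hs, ht, hz'⟩ := mem_adjoin_of_pencil hκ hκc hst hz
  set F := IntermediateField.adjoin ℂ (Set.range x) with hF
  have hkF : ∀ a : ℂ, algebraMap ℂ N a ∈ F := F.algebraMap_mem
  have hw2 : w ^ 2 ∈ F := by
    rw [hw]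
    unfold gg Phi
    exact F.mul_mem (F.mul_mem (F.mul_mem ht (F.sub_mem ht F.one_mem)) (F.sub_mem ht (hkF _)))
      (F.mul_mem (F.mul_mem (F.mul_mem (F.sub_mem ht (F.mul_mem (hkF _) hs))
        (F.sub_mem hs (F.mul_mem (hkF _) ht)))
        (F.sub_mem (F.sub_mem (F.add_mem hs ht) F.one_mem) (hkF _)))
        (F.sub_mem (F.mul_mem (F.add_mem F.one_mem (hkF _)) (F.mul_mem hs ht))
          (F.mul_mem (hkF _) (F.add_mem hs ht))))
  have hspan : ∀ y : N, ∃ a ∈ F, ∃ b ∈ F, y = a + b * w := by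
    apply exists_quad F w hw2 {s, t, z, w} _ htop
    rintro y (rfl | rfl | rfl | rfl)
    · exact Or.inl hs
    · exact Or.inl ht
    · exact Or.inl hz'
    · exact Or.inr rfl
  have hx : AlgebraicIndependent ℂ x := algIndep_of_trdeg hst x (isAlgebraic_quad F w hw2 hspan)
  by_cases hwF : w ∈ F
  · left
    intro ι
    apply good_trivial x hx
    rw [eq_top_iff, ← htop, IntermediateField.adjoin_le_iff]
    rintro y (rfl | rfl | rfl | rfl)
    · exact hs
    · exact ht
    · exact hz'
    · exact hwF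
  · right
    obtain ⟨τ, hτF, hτw, hττ, hfix⟩ := exists_quad_aut F w hw2 hwF hspan
    refine ⟨τ, hτF s hs, hτF t ht, hτF z hz', hτw, fun ι => ?_⟩
    refine good_pair x hx τ hττ ?_ ?_ hfix ι
    · intro h1
      apply hwF
      apply hfix
      rw [h1]
      rfl
    · intro i
      exact hτF _ (IntermediateField.subset_adjoin _ _ ⟨i, rfl⟩)

end

end Vale.Agent.P297
end
end

section

section

set_option linter.unusedSectionVars false
set_option linter.style.haveILetI false

open CategoryTheory AlgebraicGeometry IntermediateField Polynomial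

namespace Vale.Agent.P297

/-- The field `ℂ(σ,π,ε)` is generated by `m = π / (σ - 1)` and `η = ε / (σ - 1)`. -/
theorem mem_adjoin_of_conic {K : Type} [Field K] [Algebra ℂ K] (c : ℂ) {σ π ε : K}
    (hst : AlgebraicIndependent ℂ ![σ, π])
    (hε : ε ^ 2 = π * (1 - σ + π) * (algebraMap ℂ K c ^ 2 - algebraMap ℂ K c * σ + π)) :
    ∃ x : Fin 2 → K, (∀ i, x i ∈ IntermediateField.adjoin ℂ {σ, π, ε}) ∧
      σ ∈ IntermediateField.adjoin ℂ (Set.range x) ∧
      π ∈ IntermediateField.adjoin ℂ (Set.range x) ∧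
      ε ∈ IntermediateField.adjoin ℂ (Set.range x) := by
  set c' := algebraMap ℂ K c with hc'
  have h1 : σ - 1 ≠ 0 := sub_ne_zero.2 (by simpa using ne_const hst 1)
  have h2 : π ≠ 0 := by
    have h := aeval_ne_zero hst (MvPolynomial.X 1) ![0, 1] (by simp)
    simpa using h
  have h3 : π - (σ - 1) ≠ 0 := by
    have h := aeval_ne_zero hst (MvPolynomial.X 1 - (MvPolynomial.X 0 - 1)) ![1, 1] (by simp)
    simpa using h
  have h4 : π - c' * (σ - 1) ≠ 0 := by
    have h := aeval_ne_zero hst (MvPolynomial.X 1 - MvPolynomial.C c * (MvPolynomial.X 0 - 1))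
      ![1, 1] (by simp)
    simpa using h
  let F := IntermediateField.adjoin ℂ ({σ, π, ε} : Set K)
  have hσF : σ ∈ F := IntermediateField.subset_adjoin _ _ (by simp)
  have hπF : π ∈ F := IntermediateField.subset_adjoin _ _ (by simp)
  have hεF : ε ∈ F := IntermediateField.subset_adjoin _ _ (by simp)
  set m := π / (σ - 1) with hm
  set η := ε / (σ - 1) with hη
  refine ⟨![m, η], ?_, ?_⟩
  · intro i
    fin_cases i
    · exact F.div_mem hπF (F.sub_mem hσF F.one_mem)
    · exact F.div_mem hεF (F.sub_mem hσF F.one_mem)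
  have hrange : Set.range ![m, η] = {m, η} := by simp [Set.pair_comm]
  rw [hrange]
  let F' := IntermediateField.adjoin ℂ ({m, η} : Set K)
  have hmF : m ∈ F' := IntermediateField.subset_adjoin _ _ (by simp)
  have hηF : η ∈ F' := IntermediateField.subset_adjoin _ _ (by simp)
  have hcF' : c' ∈ F' := F'.algebraMap_mem c
  have e1 : π = m * (σ - 1) := by rw [hm, div_mul_cancel₀ _ h1]
  have e2 : ε = η * (σ - 1) := by rw [hη, div_mul_cancel₀ _ h1]
  have hm0 : m ≠ 0 := div_ne_zero h2 h1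
  have hm1 : m - 1 ≠ 0 := by
    have : m - 1 = (π - (σ - 1)) / (σ - 1) := by rw [hm]; field_simp
    rw [this]
    exact div_ne_zero h3 h1
  have hmc : m - c' ≠ 0 := by
    have : m - c' = (π - c' * (σ - 1)) / (σ - 1) := by rw [hm]; field_simp
    rw [this]
    exact div_ne_zero h4 h1
  have e3 : η ^ 2 = m * (m - 1) * (c' ^ 2 - m + (m - c') * σ) := by
    have h5 : η ^ 2 * (σ - 1) ^ 2 =
        m * (m - 1) * (c' ^ 2 - m + (m - c') * σ) * (σ - 1) ^ 2 := by
      rw [← mul_pow, ← e2, hε, e1]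
      ring
    exact mul_right_cancel₀ (pow_ne_zero 2 h1) h5
  have hσF' : σ ∈ F' := by
    have h6 : σ = (η ^ 2 / (m * (m - 1)) - c' ^ 2 + m) / (m - c') := by
      rw [eq_div_iff hmc, e3, mul_div_cancel_left₀ _ (mul_ne_zero hm0 hm1)]
      ring
    rw [h6]
    exact F'.div_mem (F'.add_mem (F'.sub_mem (F'.div_mem (pow_mem hηF 2)
      (F'.mul_mem hmF (F'.sub_mem hmF F'.one_mem))) (pow_mem hcF' 2)) hmF)
      (F'.sub_mem hmF hcF')
  refine ⟨hσF', ?_, ?_⟩
  · rw [e1]
    exact F'.mul_mem hmF (F'.sub_mem hσF' F'.one_mem)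
  · rw [e2]
    exact F'.mul_mem hηF (F'.sub_mem hσF' F'.one_mem)

section

variable {S : Scheme.{0}} {f : S ⟶ Spec (.of ℂ)} [IsProper f] {C : Type} [CommRing C] [Algebra ℂ C]
  [Algebra.FiniteType ℂ C] {j : Spec (.of C) ⟶ S}
  {hj : j ≫ f = Spec.map (CommRingCat.ofHom (algebraMap ℂ C))}

/-- A quadratic extension of a purely transcendental field. -/
theorem part_general {N : Type} [Field N] [Algebra ℂ N] {n : ℕ} {s x : Fin n → N}
    (hst : AlgebraicIndependent ℂ s) (y : N)
    (hy : y ^ 2 ∈ IntermediateField.adjoin ℂ (Set.range x)) (T : Set N)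
    (hT : ∀ a ∈ T, a ∈ IntermediateField.adjoin ℂ (Set.range x) ∨ a = y)
    (htop : IntermediateField.adjoin ℂ T = ⊤) :
    (∀ ι : C →ₐ[ℂ] N, Finsupp.single ι (1 : ℤ) ∈ Good f j hj (Rat f) N) ∨
    ∃ τ : N ≃ₐ[ℂ] N, (∀ a ∈ IntermediateField.adjoin ℂ (Set.range x), τ a = a) ∧ τ y = -y ∧
      ∀ ι : C →ₐ[ℂ] N, Finsupp.single ι (1 : ℤ) + Finsupp.single (τ.toAlgHom.comp ι) 1 ∈
        Good f j hj (Rat f) N := by
  set F := IntermediateField.adjoin ℂ (Set.range x) with hF
  have hspan := exists_quad F y hy T hT htop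
  have hx : AlgebraicIndependent ℂ x := algIndep_of_trdeg hst x (isAlgebraic_quad F y hy hspan)
  by_cases hwF : y ∈ F
  · left
    intro ι
    apply good_trivial x hx
    rw [eq_top_iff, ← htop, IntermediateField.adjoin_le_iff]
    intro a ha
    rcases hT a ha with h | rfl
    · exact h
    · exact hwF
  · right
    obtain ⟨τ, hτF, hτw, hττ, hfix⟩ := exists_quad_aut F y hy hwF hspan
    refine ⟨τ, hτF, hτw, fun ι => ?_⟩
    refine good_pair x hx τ hττ ?_ ?_ hfix ι
    · intro h1
      apply hwF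
      apply hfix
      rw [h1]
      rfl
    · intro i
      exact hτF _ (IntermediateField.subset_adjoin _ _ ⟨i, rfl⟩)

theorem part_two {K : Type} [Field K] [Algebra ℂ K] (c : ℂ) {σ π ε θ : K}
    (hst : AlgebraicIndependent ℂ ![σ, π])
    (hε : ε ^ 2 = π * (1 - σ + π) * (algebraMap ℂ K c ^ 2 - algebraMap ℂ K c * σ + π))
    (hθ : θ ^ 2 ∈ IntermediateField.adjoin ℂ {σ, π, ε})
    (htop : IntermediateField.adjoin ℂ {σ, π, ε, θ} = ⊤) :
    (∀ ι : C →ₐ[ℂ] K, Finsupp.single ι (1 : ℤ) ∈ Good f j hj (Rat f) K) ∨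
    ∃ τ : K ≃ₐ[ℂ] K, τ σ = σ ∧ τ π = π ∧ τ ε = ε ∧ τ θ = -θ ∧ ∀ ι : C →ₐ[ℂ] K,
      Finsupp.single ι (1 : ℤ) + Finsupp.single (τ.toAlgHom.comp ι) 1 ∈
        Good f j hj (Rat f) K := by
  obtain ⟨x, hxF, hσ, hπ, hε'⟩ := mem_adjoin_of_conic c hst hε
  have hle : IntermediateField.adjoin ℂ {σ, π, ε} ≤ IntermediateField.adjoin ℂ (Set.range x) := by
    rw [IntermediateField.adjoin_le_iff]
    rintro y (rfl | rfl | rfl)
    · exact hσ
    · exact hπ
    · exact hε'
  rcases part_general (f := f) (j := j) (hj := hj) hst θ (hle hθ) {σ, π, ε, θ} (by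
    rintro y (rfl | rfl | rfl | rfl)
    · exact Or.inl hσ
    · exact Or.inl hπ
    · exact Or.inl hε'
    · exact Or.inr rfl) htop with h | ⟨τ, hτF, hτθ, hg⟩
  · exact Or.inl h
  · exact Or.inr ⟨τ, hτF _ hσ, hτF _ hπ, hτF _ hε', hτθ, hg⟩

end

end Vale.Agent.P297
end
end

section

section

set_option linter.unusedSectionVars false
set_option linter.style.haveILetI false

open CategoryTheory AlgebraicGeometry IntermediateField Polynomial

namespace Vale.Agent.P297

theorem isAlgebraic_of_gens {N : Type} [Field N] [Algebra ℂ N] (F : IntermediateField ℂ N)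
    (T : Set N) (htop : IntermediateField.adjoin ℂ T = ⊤) (hT : ∀ a ∈ T, IsAlgebraic F a) (z : N) :
    IsAlgebraic F z := by
  have h1 : IntermediateField.adjoin ℂ T ≤ (algebraicClosure F N).restrictScalars ℂ := by
    rw [IntermediateField.adjoin_le_iff]
    intro a ha
    exact mem_algebraicClosure_iff.2 (hT a ha)
  rw [htop] at h1
  exact mem_algebraicClosure_iff.1 (h1 (x := z) trivial)

theorem isAlgebraic_sq {N : Type} [Field N] [Algebra ℂ N] (F : IntermediateField ℂ N)
    (z : N) (h : IsAlgebraic F (z ^ 2)) : IsAlgebraic F z := by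
  rw [isAlgebraic_iff_isIntegral] at h ⊢
  exact h.of_pow two_pos

theorem isAlgebraic_mem {N : Type} [Field N] [Algebra ℂ N] (F : IntermediateField ℂ N)
    (z : N) (h : z ∈ F) : IsAlgebraic F z := isAlgebraic_algebraMap (⟨z, h⟩ : F)

theorem isAlgebraic_gg {N : Type} [Field N] [Algebra ℂ N] (F : IntermediateField ℂ N) (c : ℂ)
    {s : N} (hs : IsAlgebraic F s) : IsAlgebraic F (gg c s) := by
  have h1 : IsAlgebraic F (1 : N) := isAlgebraic_mem F 1 F.one_mem
  have hc : IsAlgebraic F (algebraMap ℂ N c) := isAlgebraic_mem F _ (F.algebraMap_mem c)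
  unfold gg
  exact (hs.mul (hs.sub h1)).mul (hs.sub hc)

theorem isAlgebraic_Phi {N : Type} [Field N] [Algebra ℂ N] (F : IntermediateField ℂ N) (κ : ℂ)
    {s t : N} (hs : IsAlgebraic F s) (ht : IsAlgebraic F t) : IsAlgebraic F (Phi κ s t) := by
  have h1 : IsAlgebraic F (1 : N) := isAlgebraic_mem F 1 F.one_mem
  have hk : IsAlgebraic F (algebraMap ℂ N κ) := isAlgebraic_mem F _ (F.algebraMap_mem κ)
  unfold Phi
  exact (((ht.sub (hk.mul hs)).mul (hs.sub (hk.mul ht))).mul (((hs.add ht).sub h1).sub hk)).mul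
    (((h1.add hk).mul (hs.mul ht)).sub (hk.mul (hs.add ht)))

section

variable {N : Type} [Field N] [Algebra ℂ N] {κ c : ℂ} {s t z w : N}

theorem indep_sym (hst : AlgebraicIndependent ℂ ![s, t]) (hz : z ^ 2 = gg c s * Phi κ s t)
    (hw : w ^ 2 = gg c t * Phi κ s t) (htop : IntermediateField.adjoin ℂ {s, t, z, w} = ⊤) :
    AlgebraicIndependent ℂ ![s + t, s * t] := by
  apply algIndep_of_trdeg hst
  intro y
  set F := IntermediateField.adjoin ℂ (Set.range ![s + t, s * t]) with hF
  have hσ : s + t ∈ F := IntermediateField.subset_adjoin _ _ ⟨0, rfl⟩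
  have hπ : s * t ∈ F := IntermediateField.subset_adjoin _ _ ⟨1, rfl⟩
  have hs : IsAlgebraic F s := by
    refine ⟨X ^ 2 - Polynomial.C ⟨s + t, hσ⟩ * X + Polynomial.C ⟨s * t, hπ⟩, ?_, ?_⟩
    · apply Monic.ne_zero
      monicity!
    · simp only [map_add, map_sub, map_pow, aeval_X, map_mul, aeval_C]
      change s ^ 2 - (s + t) * s + s * t = 0
      ring
  have ht : IsAlgebraic F t := by
    have h1 : t = (s + t) - s := by ring
    rw [h1]
    exact (isAlgebraic_mem F _ hσ).sub hs
  apply isAlgebraic_of_gens F {s, t, z, w} htop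
  rintro a (rfl | rfl | rfl | rfl)
  · exact hs
  · exact ht
  · apply isAlgebraic_sq
    rw [hz]
    exact (isAlgebraic_gg F c hs).mul (isAlgebraic_Phi F κ hs ht)
  · apply isAlgebraic_sq
    rw [hw]
    exact (isAlgebraic_gg F c ht).mul (isAlgebraic_Phi F κ hs ht)

end

section

variable {S : Scheme.{0}} {f : S ⟶ Spec (.of ℂ)} [IsProper f] {C : Type} [CommRing C] [Algebra ℂ C]
  [Algebra.FiniteType ℂ C] {j : Spec (.of C) ⟶ S}
  {hj : j ≫ f = Spec.map (CommRingCat.ofHom (algebraMap ℂ C))}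

theorem dihedral_good {N : Type} [Field N] [Algebra ℂ N] {κ c : ℂ} (hκ : κ ≠ -1) (hκc : κ ≠ c)
    {s t z w : N} (hst : AlgebraicIndependent ℂ ![s, t]) (hz : z ^ 2 = gg c s * Phi κ s t)
    (hw : w ^ 2 = gg c t * Phi κ s t) (htop : IntermediateField.adjoin ℂ {s, t, z, w} = ⊤)
    {K : Type} [Field K] [Algebra ℂ K] (m : K →ₐ[ℂ] N) {σ π θ ζ : K} (hσ : m σ = s + t)
    (hπ : m π = s * t) (hθ : m θ = z + w) (hζ : m ζ = z * w)
    (hKtop : IntermediateField.adjoin ℂ {σ, π, θ, ζ} = ⊤) (ι : C →ₐ[ℂ] K) :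
    Finsupp.single (m.comp ι) (2 : ℤ) ∈ Good f j hj (Rat f) N := by
  have hminj : Function.Injective m := m.toRingHom.injective
  have hΦsym : Phi κ t s = Phi κ s t := by unfold Phi; ring
  have hts : AlgebraicIndependent ℂ ![t, s] := by
    have h1 := hst.comp (Equiv.swap (0 : Fin 2) 1) (Equiv.injective _)
    have h2 : ![s, t] ∘ (Equiv.swap (0 : Fin 2) 1) = ![t, s] := by
      ext i
      fin_cases i <;> simp
    rwa [h2] at h1
  have htop' : IntermediateField.adjoin ℂ {t, s, w, z} = ⊤ := by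
    rw [eq_top_iff, ← htop]
    apply IntermediateField.adjoin.mono
    rintro a (rfl | rfl | rfl | rfl) <;> simp
  have hσπ : AlgebraicIndependent ℂ ![σ, π] := by
    have h1 := indep_sym hst hz hw htop
    have h2 : m ∘ ![σ, π] = ![s + t, s * t] := by
      ext i
      fin_cases i
      · exact hσ
      · exact hπ
    rw [← h2] at h1
    exact AlgebraicIndependent.of_comp m h1
  -- the element `ε`
  set k := algebraMap ℂ K κ with hk
  set c' := algebraMap ℂ K c with hc'
  have hmk : m k = algebraMap ℂ N κ := m.commutes κ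
  have hmc : m c' = algebraMap ℂ N c := m.commutes c
  obtain ⟨hL, hE, h3, h4⟩ := factors_ne_zero κ hst
  set Φ : K := ((1 + k) ^ 2 * π - k * σ ^ 2) * (σ - 1 - k) * ((1 + k) * π - k * σ) with hΦ
  have hmΦ : m Φ = Phi κ s t := by
    rw [hΦ]
    simp only [map_mul, map_sub, map_add, map_pow, map_one, hmk, hσ, hπ]
    unfold Phi
    ring
  have hΦ0 : Phi κ s t ≠ 0 := mul_ne_zero (mul_ne_zero (mul_ne_zero h3 h4) hE) hL
  have hΦ0' : Φ ≠ 0 := by
    intro h
    apply hΦ0
    rw [← hmΦ, h, map_zero]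
  set ε : K := ζ / Φ with hε
  have hεΦ : ε * Φ = ζ := by rw [hε, div_mul_cancel₀ _ hΦ0']
  have hε2 : ε ^ 2 = π * (1 - σ + π) * (c' ^ 2 - c' * σ + π) := by
    apply hminj
    have h5 : (m ε) ^ 2 * (Phi κ s t) ^ 2 = gg c s * gg c t * (Phi κ s t) ^ 2 := by
      rw [← mul_pow, ← hmΦ, ← map_mul, hεΦ, hζ, mul_pow, hz, hw, hmΦ]
      ring
    have h6 := mul_right_cancel₀ (pow_ne_zero 2 hΦ0) h5
    rw [map_pow, h6]
    simp only [map_mul, map_sub, map_add, map_pow, map_one, hmc, hσ, hπ]
    unfold gg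
    ring
  have hθ2 : θ ^ 2 = Φ * (σ ^ 3 - 3 * σ * π - (1 + c') * (σ ^ 2 - 2 * π) + c' * σ + 2 * ε) := by
    apply hminj
    have h5 : m (Φ * (2 * ε)) = 2 * (z * w) := by
      rw [← hζ, ← hεΦ]
      simp only [map_mul, map_ofNat]
      ring
    have h6 : m (θ ^ 2) = z ^ 2 + w ^ 2 + 2 * (z * w) := by
      rw [map_pow, hθ]
      ring
    rw [mul_add, map_add, h5, h6, hz, hw, map_mul, hmΦ]
    simp only [map_mul, map_sub, map_add, map_pow, map_one, map_ofNat, hmc, hσ, hπ]
    unfold gg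
    ring
  have hθmem : θ ^ 2 ∈ IntermediateField.adjoin ℂ {σ, π, ε} := by
    set W := IntermediateField.adjoin ℂ ({σ, π, ε} : Set K) with hW
    have hσW : σ ∈ W := IntermediateField.subset_adjoin _ _ (by simp)
    have hπW : π ∈ W := IntermediateField.subset_adjoin _ _ (by simp)
    have hεW : ε ∈ W := IntermediateField.subset_adjoin _ _ (by simp)
    have hkW : k ∈ W := W.algebraMap_mem κ
    have hcW : c' ∈ W := W.algebraMap_mem c
    have h2W : (2 : K) ∈ W := ofNat_mem W 2
    have h3W : (3 : K) ∈ W := ofNat_mem W 3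
    rw [hθ2, hΦ]
    refine W.mul_mem (W.mul_mem (W.mul_mem (W.sub_mem (W.mul_mem (pow_mem (W.add_mem W.one_mem hkW) 2)
      hπW) (W.mul_mem hkW (pow_mem hσW 2))) (W.sub_mem (W.sub_mem hσW W.one_mem) hkW))
      (W.sub_mem (W.mul_mem (W.add_mem W.one_mem hkW) hπW) (W.mul_mem hkW hσW))) ?_
    refine W.add_mem (W.add_mem (W.sub_mem (W.sub_mem (pow_mem hσW 3) (W.mul_mem (W.mul_mem h3W hσW)
      hπW)) (W.mul_mem (W.add_mem W.one_mem hcW) (W.sub_mem (pow_mem hσW 2) (W.mul_mem h2W hπW))))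
      (W.mul_mem hcW hσW)) (W.mul_mem h2W hεW)
  have hKtop' : IntermediateField.adjoin ℂ {σ, π, ε, θ} = ⊤ := by
    rw [eq_top_iff, ← hKtop, IntermediateField.adjoin_le_iff]
    set W := IntermediateField.adjoin ℂ ({σ, π, ε, θ} : Set K) with hW
    have hσW : σ ∈ W := IntermediateField.subset_adjoin _ _ (by simp)
    have hπW : π ∈ W := IntermediateField.subset_adjoin _ _ (by simp)
    have hεW : ε ∈ W := IntermediateField.subset_adjoin _ _ (by simp)
    have hθW : θ ∈ W := IntermediateField.subset_adjoin _ _ (by simp)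
    have hkW : k ∈ W := W.algebraMap_mem κ
    rintro a (rfl | rfl | rfl | rfl)
    · exact hσW
    · exact hπW
    · exact hθW
    · rw [← hεΦ, hΦ]
      exact W.mul_mem hεW (W.mul_mem (W.mul_mem (W.sub_mem (W.mul_mem
        (pow_mem (W.add_mem W.one_mem hkW) 2) hπW) (W.mul_mem hkW (pow_mem hσW 2)))
        (W.sub_mem (W.sub_mem hσW W.one_mem) hkW))
        (W.sub_mem (W.mul_mem (W.add_mem W.one_mem hkW) hπW) (W.mul_mem hkW hσW)))
  -- the three relations
  have two : ∀ φ : C →ₐ[ℂ] N, Finsupp.single φ (2 : ℤ) =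
      Finsupp.single φ (1 : ℤ) + Finsupp.single φ (1 : ℤ) := by
    intro φ
    rw [← Finsupp.single_add]
    rfl
  rcases part_one (f := f) (j := j) (hj := hj) hκ hκc hst hz hw htop with h1 | ⟨τ₁, hs₁, ht₁, hz₁,
    hw₁, g₁⟩
  · rw [two]
    exact add_mem (h1 _) (h1 _)
  rcases part_one (f := f) (j := j) (hj := hj) hκ hκc hts (by rw [hw, hΦsym]) (by rw [hz, hΦsym])
    htop' with h2 | ⟨τ₂, ht₂, hs₂, hw₂, hz₂, g₂⟩
  · rw [two]
    exact add_mem (h2 _) (h2 _)
  rcases part_two (f := f) (j := j) (hj := hj) c hσπ hε2 hθmem hKtop' with h3 |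
    ⟨τ₃, hσ₃, hπ₃, hε₃, hθ₃, g₃⟩
  · have h5 := Good.map m (h3 ι)
    rw [Finsupp.mapDomain_single] at h5
    rw [two]
    exact add_mem h5 h5
  have hcomm : m.comp τ₃.toAlgHom = (τ₂.toAlgHom.comp τ₁.toAlgHom).comp m := by
    have hζ₃ : τ₃ ζ = ζ := by
      have h6 : τ₃ Φ = Φ := by
        rw [hΦ]
        simp only [map_mul, map_sub, map_add, map_pow, map_one, hσ₃, hπ₃, hk, AlgEquiv.commutes]
      rw [← hεΦ, map_mul, hε₃, h6]
    have h7 : ∀ a ∈ IntermediateField.adjoin ℂ ({σ, π, θ, ζ} : Set K),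
        m (τ₃ a) = τ₂ (τ₁ (m a)) := by
      intro a ha
      induction ha using IntermediateField.adjoin_induction with
      | mem x hx =>
        rcases hx with rfl | rfl | rfl | rfl
        · rw [hσ₃, hσ, map_add, hs₁, ht₁, map_add, hs₂, ht₂]
        · rw [hπ₃, hπ, map_mul, hs₁, ht₁, map_mul, hs₂, ht₂]
        · rw [hθ₃, map_neg, hθ, map_add, hz₁, hw₁, map_add, map_neg, hz₂, hw₂]
          ring
        · rw [hζ₃, hζ, map_mul, hz₁, hw₁, map_mul, map_neg, hz₂, hw₂]
          ring
      | algebraMap x => simp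
      | add x y _ _ hx hy => simp only [map_add, hx, hy]
      | inv x _ hx => simp only [map_inv₀, hx]
      | mul x y _ _ hx hy => simp only [map_mul, hx, hy]
    apply AlgHom.ext
    intro a
    exact h7 a (by rw [hKtop]; trivial)
  have k1 := g₁ (m.comp ι)
  have k2 := g₂ (τ₁.toAlgHom.comp (m.comp ι))
  have k3 := Good.map m (g₃ ι)
  rw [Finsupp.mapDomain_add, Finsupp.mapDomain_single, Finsupp.mapDomain_single] at k3
  have h8 : m.comp (τ₃.toAlgHom.comp ι) = τ₂.toAlgHom.comp (τ₁.toAlgHom.comp (m.comp ι)) := by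
    have h9 := congrArg (fun φ : K →ₐ[ℂ] N => φ.comp ι) hcomm
    exact h9
  rw [h8] at k3
  have h10 := add_mem (sub_mem k1 k2) k3
  rw [two]
  have h11 : Finsupp.single (m.comp ι) (1 : ℤ) + Finsupp.single (m.comp ι) (1 : ℤ) =
      Finsupp.single (m.comp ι) (1 : ℤ) + Finsupp.single (τ₁.toAlgHom.comp (m.comp ι)) (1 : ℤ) -
      (Finsupp.single (τ₁.toAlgHom.comp (m.comp ι)) (1 : ℤ) +
        Finsupp.single (τ₂.toAlgHom.comp (τ₁.toAlgHom.comp (m.comp ι))) (1 : ℤ)) +
      (Finsupp.single (m.comp ι) (1 : ℤ) +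
        Finsupp.single (τ₂.toAlgHom.comp (τ₁.toAlgHom.comp (m.comp ι))) (1 : ℤ)) := by
    abel
  rw [h11]
  exact h10

end

end Vale.Agent.P297
end
end

section

section

set_option linter.unusedSectionVars false
set_option linter.style.haveILetI false

open CategoryTheory AlgebraicGeometry IntermediateField Polynomial

namespace Vale.Agent.P297

theorem adjoin_subtype_top {N : Type} [Field N] [Algebra ℂ N] (T : Set N)
    (F : IntermediateField ℂ N) (hF : F = IntermediateField.adjoin ℂ T) (T' : Set F)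
    (hT : ∀ a ∈ T, ∃ b ∈ T', (b : N) = a) :
    IntermediateField.adjoin ℂ T' = ⊤ := by
  have h1 : IntermediateField.adjoin ℂ T ≤ (IntermediateField.adjoin ℂ T').map F.val := by
    rw [IntermediateField.adjoin_le_iff]
    intro a ha
    obtain ⟨b, hb, rfl⟩ := hT a ha
    exact ⟨b, IntermediateField.subset_adjoin _ _ hb, rfl⟩
  rw [eq_top_iff]
  intro y _
  have hy : (y : N) ∈ IntermediateField.adjoin ℂ T := by
    rw [← hF]
    exact y.2
  obtain ⟨b, hb, hby⟩ := h1 hy
  have : b = y := Subtype.ext hby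
  rw [← this]
  exact hb

theorem map_gg {K N : Type} [Field K] [Algebra ℂ K] [Field N] [Algebra ℂ N] (m : K →ₐ[ℂ] N)
    (c : ℂ) (s : K) : m (gg c s) = gg c (m s) := by
  unfold gg
  simp only [map_mul, map_sub, map_one, AlgHom.commutes]

theorem map_Phi {K N : Type} [Field K] [Algebra ℂ K] [Field N] [Algebra ℂ N] (m : K →ₐ[ℂ] N)
    (κ : ℂ) (s t : K) : m (Phi κ s t) = Phi κ (m s) (m t) := by
  unfold Phi
  simp only [map_mul, map_sub, map_add, map_one, AlgHom.commutes]

/-- The field of the family embeds in a field generated by `s`, `t`, `z`, `w`. -/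
theorem exists_setup {N : Type} [Field N] [Algebra ℂ N] {κ c : ℂ}
    {s t z w : N} (hst : AlgebraicIndependent ℂ ![s, t]) (hz : z ^ 2 = gg c s * Phi κ s t)
    (hw : w ^ 2 = gg c t * Phi κ s t) :
    ∃ (N₀ : IntermediateField ℂ N) (s₀ t₀ z₀ w₀ : N₀)
      (m : IntermediateField.adjoin ℂ {s + t, s * t, z + w, z * w} →ₐ[ℂ] N₀)
      (σ π θ ζ : IntermediateField.adjoin ℂ {s + t, s * t, z + w, z * w}),
      AlgebraicIndependent ℂ ![s₀, t₀] ∧ z₀ ^ 2 = gg c s₀ * Phi κ s₀ t₀ ∧
      w₀ ^ 2 = gg c t₀ * Phi κ s₀ t₀ ∧ IntermediateField.adjoin ℂ {s₀, t₀, z₀, w₀} = ⊤ ∧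
      m σ = s₀ + t₀ ∧ m π = s₀ * t₀ ∧ m θ = z₀ + w₀ ∧ m ζ = z₀ * w₀ ∧
      IntermediateField.adjoin ℂ {σ, π, θ, ζ} = ⊤ := by
  let N₀ := IntermediateField.adjoin ℂ ({s, t, z, w} : Set N)
  let K := IntermediateField.adjoin ℂ ({s + t, s * t, z + w, z * w} : Set N)
  have hs : s ∈ N₀ := IntermediateField.subset_adjoin _ _ (by simp)
  have ht : t ∈ N₀ := IntermediateField.subset_adjoin _ _ (by simp)
  have hz' : z ∈ N₀ := IntermediateField.subset_adjoin _ _ (by simp)
  have hw' : w ∈ N₀ := IntermediateField.subset_adjoin _ _ (by simp)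
  have hle : K ≤ N₀ := by
    rw [IntermediateField.adjoin_le_iff]
    rintro a (rfl | rfl | rfl | rfl)
    · exact N₀.add_mem hs ht
    · exact N₀.mul_mem hs ht
    · exact N₀.add_mem hz' hw'
    · exact N₀.mul_mem hz' hw'
  have hσ : s + t ∈ K := IntermediateField.subset_adjoin _ _ (by simp)
  have hπ : s * t ∈ K := IntermediateField.subset_adjoin _ _ (by simp)
  have hθ : z + w ∈ K := IntermediateField.subset_adjoin _ _ (by simp)
  have hζ : z * w ∈ K := IntermediateField.subset_adjoin _ _ (by simp)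
  have hst' : AlgebraicIndependent ℂ ![(⟨s, hs⟩ : N₀), ⟨t, ht⟩] := by
    apply AlgebraicIndependent.of_comp N₀.val
    have h2 : N₀.val ∘ ![(⟨s, hs⟩ : N₀), ⟨t, ht⟩] = ![s, t] := by
      ext i
      fin_cases i <;> rfl
    rw [h2]
    exact hst
  have hinj : Function.Injective N₀.val := N₀.val.toRingHom.injective
  refine ⟨N₀, ⟨s, hs⟩, ⟨t, ht⟩, ⟨z, hz'⟩, ⟨w, hw'⟩, IntermediateField.inclusion hle,
    ⟨_, hσ⟩, ⟨_, hπ⟩, ⟨_, hθ⟩, ⟨_, hζ⟩, hst', ?_, ?_, ?_, rfl, rfl, rfl, rfl, ?_⟩
  · apply hinj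
    rw [map_pow, map_mul, map_gg, map_Phi]
    exact hz
  · apply hinj
    rw [map_pow, map_mul, map_gg, map_Phi]
    exact hw
  · apply adjoin_subtype_top _ N₀ rfl
    rintro a (rfl | rfl | rfl | rfl)
    · exact ⟨⟨_, hs⟩, by simp, rfl⟩
    · exact ⟨⟨_, ht⟩, by simp, rfl⟩
    · exact ⟨⟨_, hz'⟩, by simp, rfl⟩
    · exact ⟨⟨_, hw'⟩, by simp, rfl⟩
  · apply adjoin_subtype_top _ K rfl
    rintro a (rfl | rfl | rfl | rfl)
    · exact ⟨⟨_, hσ⟩, by simp, rfl⟩
    · exact ⟨⟨_, hπ⟩, by simp, rfl⟩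
    · exact ⟨⟨_, hθ⟩, by simp, rfl⟩
    · exact ⟨⟨_, hζ⟩, by simp, rfl⟩

theorem algebraic_family {K N : Type} [Field K] [Algebra ℂ K] [Field N] [Algebra ℂ N]
    {κ c : ℂ} {s t z w : N} (m : K →ₐ[ℂ] N) (hz : z ^ 2 = gg c s * Phi κ s t)
    (hw : w ^ 2 = gg c t * Phi κ s t) (htop : IntermediateField.adjoin ℂ {s, t, z, w} = ⊤)
    {σ π : K} (hσ : m σ = s + t) (hπ : m π = s * t) (y : N) :
    ∃ p : K[X], p ≠ 0 ∧ p.eval₂ m.toRingHom y = 0 := by
  have h1 : IsAlgebraic m.fieldRange y := by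
    have hs : IsAlgebraic m.fieldRange s := by
      refine ⟨X ^ 2 - Polynomial.C ⟨s + t, ⟨σ, hσ⟩⟩ * X +
        Polynomial.C ⟨s * t, ⟨π, hπ⟩⟩, ?_, ?_⟩
      · apply Monic.ne_zero
        monicity!
      · simp only [map_add, map_sub, map_pow, aeval_X, map_mul, aeval_C]
        change s ^ 2 - (s + t) * s + s * t = 0
        ring
    have ht : IsAlgebraic m.fieldRange t := by
      have h1 : t = (s + t) - s := by ring
      rw [h1]
      exact (isAlgebraic_mem m.fieldRange _ ⟨σ, hσ⟩).sub hs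
    apply isAlgebraic_of_gens m.fieldRange {s, t, z, w} htop
    rintro a (rfl | rfl | rfl | rfl)
    · exact hs
    · exact ht
    · apply isAlgebraic_sq
      rw [hz]
      exact (isAlgebraic_gg _ c hs).mul (isAlgebraic_Phi _ κ hs ht)
    · apply isAlgebraic_sq
      rw [hw]
      exact (isAlgebraic_gg _ c ht).mul (isAlgebraic_Phi _ κ hs ht)
  obtain ⟨p, hp0, hp⟩ := h1
  let e : K ≃ₐ[ℂ] m.fieldRange := AlgEquiv.ofInjectiveField m
  refine ⟨p.map e.symm.toRingEquiv.toRingHom, ?_, ?_⟩
  · rw [Ne, Polynomial.map_eq_zero]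
    exact hp0
  · rw [Polynomial.eval₂_map]
    have h2 : m.toRingHom.comp e.symm.toRingEquiv.toRingHom = algebraMap m.fieldRange N := by
      apply RingHom.ext
      intro a
      change m (e.symm a) = a
      have h3 : m (e.symm a) = (e (e.symm a) : N) := rfl
      rw [h3, AlgEquiv.apply_symm_apply]
    rw [h2]
    exact hp

/-- `2 ([x] - [y])` is rationally equivalent to zero. -/
theorem dihedral_two {N : Type} [Field N] [Algebra ℂ N] {κ c : ℂ} (hκ : κ ≠ -1) (hκc : κ ≠ c)
    {s t z w : N} (hst : AlgebraicIndependent ℂ ![s, t]) (hz : z ^ 2 = gg c s * Phi κ s t)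
    (hw : w ^ 2 = gg c t * Phi κ s t)
    {S : Scheme.{0}} [IsIntegral S] (f : S ⟶ Spec (.of ℂ)) [IsProper f]
    (hS : IsFunctionFieldOf f (IntermediateField.adjoin ℂ {s + t, s * t, z + w, z * w}))
    (x y : closedPoints S) :
    (2 : ℤ) • (Finsupp.single x 1 - Finsupp.single y 1) ∈ Rat f := by
  obtain ⟨N₀, s₀, t₀, z₀, w₀, m, σ, π, θ, ζ, hst₀, hz₀, hw₀, htop, hσ, hπ, hθ, hζ, hKtop⟩ :=
    exists_setup hst hz hw
  obtain ⟨U, hU, hne, hi⟩ := exists_chart f hS
  letI := chartAlg f hU
  haveI := chart_finiteType f hU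
  obtain ⟨i, hi, hfrac⟩ := hi
  have hm : Function.Injective m := m.toRingHom.injective
  refine global_of_good f hU 2 (Rat f) le_rfl (m.comp i) (hm.comp hi) ?_ ?_ x y
  · intro y
    refine exists_poly_of_algebraic i.toRingHom hi hfrac m.toRingHom y ?_
    exact algebraic_family m hz₀ hw₀ htop hσ hπ y
  · exact dihedral_good hκ hκc hst₀ hz₀ hw₀ htop m hσ hπ hθ hζ hKtop i

end Vale.Agent.P297
end
end

section

section

set_option linter.unusedSectionVars false
set_option linter.style.haveILetI false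

open IntermediateField Polynomial

namespace Vale.Agent.P297

section General

variable {E : Type} [Field E] [Algebra ℂ E] [IsFF ℂ E]

/-- The divisor of zeros. -/
noncomputable def zeroPart (t : E) : PlaceOver ℂ E →₀ ℤ :=
  Finsupp.ofSupportFinite (fun w => max (w.1.ord t) 0) (by
    refine (finite_support (k := ℂ) t).subset ?_
    intro w hw
    simp only [Function.mem_support] at hw ⊢
    intro h
    rw [h] at hw
    exact hw rfl)

theorem zeroPart_apply (t : E) (w : PlaceOver ℂ E) : zeroPart t w = max (w.1.ord t) 0 := rfl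

theorem div_eq_sub (t : E) : div ℂ t = zeroPart t - zeroPart t⁻¹ := by
  ext w
  rw [Finsupp.sub_apply, zeroPart_apply, zeroPart_apply, div_apply, Place.ord_inv]
  omega

theorem zeroPart_inv_sub (t : E) (a b : ℂ) :
    zeroPart (t - algebraMap ℂ E a)⁻¹ = zeroPart (t - algebraMap ℂ E b)⁻¹ := by
  ext w
  rw [zeroPart_apply, zeroPart_apply, Place.ord_inv, Place.ord_inv]
  exact neg_part_eq a b w

theorem zeroPart_nonneg (t : E) : 0 ≤ zeroPart t := fun _ => le_max_right _ _

theorem deg_zeroPart {t : E} (ht : Transcendental ℂ t) :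
    deg (zeroPart t) = Module.finrank ℂ⟮t⟯ E := by
  rw [deg_eq_finsum]
  change ∑ᶠ w : PlaceOver ℂ E, max (w.1.ord t) 0 = _
  rw [finsum_pos_part, (degree_formula ht).2]

theorem eq_of_le_of_deg {α : Type*} {z z' : α →₀ ℤ} (h : z' ≤ z) (hd : deg z ≤ deg z') :
    z' = z := by
  classical
  have h1 : ∀ a, 0 ≤ (z - z') a := by
    intro a
    rw [Finsupp.sub_apply]
    have := h a
    omega
  have h2 : deg (z - z') = ∑ a ∈ (z - z').support, (z - z') a := rfl
  have h3 : deg (z - z') ≤ 0 := by rw [map_sub]; omega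
  have h4 : ∑ a ∈ (z - z').support, (z - z') a = 0 :=
    le_antisymm (by rw [← h2]; exact h3) (Finset.sum_nonneg fun a _ => h1 a)
  rw [Finset.sum_eq_zero_iff_of_nonneg fun a _ => h1 a] at h4
  have h5 : z - z' = 0 := by
    ext a
    by_cases ha : a ∈ (z - z').support
    · exact h4 a ha
    · exact Finsupp.notMem_support_iff.1 ha
  exact (sub_eq_zero.1 h5).symm

theorem single_le_of {α : Type*} {z : α →₀ ℤ} (hz : 0 ≤ z) (a : α) (n : ℤ) (h : n ≤ z a) :
    Finsupp.single a n ≤ z := by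
  classical
  intro b
  by_cases hb : b = a
  · subst hb
    rw [Finsupp.single_eq_same]
    exact h
  · rw [Finsupp.single_eq_of_ne hb]
    exact hz b

theorem pair_le_of {α : Type*} {z : α →₀ ℤ} (hz : 0 ≤ z) {a a' : α} (ha : a ≠ a')
    (h : 1 ≤ z a) (h' : 1 ≤ z a') : Finsupp.single a 1 + Finsupp.single a' 1 ≤ z := by
  classical
  intro b
  rw [Finsupp.add_apply]
  by_cases hb : b = a
  · subst hb
    rw [Finsupp.single_eq_same, Finsupp.single_eq_of_ne ha, add_zero]
    exact h
  · rw [Finsupp.single_eq_of_ne hb, zero_add]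
    by_cases hb' : b = a'
    · subst hb'
      rw [Finsupp.single_eq_same]
      exact h'
    · rw [Finsupp.single_eq_of_ne hb']
      exact hz b

end General

section Quadratic

variable {E : Type} [Field E] [Algebra ℂ E]

theorem finrank_eq_two {F : IntermediateField ℂ E} {θ : E} (hθ : θ ∉ F)
    (hspan : ∀ x : E, ∃ a ∈ F, ∃ b ∈ F, x = a + b * θ) : Module.finrank F E = 2 := by
  have hli : LinearIndependent F ![(1 : E), θ] := by
    rw [LinearIndependent.pair_iff]
    intro a b hab
    have h1 : (a : E) + (b : E) * θ = 0 + 0 * θ := by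
      have h2 : a • (1 : E) + b • θ = (a : E) + (b : E) * θ := by
        rw [Algebra.smul_def, Algebra.smul_def, mul_one]
        rfl
      rw [← h2, hab]
      ring
    obtain ⟨h3, h4⟩ := quad_unique F θ hθ a.2 b.2 F.zero_mem F.zero_mem h1
    exact ⟨Subtype.ext h3, Subtype.ext h4⟩
  have hsp : ⊤ ≤ Submodule.span F (Set.range ![(1 : E), θ]) := by
    intro x _
    obtain ⟨a, ha, b, hb, rfl⟩ := hspan x
    refine Submodule.add_mem _ ?_ ?_
    · have h1 : a = (⟨a, ha⟩ : F) • (1 : E) := by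
        rw [Algebra.smul_def, mul_one]; rfl
      rw [h1]
      exact Submodule.smul_mem _ _ (Submodule.subset_span ⟨0, rfl⟩)
    · have h1 : b * θ = (⟨b, hb⟩ : F) • θ := by
        rw [Algebra.smul_def]; rfl
      rw [h1]
      exact Submodule.smul_mem _ _ (Submodule.subset_span ⟨1, rfl⟩)
  rw [Module.finrank_eq_card_basis (Module.Basis.mk hli hsp), Fintype.card_fin]

theorem adjoin_gen_top (t : E) :
    IntermediateField.adjoin ℂ {AdjoinSimple.gen ℂ t} = (⊤ : IntermediateField ℂ ℂ⟮t⟯) := by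
  have h1 : ℂ⟮t⟯ ≤ (IntermediateField.adjoin ℂ {AdjoinSimple.gen ℂ t}).map (ℂ⟮t⟯).val := by
    rw [IntermediateField.adjoin_simple_le_iff]
    exact ⟨AdjoinSimple.gen ℂ t, IntermediateField.mem_adjoin_simple_self _ _, rfl⟩
  rw [eq_top_iff]
  intro y _
  obtain ⟨b, hb, hby⟩ := h1 y.2
  have : b = y := Subtype.ext hby
  rw [← this]
  exact hb

theorem transcendental_gen {t : E} (ht : Transcendental ℂ t) :
    Transcendental ℂ (AdjoinSimple.gen ℂ t) := by
  intro hc
  apply ht
  have := hc.algebraMap (A := E)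
  simpa using this

theorem isFF_adjoin [IsFF ℂ E] {t : E} (ht : Transcendental ℂ t) : IsFF ℂ ℂ⟮t⟯ := by
  refine ⟨IntermediateField.essFiniteType_iff.2 (IntermediateField.fg_adjoin_of_finite
      (Set.finite_singleton t)), le_antisymm ?_ ?_⟩
  · rw [← IsFF.td (k := ℂ) (E := E)]
    exact trdeg_le_of_injective (ℂ⟮t⟯).val Subtype.val_injective
  · rw [Cardinal.one_le_iff_ne_zero, trdeg_ne_zero_iff]
    exact ⟨_, transcendental_gen ht⟩

theorem finrank_gen_sub {t : E} (a : ℂ) :
    Module.finrank (IntermediateField.adjoin ℂ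
      {AdjoinSimple.gen ℂ t - algebraMap ℂ ℂ⟮t⟯ a}) ℂ⟮t⟯ = 1 := by
  have h1 : IntermediateField.adjoin ℂ {AdjoinSimple.gen ℂ t - algebraMap ℂ ℂ⟮t⟯ a} =
      (⊤ : IntermediateField ℂ ℂ⟮t⟯) := by
    rw [← adjoin_gen_top]
    apply le_antisymm
    · rw [IntermediateField.adjoin_simple_le_iff]
      exact sub_mem (IntermediateField.mem_adjoin_simple_self ℂ _) (_root_.algebraMap_mem _ a)
    · rw [IntermediateField.adjoin_simple_le_iff]
      have := add_mem (IntermediateField.mem_adjoin_simple_self ℂ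
        (AdjoinSimple.gen ℂ t - algebraMap ℂ ℂ⟮t⟯ a))
        (_root_.algebraMap_mem ℂ⟮AdjoinSimple.gen ℂ t - algebraMap ℂ ℂ⟮t⟯ a⟯ a)
      simpa using this
  rw [h1]
  exact IntermediateField.finrank_top

theorem adjoin_inv_eq {E : Type} [Field E] [Algebra ℂ E] (t : E) : ℂ⟮t⁻¹⟯ = ℂ⟮t⟯ := by
  apply le_antisymm
  · rw [IntermediateField.adjoin_simple_le_iff]
    exact inv_mem (IntermediateField.mem_adjoin_simple_self ℂ t)
  · rw [IntermediateField.adjoin_simple_le_iff]
    have := inv_mem (IntermediateField.mem_adjoin_simple_self ℂ t⁻¹)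
    simpa using this

theorem exists_zero_place [IsFF ℂ E] {t : E} (ht : Transcendental ℂ t) :
    ∃ w : PlaceOver ℂ E, 0 < w.1.ord t := by
  by_contra hcon
  push Not at hcon
  haveI : FiniteDimensional ℂ⟮t⟯ E := IsFF.finiteDimensional ht
  have h1 := deg_zeroPart ht
  have h2 : zeroPart t = 0 := by
    ext w
    rw [zeroPart_apply, Finsupp.coe_zero, Pi.zero_apply]
    exact max_eq_right (hcon w)
  rw [h2, map_zero] at h1
  have h3 : 0 < Module.finrank ℂ⟮t⟯ E := Module.finrank_pos
  omega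

theorem sub_ne_zero_of_tr [IsFF ℂ E] {t : E} (ht : Transcendental ℂ t) (a : ℂ) :
    t - algebraMap ℂ E a ≠ 0 := by
  intro h0
  apply transcendental_sub ht a
  rw [h0]
  exact isAlgebraic_zero

theorem aeval_mem_ring (w : PlaceOver ℂ E) {t : E} (ht : t ∈ w.1.ring) (p : ℂ[X]) :
    aeval t p ∈ w.1.ring := by
  have h := adjoin_mem (k := ℂ) w.1.ring w.2 ht ⟨aeval t p, aeval_mem_adjoin_singleton ℂ t⟩
  exact h

theorem ord_aeval_eq_zero (w : PlaceOver ℂ E) {t : E} {α : ℂ}
    (hw : 0 < w.1.ord (t - algebraMap ℂ E α)) (p : ℂ[X]) (hp : p.eval α ≠ 0) :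
    w.1.ord (aeval t p) = 0 := by
  have ht : t ∈ w.1.ring := by
    have h0 : t - algebraMap ℂ E α ≠ 0 := by
      intro h0
      rw [h0, Place.ord_zero] at hw
      exact lt_irrefl _ hw
    have h1 : t - algebraMap ℂ E α ∈ w.1.ring := (w.1.ord_nonneg_iff h0).1 hw.le
    have h2 := w.1.ring.add_mem _ _ h1 (w.2 α)
    simpa using h2
  obtain ⟨p', hp'⟩ := X_sub_C_dvd_sub_C_eval (a := α) (p := p)
  have h1 : aeval t p = algebraMap ℂ E (p.eval α) + (t - algebraMap ℂ E α) * aeval t p' := by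
    have h2 : p = Polynomial.C (p.eval α) + (X - Polynomial.C α) * p' := by
      rw [← hp']; ring
    conv_lhs => rw [h2]
    simp
  have h3 : algebraMap ℂ E (p.eval α) ≠ 0 := by simpa using hp
  have h4 : w.1.ord (algebraMap ℂ E (p.eval α)) = 0 := ord_const _
  by_cases h5 : (t - algebraMap ℂ E α) * aeval t p' = 0
  · rw [h1, h5, add_zero, h4]
  · rw [h1, Place.ord_add_eq_of_lt w.1 h3 h5, h4]
    rw [h4]
    obtain ⟨h6, h7⟩ := mul_ne_zero_iff.1 h5
    rw [Place.ord_mul _ h6 h7]
    have h8 := w.1.ord_nonneg_of_mem (aeval_mem_ring w ht p')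
    omega

theorem aeval_mem_adjoin_simple (t : E) (p : ℂ[X]) : aeval t p ∈ ℂ⟮t⟯ := by
  have h : aeval t p = algebraMap ℂ⟮t⟯ E (aeval (AdjoinSimple.gen ℂ t) p) := by
    rw [← aeval_algebraMap_apply, AdjoinSimple.algebraMap_gen]
  rw [h]
  exact (aeval (AdjoinSimple.gen ℂ t) p).2

/-- On a double cover of the line the classes of all places agree modulo twice degree zero. -/
theorem half_const [IsFF ℂ E] {t θ : E} (ht : Transcendental ℂ t) (q : ℂ[X]) (hq : Squarefree q)
    (hθ : θ ^ 2 = aeval t q) (hθK : θ ∉ ℂ⟮t⟯)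
    (hspan : ∀ x : E, ∃ a ∈ ℂ⟮t⟯, ∃ b ∈ ℂ⟮t⟯, x = a + b * θ) {Q : Type*} [AddCommGroup Q]
    (A : (PlaceOver ℂ E →₀ ℤ) →+ Q) (hdiv : ∀ F : E, A (div ℂ F) = 0)
    (htwo : ∀ w w' : PlaceOver ℂ E, A (Finsupp.single w 1) + A (Finsupp.single w 1) =
      A (Finsupp.single w' 1) + A (Finsupp.single w' 1)) (w w' : PlaceOver ℂ E) :
    A (Finsupp.single w 1) = A (Finsupp.single w' 1) := by
  classical
  have hθ0 : θ ≠ 0 := by
    rintro rfl
    exact hθK (IntermediateField.zero_mem _)
  have hfr : Module.finrank ℂ⟮t⟯ E = 2 := finrank_eq_two hθK hspan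
  -- the common class of the fibres
  have hZ : ∀ a : ℂ, A (zeroPart (t - algebraMap ℂ E a)) = A (zeroPart t⁻¹) := by
    intro a
    have h1 := hdiv (t - algebraMap ℂ E a)
    rw [div_eq_sub, map_sub, sub_eq_zero] at h1
    rw [h1, zeroPart_inv_sub t a 0]
    congr 3
    rw [map_zero, sub_zero]
  have hdegZ : ∀ a : ℂ, deg (zeroPart (t - algebraMap ℂ E a)) = 2 := by
    intro a
    rw [deg_zeroPart (transcendental_sub ht a), adjoin_sub, hfr]
    rfl
  have htinv : Transcendental ℂ t⁻¹ := fun hc => ht (by simpa using hc.inv)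
  have hdegP : deg (zeroPart t⁻¹) = 2 := by
    rw [deg_zeroPart htinv, adjoin_inv_eq, hfr]
    rfl
  -- a ramified place
  have hroot : ∃ α : ℂ, q.IsRoot α := by
    apply IsAlgClosed.exists_root
    intro hdeg
    apply hθK
    rw [eq_C_of_degree_eq_zero hdeg, aeval_C] at hθ
    obtain ⟨r, hr⟩ := IsAlgClosed.exists_pow_nat_eq (q.coeff 0) (n := 2) two_pos
    have h1 : (θ - algebraMap ℂ E r) * (θ + algebraMap ℂ E r) = 0 := by
      have h2 : (θ - algebraMap ℂ E r) * (θ + algebraMap ℂ E r) =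
        θ ^ 2 - (algebraMap ℂ E r) ^ 2 := by ring
      rw [h2, hθ, ← hr, map_pow, sub_self]
    rcases mul_eq_zero.1 h1 with h | h
    · rw [sub_eq_zero.1 h]
      exact ℂ⟮t⟯.algebraMap_mem r
    · rw [eq_neg_of_add_eq_zero_left h]
      exact ℂ⟮t⟯.neg_mem (ℂ⟮t⟯.algebraMap_mem r)
  obtain ⟨α, hα⟩ := hroot
  obtain ⟨q₁, hq₁⟩ := dvd_iff_isRoot.2 hα
  have hq₁α : q₁.eval α ≠ 0 := by
    intro h0
    obtain ⟨q₂, hq₂⟩ := dvd_iff_isRoot.2 (show q₁.IsRoot α from h0)
    have h1 := hq (X - Polynomial.C α) ⟨q₂, by rw [hq₁, hq₂]; ring⟩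
    exact not_isUnit_X_sub_C α h1
  obtain ⟨w₀, hw₀⟩ := exists_zero_place (transcendental_sub ht α)
  have hram : zeroPart (t - algebraMap ℂ E α) = Finsupp.single w₀ 2 := by
    symm
    apply eq_of_le_of_deg
    · apply single_le_of (zeroPart_nonneg _)
      rw [zeroPart_apply]
      have h1 : θ ^ 2 = (t - algebraMap ℂ E α) * aeval t q₁ := by
        rw [hθ, hq₁]
        simp
      have h2 := ord_aeval_eq_zero w₀ hw₀ q₁ hq₁α
      have h3 : (2 : ℤ) * w₀.1.ord θ = w₀.1.ord (t - algebraMap ℂ E α) := by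
        have h4 : w₀.1.ord (θ ^ 2) = 2 * w₀.1.ord θ := by
          rw [Place.ord_pow]
          rfl
        rw [← h4, h1, Place.ord_mul _ (sub_ne_zero_of_tr ht α), h2, add_zero]
        intro h5
        rw [h5, mul_zero] at h1
        exact hθ0 (by simpa using h1)
      omega
    · rw [hdegZ, deg_single]
  have hcls : ∀ x : PlaceOver ℂ E,
      A (zeroPart t⁻¹) = A (Finsupp.single x 1) + A (Finsupp.single x 1) := by
    intro x
    rw [← hZ α, hram, htwo x w₀, ← map_add, ← Finsupp.single_add]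
    rfl
  have hpair : ∀ z : E, deg (zeroPart z) = 2 → A (zeroPart z) = A (zeroPart t⁻¹) →
      ∀ x y : PlaceOver ℂ E, 0 < x.1.ord z → 0 < y.1.ord z →
      A (Finsupp.single x 1) = A (Finsupp.single y 1) := by
    intro z hz1 hz2 x y hx hy
    by_cases hxy : x = y
    · rw [hxy]
    have h1 : Finsupp.single x 1 + Finsupp.single y 1 = zeroPart z := by
      apply eq_of_le_of_deg
      · apply pair_le_of (zeroPart_nonneg _) hxy
        · rw [zeroPart_apply]
          omega
        · rw [zeroPart_apply]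
          omega
      · rw [hz1, map_add, deg_single, deg_single]
        norm_num
    rw [← h1, hcls y, map_add] at hz2
    exact add_right_cancel hz2
  -- the base line
  haveI : IsFF ℂ ℂ⟮t⟯ := isFF_adjoin ht
  haveI : FiniteDimensional ℂ⟮t⟯ E := IsFF.finiteDimensional ht
  set g := AdjoinSimple.gen ℂ t with hg
  have hgt : Transcendental ℂ g := transcendental_gen ht
  have hgE : algebraMap ℂ⟮t⟯ E g = t := AdjoinSimple.algebraMap_gen ℂ t
  have hcase : ∀ s : PlaceOver ℂ ℂ⟮t⟯,
      (∃ a : ℂ, 0 < s.1.ord (g - algebraMap ℂ ℂ⟮t⟯ a)) ∨ 0 < s.1.ord g⁻¹ := by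
    intro s
    by_cases hs : g ∈ s.1.ring
    · obtain ⟨a, ha⟩ := exists_const s.1 s.2 hs
      rcases ha with ha | ha
      · exfalso
        apply hgt
        rw [ha]
        exact isAlgebraic_algebraMap a
      · exact Or.inl ⟨a, ha⟩
    · right
      apply Place.ord_pos_of_inv_notMem
      rw [inv_inv]
      exact hs
  have hres : ∀ x : PlaceOver ℂ E,
      x.1.ring.comap (algebraMap ℂ⟮t⟯ E) = (restrictPlace ℂ⟮t⟯ x).1.ring :=
    fun x => (restrictPlace_ring x).symm
  have hC1 : ∀ x y : PlaceOver ℂ E, restrictPlace ℂ⟮t⟯ x = restrictPlace ℂ⟮t⟯ y →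
      A (Finsupp.single x 1) = A (Finsupp.single y 1) := by
    intro x y hxy
    rcases hcase (restrictPlace ℂ⟮t⟯ x) with ⟨a, ha⟩ | ha
    · have h1 := (ord_gen_pos_iff x.1 _ (hres x) _).1 ha
      rw [hxy] at ha
      have h2 := (ord_gen_pos_iff y.1 _ (hres y) _).1 ha
      rw [map_sub, hgE, ← IsScalarTower.algebraMap_apply] at h1 h2
      exact hpair (t - algebraMap ℂ E a) (hdegZ a) (hZ a) x y h1 h2
    · have h1 := (ord_gen_pos_iff x.1 _ (hres x) _).1 ha
      rw [hxy] at ha
      have h2 := (ord_gen_pos_iff y.1 _ (hres y) _).1 ha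
      rw [map_inv₀, hgE] at h1 h2
      exact hpair t⁻¹ hdegP rfl x y h1 h2
  let b : PlaceOver ℂ ℂ⟮t⟯ → Q := fun s =>
    if h : ∃ x, restrictPlace ℂ⟮t⟯ x = s then A (Finsupp.single h.choose 1)
    else A (Finsupp.single w 1)
  have hb : ∀ x : PlaceOver ℂ E, b (restrictPlace ℂ⟮t⟯ x) = A (Finsupp.single x 1) := by
    intro x
    have h : ∃ y, restrictPlace ℂ⟮t⟯ y = restrictPlace ℂ⟮t⟯ x := ⟨x, rfl⟩
    change (if h : ∃ y, restrictPlace ℂ⟮t⟯ y = restrictPlace ℂ⟮t⟯ x then
      A (Finsupp.single h.choose 1) else A (Finsupp.single w 1)) = _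
    rw [dif_pos h]
    exact hC1 _ _ h.choose_spec
  have hb2 : ∀ s, b s + b s = A (zeroPart t⁻¹) := by
    intro s
    change (if h : ∃ y, restrictPlace ℂ⟮t⟯ y = s then
      A (Finsupp.single h.choose 1) else A (Finsupp.single w 1)) +
      (if h : ∃ y, restrictPlace ℂ⟮t⟯ y = s then
      A (Finsupp.single h.choose 1) else A (Finsupp.single w 1)) = _
    split_ifs with h
    · exact (hcls _).symm
    · exact (hcls _).symm
  let B : (PlaceOver ℂ ℂ⟮t⟯ →₀ ℤ) →+ Q := Finsupp.liftAddHom (fun s => zmultiplesHom Q (b s))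
  have hBs : ∀ s n, B (Finsupp.single s n) = n • b s := by
    intro s n
    change Finsupp.liftAddHom (fun s => zmultiplesHom Q (b s)) (Finsupp.single s n) = _
    rw [Finsupp.liftAddHom_apply_single]
    rfl
  have hAB : ∀ z : PlaceOver ℂ E →₀ ℤ, A z = B (Finsupp.mapDomain (restrictPlace ℂ⟮t⟯) z) := by
    intro z
    induction z using Finsupp.induction_linear with
    | zero => rw [Finsupp.mapDomain_zero, map_zero, map_zero]
    | add x y hx hy => rw [Finsupp.mapDomain_add, map_add, map_add, hx, hy]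
    | single x n =>
      rw [Finsupp.mapDomain_single, hBs, hb, ← map_zsmul, Finsupp.smul_single, smul_eq_mul,
        mul_one]
  have hB2 : ∀ z : PlaceOver ℂ ℂ⟮t⟯ →₀ ℤ, B z + B z = deg z • A (zeroPart t⁻¹) := by
    intro z
    induction z using Finsupp.induction_linear with
    | zero => simp
    | add x y hx hy => rw [map_add, map_add, add_smul, ← hx, ← hy]; abel
    | single x n => rw [hBs, deg_single, ← hb2 x, smul_add]
  have hnorm : ∀ F : E, F ≠ 0 → B (div ℂ (Algebra.norm ℂ⟮t⟯ F)) = 0 := by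
    intro F hF
    rw [← mapDomain_restrict hF, ← hAB, hdiv]
  -- halving
  have hy2 : θ ^ 2 ∈ ℂ⟮t⟯ := by
    rw [hθ]
    exact aeval_mem_adjoin_simple t q
  obtain ⟨τ, hτF, hτθ, -, -⟩ := exists_quad_aut ℂ⟮t⟯ θ hy2 hθK hspan
  let τ' : E ≃ₐ[ℂ⟮t⟯] E := { τ with commutes' := fun x => hτF _ x.2 }
  have hτ' : ∀ x, τ' x = τ x := fun x => rfl
  have htaev : ∀ p : ℂ[X], algebraMap ℂ⟮t⟯ E (aeval g p) = aeval t p := by
    intro p
    rw [← aeval_algebraMap_apply, hgE]
  have htinj : ∀ p : ℂ[X], aeval t p = 0 → p = 0 := by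
    intro p hp
    by_contra hne
    exact ht ⟨p, hne, hp⟩
  have hlin : ∀ a : ℂ, B (div ℂ (g - algebraMap ℂ ℂ⟮t⟯ a)) = 0 := by
    intro a
    obtain ⟨u, w₁, v, hne, huw⟩ := exists_halving q hq a
    set F : E := aeval t u + algebraMap ℂ E v * θ with hF
    have hun : aeval t u ∈ ℂ⟮t⟯ := aeval_mem_adjoin_simple t u
    have hF0 : F ≠ 0 := by
      intro h0
      have h1 : aeval t u + algebraMap ℂ E v * θ = 0 + 0 * θ := by
        rw [← hF, h0]; ring
      obtain ⟨h2, h3⟩ := quad_unique ℂ⟮t⟯ θ hθK hun (ℂ⟮t⟯.algebraMap_mem v) ℂ⟮t⟯.zero_mem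
        ℂ⟮t⟯.zero_mem h1
      have h4 := htinj u h2
      have h5 : v = 0 := by simpa using h3
      rw [h4, h5] at huw
      have h6 : (X - Polynomial.C a) * w₁ ^ 2 = 0 := by
        rw [← huw]; simp
      apply hne
      refine ⟨h4, ?_⟩
      simpa [X_sub_C_ne_zero] using h6
    have hτFe : τ F = aeval t u - algebraMap ℂ E v * θ := by
      rw [hF, map_add, hτF _ hun, map_mul, hτF _ (ℂ⟮t⟯.algebraMap_mem v), hτθ]
      ring
    set n' : ℂ⟮t⟯ := (g - algebraMap ℂ ℂ⟮t⟯ a) * (aeval g w₁) ^ 2 with hn'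
    have hn'E : F * τ' F = algebraMap ℂ⟮t⟯ E n' := by
      rw [hτ', hτFe, hF, hn', map_mul, map_pow, htaev, map_sub, hgE,
        ← IsScalarTower.algebraMap_apply]
      have h1 := congrArg (aeval t) huw
      simp only [map_sub, map_mul, map_pow, aeval_C, aeval_X, ← hθ] at h1
      rw [← h1]
      ring
    have hn'0 : n' ≠ 0 := by
      intro h0
      rw [h0, map_zero] at hn'E
      rcases mul_eq_zero.1 hn'E with h | h
      · exact hF0 h
      · exact hF0 (by simpa using h)
    have hnn : Algebra.norm ℂ⟮t⟯ F * Algebra.norm ℂ⟮t⟯ F = n' ^ 2 := by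
      have h1 := congrArg (Algebra.norm ℂ⟮t⟯) hn'E
      rw [map_mul, Algebra.norm_eq_of_algEquiv τ' F, Algebra.norm_algebraMap, hfr] at h1
      exact h1
    have hdn : div ℂ (Algebra.norm ℂ⟮t⟯ F) = div ℂ n' := by
      have h1 : (Algebra.norm ℂ⟮t⟯ F - n') * (Algebra.norm ℂ⟮t⟯ F + n') = 0 := by
        linear_combination hnn
      rcases mul_eq_zero.1 h1 with h | h
      · rw [sub_eq_zero.1 h]
      · rw [eq_neg_of_add_eq_zero_left h]
        ext s
        rw [div_apply, div_apply, Place.ord_neg]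
    have h1 := hnorm F hF0
    have hw0 : aeval g w₁ ≠ 0 := by
      intro h0
      apply hn'0
      rw [hn', h0]
      ring
    rw [hdn, hn', pow_two, div_mul (sub_ne_zero_of_tr hgt a) (mul_ne_zero hw0 hw0),
      div_mul hw0 hw0, map_add, map_add, hB2, deg_div, zero_smul, add_zero] at h1
    exact h1
  have hfin : ∀ x : PlaceOver ℂ E, A (Finsupp.single x 1) = B (zeroPart g⁻¹) := by
    intro x
    rw [← hb x]
    set s := restrictPlace ℂ⟮t⟯ x with hs
    have h0 : b s = B (Finsupp.single s 1) := by rw [hBs, one_smul]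
    rw [h0]
    rcases hcase s with ⟨a, ha⟩ | ha
    · have h1 : Finsupp.single s 1 = zeroPart (g - algebraMap ℂ ℂ⟮t⟯ a) := by
        apply eq_of_le_of_deg
        · apply single_le_of (zeroPart_nonneg _)
          rw [zeroPart_apply]
          omega
        · rw [deg_single, deg_zeroPart (transcendental_sub hgt a), hg, finrank_gen_sub]
          rfl
      have h2 := hlin a
      rw [div_eq_sub, map_sub, sub_eq_zero] at h2
      rw [h1, h2, zeroPart_inv_sub g a 0]
      congr 3
      rw [map_zero, sub_zero]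
    · have h1 : Finsupp.single s 1 = zeroPart g⁻¹ := by
        apply eq_of_le_of_deg
        · apply single_le_of (zeroPart_nonneg _)
          rw [zeroPart_apply]
          omega
        · rw [deg_single, deg_zeroPart (fun hc => hgt (by simpa using hc.inv)),
            adjoin_inv_eq]
          have h3 := finrank_gen_sub (t := t) 0
          rw [map_zero, sub_zero] at h3
          rw [hg, h3]
          rfl
      rw [h1]
  rw [hfin, hfin]

end Quadratic

end Vale.Agent.P297
end
end

section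

section

set_option linter.unusedSectionVars false
set_option linter.style.haveILetI false

open IntermediateField Polynomial

namespace Vale.Agent.P297

/-- The double cover of the line defined by a squarefree polynomial with a root. -/
theorem exists_double_cover (q : ℂ[X]) (hq : Squarefree q) (α : ℂ) (hα : q.IsRoot α) :
    ∃ (E : Type) (_ : Field E) (_ : Algebra ℂ E) (t θ : E), Transcendental ℂ t ∧
      θ ^ 2 = aeval t q ∧ θ ∉ ℂ⟮t⟯ ∧ (∀ x : E, ∃ a ∈ ℂ⟮t⟯, ∃ b ∈ ℂ⟮t⟯, x = a + b * θ) := by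
  let Ω := AlgebraicClosure (RatFunc ℂ)
  let t₀ : Ω := algebraMap (RatFunc ℂ) Ω RatFunc.X
  have ht₀ : Transcendental ℂ t₀ := by
    intro h
    have h1 : Transcendental ℂ (RatFunc.X : RatFunc ℂ) := RatFunc.transcendental_X
    exact h1 ((isAlgebraic_algebraMap_iff (algebraMap (RatFunc ℂ) Ω).injective).1 h)
  obtain ⟨θ₀, hθ₀⟩ := IsAlgClosed.exists_pow_nat_eq (aeval t₀ q) (n := 2) two_pos
  let E := IntermediateField.adjoin ℂ ({t₀, θ₀} : Set Ω)
  have ht : t₀ ∈ E := IntermediateField.subset_adjoin _ _ (by simp)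
  have hθ : θ₀ ∈ E := IntermediateField.subset_adjoin _ _ (by simp)
  let t : E := ⟨t₀, ht⟩
  let θ : E := ⟨θ₀, hθ⟩
  have htt : Transcendental ℂ t := by
    intro h
    exact ht₀ (h.algebraMap (A := Ω))
  have hθq : θ ^ 2 = aeval t q := by
    apply Subtype.ext
    change θ₀ ^ 2 = E.val (aeval t q)
    rw [hθ₀, ← aeval_algHom_apply]
    rfl
  have htinj : ∀ p : ℂ[X], aeval t p = 0 → p = 0 := by
    intro p hp
    by_contra hne
    exact htt ⟨p, hne, hp⟩
  refine ⟨E, inferInstance, inferInstance, t, θ, htt, hθq, ?_, ?_⟩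
  · intro h
    rw [IntermediateField.mem_adjoin_simple_iff] at h
    obtain ⟨u, v, huv⟩ := h
    have hq0 : q ≠ 0 := hq.ne_zero
    have hθ0 : θ ≠ 0 := by
      intro h0
      rw [h0] at hθq
      apply hq0
      apply htinj
      rw [← hθq]
      ring
    have hv0 : aeval t v ≠ 0 := by
      intro h0
      rw [h0, div_zero] at huv
      exact hθ0 huv
    have hv : v ≠ 0 := by
      rintro rfl
      exact hv0 (map_zero _)
    have h1 : u ^ 2 = q * v ^ 2 := by
      rw [← sub_eq_zero]
      apply htinj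
      rw [map_sub, map_mul, map_pow, map_pow, ← hθq, huv]
      field_simp
      ring
    have hu : u ≠ 0 := by
      rintro rfl
      rw [zero_pow two_ne_zero] at h1
      exact mul_ne_zero hq0 (pow_ne_zero 2 hv) h1.symm
    have h2 := congrArg (rootMultiplicity α) h1
    rw [rootMultiplicity_mul (mul_ne_zero hq0 (pow_ne_zero 2 hv)), pow_two, pow_two,
      rootMultiplicity_mul (mul_ne_zero hu hu), rootMultiplicity_mul (mul_ne_zero hv hv)] at h2
    have h3 : rootMultiplicity α q = 1 := by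
      apply le_antisymm
      · by_contra hcon
        push Not at hcon
        have h4 : (X - Polynomial.C α) ^ 2 ∣ q :=
          (le_rootMultiplicity_iff hq0).1 hcon
        rw [pow_two] at h4
        exact not_isUnit_X_sub_C α (hq _ h4)
      · exact (rootMultiplicity_pos hq0).2 hα
    omega
  · have hy2 : θ ^ 2 ∈ ℂ⟮t⟯ := by
      rw [hθq]
      exact aeval_mem_adjoin_simple t q
    apply exists_quad ℂ⟮t⟯ θ hy2 {t, θ}
    · rintro y (rfl | rfl)
      · exact Or.inl (IntermediateField.mem_adjoin_simple_self _ _)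
      · exact Or.inr rfl
    · have h1 : IntermediateField.adjoin ℂ ({t₀, θ₀} : Set Ω) ≤
        (IntermediateField.adjoin ℂ {t, θ}).map E.val := by
        rw [IntermediateField.adjoin_le_iff]
        rintro a (rfl | rfl)
        · exact ⟨t, IntermediateField.subset_adjoin _ _ (by simp), rfl⟩
        · exact ⟨θ, IntermediateField.subset_adjoin _ _ (by simp), rfl⟩
      rw [eq_top_iff]
      intro y _
      obtain ⟨b, hb, hby⟩ := h1 y.2
      have : b = y := Subtype.ext hby
      rw [← this]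
      exact hb

theorem isFF_of_quad {E : Type} [Field E] [Algebra ℂ E] {t θ : E} (ht : Transcendental ℂ t)
    (hθK : θ ∉ ℂ⟮t⟯) (hspan : ∀ x : E, ∃ a ∈ ℂ⟮t⟯, ∃ b ∈ ℂ⟮t⟯, x = a + b * θ) : IsFF ℂ E := by
  apply IsFF.of_finiteDimensional ht
  apply Module.finite_of_finrank_pos
  rw [finrank_eq_two hθK hspan]
  norm_num

/-- Lifting an algebra homomorphism along a surjection. -/
theorem exists_alg_lift {R A B : Type} [CommRing R] [Algebra ℂ R] [CommRing A] [Algebra ℂ A]
    [CommRing B] [Algebra ℂ B] (ψ : R →ₐ[ℂ] A) (hψ : Function.Surjective ψ) (g : R →ₐ[ℂ] B)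
    (h : ∀ F, ψ F = 0 → g F = 0) : ∃ g' : A →ₐ[ℂ] B, ∀ F, g' (ψ F) = g F := by
  let e := Ideal.quotientKerAlgEquivOfSurjective hψ
  let g₁ : (R ⧸ RingHom.ker ψ) →ₐ[ℂ] B := Ideal.Quotient.liftₐ _ g (fun F hF => h F hF)
  refine ⟨g₁.comp e.symm.toAlgHom, fun F => ?_⟩
  have h1 : e.symm (ψ F) = Ideal.Quotient.mk _ F := by
    rw [AlgEquiv.symm_apply_eq]
    rfl
  change g₁ (e.symm (ψ F)) = g F
  rw [h1]
  rfl

end Vale.Agent.P297
end
end

section

section

set_option linter.unusedSectionVars false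
set_option linter.style.haveILetI false

open CategoryTheory AlgebraicGeometry IntermediateField Polynomial

namespace Vale.Agent.P297

section

variable {S : Scheme.{0}} (f : S ⟶ Spec (.of ℂ)) [IsProper f] {C : Type} [CommRing C] [Algebra ℂ C]
  (j : Spec (.of C) ⟶ S)
  (hj : j ≫ f = Spec.map (CommRingCat.ofHom (algebraMap ℂ C)))

/-- Two points on the image of a double cover of the line. -/
theorem two_points (R : AddSubgroup (ZeroCycle S)) (hR : Rat f ≤ R)
    (hR2 : ∀ u v : closedPoints S,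
      (2 : ℤ) • (Finsupp.single u (1 : ℤ) - Finsupp.single v 1) ∈ R)
    {E : Type} [Field E] [Algebra ℂ E] [IsFF ℂ E] {t θ : E} (ht : Transcendental ℂ t) (q : ℂ[X])
    (hq : Squarefree q) (hθ : θ ^ 2 = aeval t q) (hθK : θ ∉ ℂ⟮t⟯)
    (hspan : ∀ x : E, ∃ a ∈ ℂ⟮t⟯, ∃ b ∈ ℂ⟮t⟯, x = a + b * θ)
    {A : Type} [CommRing A] [Algebra ℂ A] (ι : C →ₐ[ℂ] A) (m : A →ₐ[ℂ] E)
    (ξ₁ ξ₂ : A →ₐ[ℂ] ℂ) (hk₁ : ∀ a, m a = 0 → ξ₁ a = 0) (hk₂ : ∀ a, m a = 0 → ξ₂ a = 0)
    (b₁ b₂ : A) (hb₁ : m b₁ ≠ 0) (hb₂ : m b₂ ≠ 0) (hξ₁ : ξ₁ b₁ = 0) (hξ₂ : ξ₂ b₂ = 0) :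
    Finsupp.single (pt f j hj (ξ₁.comp ι)) (1 : ℤ) -
      Finsupp.single (pt f j hj (ξ₂.comp ι)) (1 : ℤ) ∈ R := by
  classical
  let κ : C →ₐ[ℂ] E := m.comp ι
  let γ : Spec (.of E) ⟶ S := Spec.map (CommRingCat.ofHom κ.toRingHom) ≫ j
  have hγ : γ ≫ f = Spec.map (CommRingCat.ofHom (algebraMap ℂ E)) := by
    change (Spec.map (CommRingCat.ofHom κ.toRingHom) ≫ j) ≫ f = _
    rw [Category.assoc, hj, ← Spec.map_comp, ← CommRingCat.ofHom_comp]
    have h1 : κ.toRingHom.comp (algebraMap ℂ C) = algebraMap ℂ E :=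
      RingHom.ext fun a => κ.commutes a
    rw [h1]
  have hex : ∀ (ξ : A →ₐ[ℂ] ℂ) (_ : ∀ a, m a = 0 → ξ a = 0) (b : A) (_ : m b ≠ 0)
      (_ : ξ b = 0), ∃ w : PlaceOver ℂ E,
        centerMap f γ hγ w = pt f j hj (ξ.comp ι) := by
    intro ξ hk b hb hξ
    obtain ⟨χ, hχ⟩ := exists_alg_lift m.rangeRestrict m.rangeRestrict_surjective ξ (by
      intro F hF
      apply hk
      exact congrArg Subtype.val hF)
    obtain ⟨w, hwD, hw⟩ := exists_place_dominating m.range χ (m.rangeRestrict b) (by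
      intro h0
      exact hb (congrArg Subtype.val h0)) (by rw [hχ, hξ])
    refine ⟨w, ?_⟩
    exact centerMap_eq_cpt f γ hγ w j κ.toRingHom rfl
      (fun c => hwD (m.rangeRestrict (ι c))) (ξ.comp ι).toRingHom
      (fun c => (hw (m.rangeRestrict (ι c))).trans (hχ (ι c))) (pt_aux f _ hj _)
  obtain ⟨w₁, hw₁⟩ := hex ξ₁ hk₁ b₁ hb₁ hξ₁
  obtain ⟨w₂, hw₂⟩ := hex ξ₂ hk₂ b₂ hb₂ hξ₂
  let A' : (PlaceOver ℂ E →₀ ℤ) →+ (ZeroCycle S ⧸ R) :=
    (QuotientAddGroup.mk' R).comp (Finsupp.mapDomain.addMonoidHom (centerMap f γ hγ))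
  have hA' : ∀ z, A' z = QuotientAddGroup.mk' R (Finsupp.mapDomain (centerMap f γ hγ) z) :=
    fun z => rfl
  have hdiv : ∀ F : E, A' (div ℂ F) = 0 := by
    intro F
    rw [hA']
    exact (QuotientAddGroup.eq_zero_iff _).2 (hR (pushDiv_mem_Rat f γ hγ F))
  have htwo : ∀ w w' : PlaceOver ℂ E, A' (Finsupp.single w 1) + A' (Finsupp.single w 1) =
      A' (Finsupp.single w' 1) + A' (Finsupp.single w' 1) := by
    intro w w'
    rw [← sub_eq_zero, ← map_add, ← map_add, ← map_sub, hA']
    rw [QuotientAddGroup.mk'_apply, QuotientAddGroup.eq_zero_iff]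
    have h1 := hR2 (centerMap f γ hγ w) (centerMap f γ hγ w')
    have h2 : Finsupp.mapDomain (centerMap f γ hγ) (Finsupp.single w 1 + Finsupp.single w 1 -
        (Finsupp.single w' 1 + Finsupp.single w' 1)) =
        (2 : ℤ) • (Finsupp.single (centerMap f γ hγ w) (1 : ℤ) -
          Finsupp.single (centerMap f γ hγ w') 1) := by
      have h3 : Finsupp.mapDomain (centerMap f γ hγ) = Finsupp.mapDomain.addMonoidHom
        (centerMap f γ hγ) (M := ℤ) := rfl
      rw [h3, map_sub, map_add, map_add, ← h3, Finsupp.mapDomain_single,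
        Finsupp.mapDomain_single, two_smul]
      abel
    rw [h2]
    exact h1
  have h := half_const ht q hq hθ hθK hspan A' hdiv htwo w₁ w₂
  rw [hA', hA', Finsupp.mapDomain_single, Finsupp.mapDomain_single, hw₁, hw₂,
    QuotientAddGroup.mk'_apply, QuotientAddGroup.mk'_apply, QuotientAddGroup.eq_iff_sub_mem] at h
  exact h

end

end Vale.Agent.P297
end
end

section

section

set_option linter.unusedSectionVars false
set_option linter.style.haveILetI false

open CategoryTheory AlgebraicGeometry IntermediateField Polynomial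

namespace Vale.Agent.P297

theorem exists_frac {σ : Type} {K : Type} [Field K] [Algebra ℂ K] {x : σ → K} {a : K}
    (ha : a ∈ IntermediateField.adjoin ℂ (Set.range x)) :
    ∃ u v : MvPolynomial σ ℂ, MvPolynomial.aeval x v ≠ 0 ∧
      MvPolynomial.aeval x v * a = MvPolynomial.aeval x u := by
  rw [IntermediateField.mem_adjoin_range_iff] at ha
  obtain ⟨u, v, huv⟩ := ha
  by_cases hv : MvPolynomial.aeval x v = 0
  · refine ⟨0, 1, by simp, ?_⟩
    rw [huv, hv]
    simp
  · refine ⟨u, v, hv, ?_⟩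
    rw [huv]
    field_simp

section

variable {S : Scheme.{0}} (f : S ⟶ Spec (.of ℂ)) [IsProper f] {C : Type} [CommRing C] [Algebra ℂ C]
  (j : Spec (.of C) ⟶ S)
  (hj : j ≫ f = Spec.map (CommRingCat.ofHom (algebraMap ℂ C)))

/-- Division by `X² - c`. -/
theorem exists_quad_rem {B : Type} [CommRing B] [Nontrivial B] (c : B) (F : B[X]) :
    ∃ (G : B[X]) (a b : B), F = (X ^ 2 - Polynomial.C c) * G + Polynomial.C b * X +
      Polynomial.C a := by
  have hM : (X ^ 2 - Polynomial.C c : B[X]).Monic := monic_X_pow_sub_C c two_ne_zero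
  refine ⟨F /ₘ (X ^ 2 - Polynomial.C c), (F %ₘ (X ^ 2 - Polynomial.C c)).coeff 0,
    (F %ₘ (X ^ 2 - Polynomial.C c)).coeff 1, ?_⟩
  have h1 : (F %ₘ (X ^ 2 - Polynomial.C c)).degree ≤ 1 := by
    have h2 := degree_modByMonic_lt F hM
    rw [degree_X_pow_sub_C two_pos] at h2
    exact Order.le_of_lt_succ h2
  have h3 := eq_X_add_C_of_degree_le_one h1
  conv_lhs => rw [← modByMonic_add_div F (X ^ 2 - Polynomial.C c), h3]
  ring

theorem double_generic {σ : Type} [Finite σ] [Algebra.FiniteType ℂ C] (R : AddSubgroup (ZeroCycle S))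
    (hR : Rat f ≤ R)
    (hR2 : ∀ u v : closedPoints S,
      (2 : ℤ) • (Finsupp.single u (1 : ℤ) - Finsupp.single v 1) ∈ R)
    {K : Type} [Field K] [Algebra ℂ K] (x : σ → K) (hx : AlgebraicIndependent ℂ x) (θ : K)
    (p r : MvPolynomial σ ℂ) (hp : Irreducible p) (hpr : ¬ p ∣ r)
    (hθ : θ ^ 2 = MvPolynomial.aeval x (p * r))
    (hθL : θ ∉ IntermediateField.adjoin ℂ (Set.range x))
    (hspan : ∀ y : K, ∃ a ∈ IntermediateField.adjoin ℂ (Set.range x),
      ∃ b ∈ IntermediateField.adjoin ℂ (Set.range x), y = a + b * θ)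
    (ι : C →ₐ[ℂ] K) :
    ∃ A : Subalgebra ℂ K, A.FG ∧ ∃ hA : ∀ c, ι c ∈ A, ∀ ξ₁ ξ₂ : A →ₐ[ℂ] ℂ,
      Finsupp.single (pt f j hj (ξ₁.comp (ι.codRestrict A hA))) (1 : ℤ) -
        Finsupp.single (pt f j hj (ξ₂.comp (ι.codRestrict A hA))) (1 : ℤ) ∈ R := by
  classical
  have hxinj : ∀ u : MvPolynomial σ ℂ, MvPolynomial.aeval x u = 0 → u = 0 :=
    algebraicIndependent_iff.1 hx
  obtain ⟨s, hs⟩ := (inferInstance : Algebra.FiniteType ℂ C).out
  -- denominators
  have hden : ∀ y : K, ∃ h u v : MvPolynomial σ ℂ, h ≠ 0 ∧ MvPolynomial.aeval x h * y =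
      MvPolynomial.aeval x u + MvPolynomial.aeval x v * θ := by
    intro y
    obtain ⟨a, ha, b, hb, rfl⟩ := hspan y
    obtain ⟨u₁, v₁, h₁, e₁⟩ := exists_frac ha
    obtain ⟨u₂, v₂, h₂, e₂⟩ := exists_frac hb
    refine ⟨v₁ * v₂, v₂ * u₁, v₁ * u₂, ?_, ?_⟩
    · apply mul_ne_zero
      · rintro rfl; exact h₁ (map_zero _)
      · rintro rfl; exact h₂ (map_zero _)
    · simp only [map_mul]
      linear_combination MvPolynomial.aeval x v₂ * e₁ + MvPolynomial.aeval x v₁ * θ * e₂
  choose hh hu hv hh0 hhe using hden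
  let T : Finset K := s.image ι
  let h : MvPolynomial σ ℂ := (∏ y ∈ T, hh y) * p
  have hne : h ≠ 0 := mul_ne_zero (Finset.prod_ne_zero_iff.2 fun y _ => hh0 y) hp.ne_zero
  have hhN : MvPolynomial.aeval x h ≠ 0 := fun h0 => hne (hxinj _ h0)
  have hle : Submonoid.powers h ≤ nonZeroDivisors (MvPolynomial σ ℂ) :=
    powers_le_nonZeroDivisors_of_noZeroDivisors hne
  haveI : IsDomain (Localization.Away h) := IsLocalization.isDomain_localization hle
  let P := Localization.Away h
  let i₀ : MvPolynomial σ ℂ →+* P := algebraMap (MvPolynomial σ ℂ) P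
  let PN : P →ₐ[ℂ] K := awayLift (MvPolynomial.aeval x) h hhN.isUnit
  have hPN : ∀ u, PN (i₀ u) = MvPolynomial.aeval x u := fun u =>
    awayLift_algebraMap (MvPolynomial.aeval x) h hhN.isUnit u
  have hsurj : ∀ a : P, ∃ (u : MvPolynomial σ ℂ) (n : ℕ), a * i₀ h ^ n = i₀ u := by
    intro a
    obtain ⟨⟨u, ⟨_, n, rfl⟩⟩, hun⟩ := IsLocalization.surj (Submonoid.powers h) a
    refine ⟨u, n, ?_⟩
    rw [← map_pow]
    exact hun
  have hPNL : ∀ a : P, PN a ∈ IntermediateField.adjoin ℂ (Set.range x) := by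
    intro a
    obtain ⟨u, n, hun⟩ := hsurj a
    have h1 := congrArg PN hun
    rw [map_mul, map_pow, hPN, hPN] at h1
    rw [← eq_mul_inv_iff_mul_eq₀ (pow_ne_zero n hhN)] at h1
    rw [h1, IntermediateField.mem_adjoin_range_iff]
    exact ⟨u, h ^ n, by rw [map_pow, div_eq_mul_inv]⟩
  have hPNinj : ∀ a : P, PN a = 0 → a = 0 := by
    intro a ha
    obtain ⟨u, n, hun⟩ := hsurj a
    have h1 := congrArg PN hun
    rw [map_mul, ha, zero_mul, hPN] at h1
    have h2 : u = 0 := hxinj u h1.symm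
    rw [h2, map_zero, ← map_pow] at hun
    exact (IsLocalization.map_units P (⟨h ^ n, n, rfl⟩ : Submonoid.powers h)).mul_left_eq_zero.1 hun
  let ψ : P[X] →ₐ[ℂ] K := Polynomial.eval₂AlgHom PN θ (fun _ => Commute.all _ _)
  have hψ : ∀ F, ψ F = F.eval₂ PN.toRingHom θ := fun F => rfl
  let A : Subalgebra ℂ K := ψ.range
  have hAFG : A.FG := by
    haveI : Algebra.FiniteType ℂ P := by
      haveI : Algebra.FiniteType (MvPolynomial σ ℂ) P :=
        IsLocalization.finiteType_of_monoid_fg (Submonoid.powers h) _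
      exact Algebra.FiniteType.trans (S := MvPolynomial σ ℂ) inferInstance inferInstance
    haveI : Algebra.FiniteType ℂ P[X] := Algebra.FiniteType.trans (S := P) inferInstance inferInstance
    change ψ.range.FG
    rw [← Algebra.map_top]
    exact (Algebra.FiniteType.out).map ψ
  have hgenA : ∀ c ∈ s, ι c ∈ A := by
    intro c hc
    have hy : ι c ∈ T := Finset.mem_image_of_mem _ hc
    have hdvd : hh (ι c) ∣ h := Dvd.dvd.mul_right (Finset.dvd_prod_of_mem _ hy) p
    have hunit : IsUnit (i₀ (hh (ι c))) :=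
      isUnit_of_dvd_unit (map_dvd _ hdvd) (IsLocalization.Away.algebraMap_isUnit h)
    obtain ⟨e, he⟩ := hunit
    refine ⟨Polynomial.C ((e⁻¹ : Pˣ) : P) * (Polynomial.C (i₀ (hu (ι c))) +
      Polynomial.C (i₀ (hv (ι c))) * X), ?_⟩
    change ψ _ = _
    rw [hψ]
    simp only [eval₂_mul, eval₂_C, eval₂_add, eval₂_X]
    change PN ((e⁻¹ : Pˣ) : P) * (PN (i₀ (hu (ι c))) + PN (i₀ (hv (ι c))) * θ) = ι c
    rw [hPN, hPN, ← hhe (ι c), ← hPN (hh (ι c)), ← he, ← mul_assoc, ← map_mul, Units.inv_mul,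
      map_one, one_mul]
  have hιA : ∀ c, ι c ∈ A := by
    intro c
    have hc : c ∈ Algebra.adjoin ℂ (s : Set C) := by rw [hs]; trivial
    induction hc using Algebra.adjoin_induction with
    | mem c hc => exact hgenA c hc
    | algebraMap a =>
      rw [AlgHom.commutes]
      exact Subalgebra.algebraMap_mem _ _
    | add c d _ _ hc hd => rw [map_add]; exact add_mem hc hd
    | mul c d _ _ hc hd => rw [map_mul]; exact mul_mem hc hd
  refine ⟨A, hAFG, hιA, fun ξ₁ ξ₂ => ?_⟩
  let ψr : P[X] →ₐ[ℂ] A := ψ.rangeRestrict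
  have hψr : Function.Surjective ψr := ψ.rangeRestrict_surjective
  let e₀ : MvPolynomial σ ℂ →ₐ[ℂ] A := ψr.comp ((Polynomial.CAlgHom (R := ℂ) (A := P)).comp
    (IsScalarTower.toAlgHom ℂ (MvPolynomial σ ℂ) P))
  have he₀ : ∀ u, e₀ u = ψr (Polynomial.C (i₀ u)) := fun u => rfl
  have hev : ∀ (ξ : A →ₐ[ℂ] ℂ) (u : MvPolynomial σ ℂ),
      ξ (e₀ u) = MvPolynomial.eval (fun k => ξ (e₀ (MvPolynomial.X k))) u := by
    intro ξ u
    have h1 : ξ.comp e₀ = MvPolynomial.aeval (fun k => ξ (e₀ (MvPolynomial.X k))) := by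
      apply MvPolynomial.algHom_ext
      intro k
      simp
    have h2 := DFunLike.congr_fun h1 u
    rw [MvPolynomial.aeval_eq_eval] at h2
    exact h2
  have hunith : IsUnit (e₀ h) := by
    have h1 : IsUnit (i₀ h) := IsLocalization.Away.algebraMap_isUnit h
    rw [he₀]
    exact (h1.map Polynomial.C).map ψr
  obtain ⟨a, i, hpa, hra, hda⟩ := exists_good_point hp hpr
  obtain ⟨l, hl1, hl2, hl0, P₁, hP1, hP10⟩ := exists_curve_through hpa hda
    (fun k => ξ₁ (e₀ (MvPolynomial.X k))) (fun k => ξ₂ (e₀ (MvPolynomial.X k)))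
  have heval : ∀ (c : ℂ) (u : MvPolynomial σ ℂ), (MvPolynomial.aeval l u).eval c =
      MvPolynomial.eval (fun k => (l k).eval c) u := by
    intro c u
    have h1 : (Polynomial.aeval c : ℂ[X] →ₐ[ℂ] ℂ).comp (MvPolynomial.aeval l) =
        MvPolynomial.aeval (fun k => (l k).eval c) := by
      apply MvPolynomial.algHom_ext
      intro k
      simp
    have h2 := DFunLike.congr_fun h1 u
    rw [MvPolynomial.aeval_eq_eval] at h2
    exact h2
  -- the double cover of the line
  set R₁ := MvPolynomial.aeval l r with hR₁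
  have hR₁0 : R₁.eval 0 ≠ 0 := by
    rw [hR₁, heval]
    have : (fun k => (l k).eval 0) = a := funext hl0
    rw [this]
    exact hra
  have hG0 : (P₁ * R₁).eval 0 ≠ 0 := by
    rw [eval_mul]
    exact mul_ne_zero hP10 hR₁0
  have hGne : P₁ * R₁ ≠ 0 := by
    intro h0
    rw [h0, eval_zero] at hG0
    exact hG0 rfl
  obtain ⟨q, s', hq, hqs⟩ := exists_squarefree_mul_sq (X * (P₁ * R₁)) (mul_ne_zero X_ne_zero hGne)
  have hqroot : q.IsRoot 0 := by
    by_contra hcon
    have h1 := congrArg (Polynomial.eval 0) hqs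
    rw [eval_mul, eval_X, zero_mul, eval_mul, eval_pow] at h1
    have h2 : s'.eval 0 = 0 := by
      have := (mul_eq_zero.1 h1.symm).resolve_left hcon
      exact pow_eq_zero_iff two_ne_zero |>.1 this
    obtain ⟨s'', hs''⟩ := dvd_iff_isRoot.2 (show s'.IsRoot 0 from h2)
    rw [map_zero, sub_zero] at hs''
    apply hG0
    have h3 : X * (P₁ * R₁) = X * (q * X * s'' ^ 2) := by rw [hqs, hs'']; ring
    rw [mul_left_cancel₀ X_ne_zero h3]
    simp
  obtain ⟨E, _, _, t, θ', ht, hθ', hθ'K, hspan'⟩ := exists_double_cover q hq 0 hqroot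
  haveI : IsFF ℂ E := isFF_of_quad ht hθ'K hspan'
  have htinj : ∀ u : ℂ[X], Polynomial.aeval t u = 0 → u = 0 := by
    intro u hu'
    by_contra hne'
    exact ht ⟨u, hne', hu'⟩
  have hs'0 : s' ≠ 0 := by
    rintro rfl
    apply mul_ne_zero X_ne_zero hGne
    rw [hqs]; ring
  set θE := θ' * Polynomial.aeval t s' with hθE
  have hθE2 : θE ^ 2 = Polynomial.aeval t (MvPolynomial.aeval l (p * r)) := by
    rw [hθE, mul_pow, hθ', ← map_pow, ← map_mul, ← hqs, map_mul (MvPolynomial.aeval l), hP1]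
    congr 1
    ring
  have haevK : ∀ u : ℂ[X], Polynomial.aeval t u ∈ ℂ⟮t⟯ := aeval_mem_adjoin_simple t
  have hs't : Polynomial.aeval t s' ≠ 0 := fun h0 => hs'0 (htinj s' h0)
  have hθEK : θE ∉ ℂ⟮t⟯ := by
    intro hmem
    apply hθ'K
    have h1 : θ' = θE * (Polynomial.aeval t s')⁻¹ := by
      rw [hθE, mul_inv_cancel_right₀ hs't]
    rw [h1]
    exact ℂ⟮t⟯.mul_mem hmem (ℂ⟮t⟯.inv_mem (haevK s'))
  have hlh : MvPolynomial.aeval l h ≠ 0 := by
    intro h0
    have h1 := heval 1 h
    rw [h0, eval_zero] at h1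
    have h2 : (fun k => (l k).eval 1) = fun k => ξ₁ (e₀ (MvPolynomial.X k)) := funext hl1
    rw [h2, ← hev] at h1
    exact (hunith.map ξ₁).ne_zero h1.symm
  have hlht : Polynomial.aeval t (MvPolynomial.aeval l h) ≠ 0 := fun h0 => hlh (htinj _ h0)
  let m₀ : P →ₐ[ℂ] E := awayLift ((Polynomial.aeval t).comp (MvPolynomial.aeval l)) h hlht.isUnit
  have hm₀ : ∀ u, m₀ (i₀ u) = Polynomial.aeval t (MvPolynomial.aeval l u) := fun u =>
    awayLift_algebraMap ((Polynomial.aeval t).comp (MvPolynomial.aeval l)) h hlht.isUnit u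
  have hm₀K : ∀ b : P, m₀ b ∈ ℂ⟮t⟯ := by
    intro b
    obtain ⟨u, n, hun⟩ := hsurj b
    have h1 := congrArg m₀ hun
    rw [map_mul, map_pow, hm₀, hm₀] at h1
    rw [← eq_mul_inv_iff_mul_eq₀ (pow_ne_zero n hlht)] at h1
    rw [h1]
    exact ℂ⟮t⟯.mul_mem (haevK _) (ℂ⟮t⟯.inv_mem (pow_mem (haevK _) n))
  let g : P[X] →ₐ[ℂ] E := Polynomial.eval₂AlgHom m₀ θE (fun _ => Commute.all _ _)
  have hg : ∀ F, g F = F.eval₂ m₀.toRingHom θE := fun F => rfl
  have hgform : ∀ (G : P[X]) (b c : P), g ((X ^ 2 - Polynomial.C (i₀ (p * r))) * G +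
      Polynomial.C c * X + Polynomial.C b) = m₀ b + m₀ c * θE := by
    intro G b c
    rw [hg]
    simp only [eval₂_mul, eval₂_C, eval₂_add, eval₂_sub, eval₂_X, eval₂_X_pow]
    change (θE ^ 2 - m₀ (i₀ (p * r))) * _ + m₀ c * θE + m₀ b = _
    rw [hm₀, hθE2]
    ring
  have hψform : ∀ (G : P[X]) (b c : P), ψ ((X ^ 2 - Polynomial.C (i₀ (p * r))) * G +
      Polynomial.C c * X + Polynomial.C b) = PN b + PN c * θ := by
    intro G b c
    rw [hψ]
    simp only [eval₂_mul, eval₂_C, eval₂_add, eval₂_sub, eval₂_X, eval₂_X_pow]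
    change (θ ^ 2 - PN (i₀ (p * r))) * _ + PN c * θ + PN b = _
    rw [hPN, hθ]
    ring
  have hker1 : ∀ F, ψr F = 0 → g F = 0 := by
    intro F hF
    have hF' : ψ F = 0 := congrArg Subtype.val hF
    obtain ⟨G, b, c, rfl⟩ := exists_quad_rem (i₀ (p * r)) F
    rw [hψform] at hF'
    rw [hgform]
    obtain ⟨h1, h2⟩ := quad_unique _ θ hθL (hPNL b) (hPNL c) (IntermediateField.zero_mem _)
      (IntermediateField.zero_mem _) (show PN b + PN c * θ = 0 + 0 * θ by rw [hF']; ring)
    rw [hPNinj b h1, hPNinj c h2]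
    simp
  obtain ⟨m, hm⟩ := exists_alg_lift ψr hψr g hker1
  have hP0 : ∀ (ξ : A →ₐ[ℂ] ℂ) (c : ℂ)
      (_ : ∀ k, (l k).eval c = ξ (e₀ (MvPolynomial.X k))) (b : P), m₀ b = 0 →
      ξ (ψr (Polynomial.C b)) = 0 := by
    intro ξ c hc b hb
    obtain ⟨u, n, hun⟩ := hsurj b
    have h1 := congrArg m₀ hun
    rw [map_mul, hb, zero_mul, hm₀] at h1
    have h2 : MvPolynomial.aeval l u = 0 := htinj _ h1.symm
    have h3 := heval c u
    rw [h2, eval_zero, funext hc, ← hev] at h3
    have h4 : ξ (ψr (Polynomial.C b)) * ξ (e₀ h) ^ n = ξ (e₀ u) := by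
      rw [he₀, he₀, ← hun, ← map_pow, ← map_mul, ← map_pow, ← map_mul, ← map_pow, ← map_mul]
    rw [← h3] at h4
    exact (mul_eq_zero.1 h4).resolve_right (pow_ne_zero n (hunith.map ξ).ne_zero)
  have hker2 : ∀ (ξ : A →ₐ[ℂ] ℂ) (c : ℂ)
      (_ : ∀ k, (l k).eval c = ξ (e₀ (MvPolynomial.X k))) (y : A), m y = 0 → ξ y = 0 := by
    intro ξ c hc y hy
    obtain ⟨F, rfl⟩ := hψr y
    rw [hm] at hy
    obtain ⟨G, b, b', rfl⟩ := exists_quad_rem (i₀ (p * r)) F
    rw [hgform] at hy
    obtain ⟨h1, h2⟩ := quad_unique _ θE hθEK (hm₀K b) (hm₀K b') (IntermediateField.zero_mem _)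
      (IntermediateField.zero_mem _) (show m₀ b + m₀ b' * θE = 0 + 0 * θE by rw [hy]; ring)
    have h3 := hP0 ξ c hc b h1
    have h4 := hP0 ξ c hc b' h2
    have h5 : ψr (X ^ 2 - Polynomial.C (i₀ (p * r))) = 0 := by
      apply Subtype.ext
      have h6 := hψform 1 0 0
      rw [map_zero, map_zero] at h6
      change ψ (X ^ 2 - Polynomial.C (i₀ (p * r))) = 0
      simpa using h6
    have h7 : ∀ c₀ : P, ψr (X ^ 2 - Polynomial.C c₀) = 0 →
        ξ (ψr ((X ^ 2 - Polynomial.C c₀) * G + Polynomial.C b' * X + Polynomial.C b)) = 0 := by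
      intro c₀ h5
      rw [map_add ψr, map_add ψr, map_mul ψr, map_mul ψr, h5, zero_mul, zero_add, map_add,
        map_mul, h3, h4]
      ring
    exact h7 _ h5
  have hdist : ∀ (ξ : A →ₐ[ℂ] ℂ), ∃ b : A, m b ≠ 0 ∧ ξ b = 0 := by
    intro ξ
    refine ⟨e₀ p - algebraMap ℂ A (ξ (e₀ p)), ?_, ?_⟩
    · rw [map_sub, he₀, hm, AlgHom.commutes]
      have h1 : g (Polynomial.C (i₀ p)) = Polynomial.aeval t (MvPolynomial.aeval l p) := by
        rw [hg, eval₂_C]
        exact hm₀ p
      intro h2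
      rw [h1] at h2
      have h3 : Polynomial.aeval t (MvPolynomial.aeval l p - Polynomial.C (ξ (e₀ p))) = 0 := by
        rw [map_sub, aeval_C]
        exact h2
      have h4 := htinj _ h3
      have h5 := congrArg (Polynomial.eval 0) h4
      rw [eval_sub, heval, eval_C, eval_zero, funext hl0, hpa, zero_sub, neg_eq_zero] at h5
      have h6 : IsUnit (e₀ p) := by
        have h7 : p ∣ h := Dvd.intro_left _ rfl
        exact isUnit_of_dvd_unit (map_dvd e₀ h7) hunith
      exact (h6.map ξ).ne_zero h5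
    · rw [map_sub, AlgHom.commutes]
      exact sub_self _
  obtain ⟨b₁, hb₁, hξb₁⟩ := hdist ξ₁
  obtain ⟨b₂, hb₂, hξb₂⟩ := hdist ξ₂
  exact two_points f j hj R hR hR2 ht q hq hθ' hθ'K hspan' (ι.codRestrict A hιA) m ξ₁ ξ₂
    (hker2 ξ₁ 1 hl1) (hker2 ξ₂ (-1) hl2) b₁ b₂ hb₁ hb₂ hξb₁ hξb₂

end

end Vale.Agent.P297
end
end

section

section

set_option linter.unusedSectionVars false
set_option linter.style.haveILetI false

open CategoryTheory AlgebraicGeometry IntermediateField Polynomial

namespace Vale.Agent.P297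

/-- Normal form of a quadratic extension of a purely transcendental field. -/
theorem exists_normal_form {σ : Type} {K : Type} [Field K] [Algebra ℂ K] (x : σ → K)
    (hx : AlgebraicIndependent ℂ x) (θ : K)
    (hθ : θ ^ 2 ∈ IntermediateField.adjoin ℂ (Set.range x))
    (hθL : θ ∉ IntermediateField.adjoin ℂ (Set.range x)) :
    ∃ (p r : MvPolynomial σ ℂ) (e : K), Irreducible p ∧ ¬ p ∣ r ∧ e ≠ 0 ∧
      e ∈ IntermediateField.adjoin ℂ (Set.range x) ∧
      (e * θ) ^ 2 = MvPolynomial.aeval x (p * r) := by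
  set L := IntermediateField.adjoin ℂ (Set.range x) with hL
  have hmem : ∀ u : MvPolynomial σ ℂ, MvPolynomial.aeval x u ∈ L := by
    intro u
    rw [hL, IntermediateField.mem_adjoin_range_iff]
    exact ⟨u, 1, by simp⟩
  have hxinj : ∀ u : MvPolynomial σ ℂ, MvPolynomial.aeval x u = 0 → u = 0 :=
    algebraicIndependent_iff.1 hx
  have hθ0 : θ ≠ 0 := by
    rintro rfl
    exact hθL L.zero_mem
  obtain ⟨u, v, hv, huv⟩ := exists_frac hθ
  have hu : u ≠ 0 := by
    rintro rfl
    rw [map_zero] at huv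
    exact mul_ne_zero hv (pow_ne_zero 2 hθ0) huv
  have hv' : v ≠ 0 := by
    rintro rfl
    exact hv (map_zero _)
  have h1 : (MvPolynomial.aeval x v * θ) ^ 2 = MvPolynomial.aeval x (u * v) := by
    rw [map_mul]
    linear_combination MvPolynomial.aeval x v * huv
  rcases exists_prime_decomp (u * v) (mul_ne_zero hu hv') with ⟨c, s, hcs⟩ |
    ⟨s, p, r, hs, hp, hpr, hspr⟩
  · exfalso
    apply hθL
    obtain ⟨d, hd⟩ := IsAlgClosed.exists_pow_nat_eq c (n := 2) two_pos
    rw [hcs, ← hd] at h1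
    simp only [map_mul, map_pow] at h1
    have h2 : (MvPolynomial.aeval x v * θ - MvPolynomial.aeval x (MvPolynomial.C d * s)) *
        (MvPolynomial.aeval x v * θ + MvPolynomial.aeval x (MvPolynomial.C d * s)) = 0 := by
      simp only [map_mul]
      linear_combination h1
    have h3 : MvPolynomial.aeval x v * θ ∈ L := by
      rcases mul_eq_zero.1 h2 with h | h
      · rw [sub_eq_zero.1 h]
        exact hmem _
      · rw [eq_neg_of_add_eq_zero_left h]
        exact L.neg_mem (hmem _)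
    have h4 : θ = (MvPolynomial.aeval x v)⁻¹ * (MvPolynomial.aeval x v * θ) := by
      rw [inv_mul_cancel_left₀ hv]
    rw [h4]
    exact L.mul_mem (L.inv_mem (hmem v)) h3
  · have hsx : MvPolynomial.aeval x s ≠ 0 := fun h0 => hs (hxinj s h0)
    refine ⟨p, r, MvPolynomial.aeval x v / MvPolynomial.aeval x s, hp, hpr, div_ne_zero hv hsx,
      L.div_mem (hmem v) (hmem s), ?_⟩
    rw [hspr, map_mul, map_pow] at h1
    have h5 : (MvPolynomial.aeval x v / MvPolynomial.aeval x s * θ) ^ 2 =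
        (MvPolynomial.aeval x v * θ) ^ 2 / (MvPolynomial.aeval x s) ^ 2 := by
      field_simp
    rw [h5, h1, mul_div_cancel_left₀ _ (pow_ne_zero 2 hsx)]

/-- If `2 ([u] - [v])` lies in `R` for all `u`, `v` then so does `[u] - [v]`, for a variety whose
function field is a quadratic extension of a purely transcendental field. -/
theorem half_global {S : Scheme.{0}} [IsIntegral S] (f : S ⟶ Spec (.of ℂ)) [IsProper f]
    {K : Type} [Field K] [Algebra ℂ K] (hS : IsFunctionFieldOf f K) {σ : Type} [Finite σ]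
    (x : σ → K) (hx : AlgebraicIndependent ℂ x) (θ : K)
    (hθ : θ ^ 2 ∈ IntermediateField.adjoin ℂ (Set.range x))
    (T : Set K) (hT : ∀ a ∈ T, a ∈ IntermediateField.adjoin ℂ (Set.range x) ∨ a = θ)
    (htop : IntermediateField.adjoin ℂ T = ⊤) (R : AddSubgroup (ZeroCycle S)) (hR : Rat f ≤ R)
    (hR2 : ∀ u v : closedPoints S,
      (2 : ℤ) • (Finsupp.single u (1 : ℤ) - Finsupp.single v 1) ∈ R) (u v : closedPoints S) :
    Finsupp.single u (1 : ℤ) - Finsupp.single v 1 ∈ R := by
  obtain ⟨U, hU, hne, hi⟩ := exists_chart f hS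
  letI := chartAlg f hU
  haveI := chart_finiteType f hU
  obtain ⟨i, hi, hfrac⟩ := hi
  have halg : ∀ y : K, ∃ p : Γ(S, U)[X], p ≠ 0 ∧ p.eval₂ i.toRingHom y = 0 := by
    intro y
    have h1 := exists_poly_of_algebraic i.toRingHom hi hfrac (RingHom.id K) y
      ⟨X - Polynomial.C y, X_sub_C_ne_zero y, by simp⟩
    rw [RingHom.id_comp] at h1
    exact h1
  have h1 : (1 : ℤ) • (Finsupp.single u (1 : ℤ) - Finsupp.single v 1) ∈ R := by
    by_cases hθL : θ ∈ IntermediateField.adjoin ℂ (Set.range x)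
    · refine global_of_good f hU 1 R hR i hi halg ?_ u v
      apply Good.mono hR
      apply good_trivial x hx
      rw [eq_top_iff, ← htop, IntermediateField.adjoin_le_iff]
      intro a ha
      rcases hT a ha with h | rfl
      · exact h
      · exact hθL
    · have hspan := exists_quad _ θ hθ T hT htop
      obtain ⟨p, r, e, hp, hpr, he0, he, heθ⟩ := exists_normal_form x hx θ hθ hθL
      obtain ⟨A, hA, hιA, hgen⟩ := double_generic f hU.fromSpec (chart_hj f hU) R hR hR2 x hx
        (e * θ) p r hp hpr heθ (by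
          intro hmem
          apply hθL
          have h2 : θ = e⁻¹ * (e * θ) := by rw [inv_mul_cancel_left₀ he0]
          rw [h2]
          exact IntermediateField.mul_mem _ (IntermediateField.inv_mem _ he) hmem) (by
          intro y
          obtain ⟨a, ha, b, hb, hab⟩ := hspan y
          refine ⟨a, ha, b * e⁻¹, IntermediateField.mul_mem _ hb (IntermediateField.inv_mem _ he),
            ?_⟩
          rw [hab, mul_assoc, inv_mul_cancel_left₀ he0]) i
      refine global_of_generic f hU 1 R hR i hi halg A hA hιA ?_ u v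
      intro ξ₁ ξ₂
      rw [one_smul]
      exact hgen ξ₁ ξ₂
  rw [one_smul] at h1
  exact h1

end Vale.Agent.P297
end
end

section

section

set_option linter.unusedSectionVars false
set_option linter.style.haveILetI false

open CategoryTheory AlgebraicGeometry IntermediateField Polynomial

namespace Vale.Agent.P297

/-- The function field of the family is a quadratic extension of a purely transcendental field. -/
theorem family_double {N : Type} [Field N] [Algebra ℂ N] {κ c : ℂ}
    {s t z w : N} (hst : AlgebraicIndependent ℂ ![s, t]) (hz : z ^ 2 = gg c s * Phi κ s t)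
    (hw : w ^ 2 = gg c t * Phi κ s t) (htop : IntermediateField.adjoin ℂ {s, t, z, w} = ⊤)
    {K : Type} [Field K] [Algebra ℂ K] (m : K →ₐ[ℂ] N) {σ π θ ζ : K} (hσ : m σ = s + t)
    (hπ : m π = s * t) (hθ : m θ = z + w) (hζ : m ζ = z * w)
    (hKtop : IntermediateField.adjoin ℂ {σ, π, θ, ζ} = ⊤) :
    ∃ (x : Fin 2 → K) (T : Set K), AlgebraicIndependent ℂ x ∧
      θ ^ 2 ∈ IntermediateField.adjoin ℂ (Set.range x) ∧
      (∀ a ∈ T, a ∈ IntermediateField.adjoin ℂ (Set.range x) ∨ a = θ) ∧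
      IntermediateField.adjoin ℂ T = ⊤ := by
  have hminj : Function.Injective m := m.toRingHom.injective
  have hσπ : AlgebraicIndependent ℂ ![σ, π] := by
    have h1 := indep_sym hst hz hw htop
    have h2 : m ∘ ![σ, π] = ![s + t, s * t] := by
      ext i
      fin_cases i
      · exact hσ
      · exact hπ
    rw [← h2] at h1
    exact AlgebraicIndependent.of_comp m h1
  set k := algebraMap ℂ K κ with hk
  set c' := algebraMap ℂ K c with hc'
  have hmk : m k = algebraMap ℂ N κ := m.commutes κ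
  have hmc : m c' = algebraMap ℂ N c := m.commutes c
  obtain ⟨hL, hE, h3, h4⟩ := factors_ne_zero κ hst
  set Φ : K := ((1 + k) ^ 2 * π - k * σ ^ 2) * (σ - 1 - k) * ((1 + k) * π - k * σ) with hΦ
  have hmΦ : m Φ = Phi κ s t := by
    rw [hΦ]
    simp only [map_mul, map_sub, map_add, map_pow, map_one, hmk, hσ, hπ]
    unfold Phi
    ring
  have hΦ0 : Phi κ s t ≠ 0 := mul_ne_zero (mul_ne_zero (mul_ne_zero h3 h4) hE) hL
  have hΦ0' : Φ ≠ 0 := by
    intro h
    apply hΦ0
    rw [← hmΦ, h, map_zero]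
  set ε : K := ζ / Φ with hε
  have hεΦ : ε * Φ = ζ := by rw [hε, div_mul_cancel₀ _ hΦ0']
  have hε2 : ε ^ 2 = π * (1 - σ + π) * (c' ^ 2 - c' * σ + π) := by
    apply hminj
    have h5 : (m ε) ^ 2 * (Phi κ s t) ^ 2 = gg c s * gg c t * (Phi κ s t) ^ 2 := by
      rw [← mul_pow, ← hmΦ, ← map_mul, hεΦ, hζ, mul_pow, hz, hw, hmΦ]
      ring
    have h6 := mul_right_cancel₀ (pow_ne_zero 2 hΦ0) h5
    rw [map_pow, h6]
    simp only [map_mul, map_sub, map_add, map_pow, map_one, hmc, hσ, hπ]
    unfold gg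
    ring
  have hθ2 : θ ^ 2 = Φ * (σ ^ 3 - 3 * σ * π - (1 + c') * (σ ^ 2 - 2 * π) + c' * σ + 2 * ε) := by
    apply hminj
    have h5 : m (Φ * (2 * ε)) = 2 * (z * w) := by
      rw [← hζ, ← hεΦ]
      simp only [map_mul, map_ofNat]
      ring
    have h6 : m (θ ^ 2) = z ^ 2 + w ^ 2 + 2 * (z * w) := by
      rw [map_pow, hθ]
      ring
    rw [mul_add, map_add, h5, h6, hz, hw, map_mul, hmΦ]
    simp only [map_mul, map_sub, map_add, map_pow, map_one, map_ofNat, hmc, hσ, hπ]
    unfold gg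
    ring
  obtain ⟨x, -, hσx, hπx, hεx⟩ := mem_adjoin_of_conic c hσπ hε2
  set W := IntermediateField.adjoin ℂ (Set.range x) with hW
  have hkW : k ∈ W := W.algebraMap_mem κ
  have hcW : c' ∈ W := W.algebraMap_mem c
  have h2W : (2 : K) ∈ W := ofNat_mem W 2
  have h3W : (3 : K) ∈ W := ofNat_mem W 3
  have hΦW : Φ ∈ W := by
    rw [hΦ]
    exact W.mul_mem (W.mul_mem (W.sub_mem (W.mul_mem (pow_mem (W.add_mem W.one_mem hkW) 2)
      hπx) (W.mul_mem hkW (pow_mem hσx 2))) (W.sub_mem (W.sub_mem hσx W.one_mem) hkW))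
      (W.sub_mem (W.mul_mem (W.add_mem W.one_mem hkW) hπx) (W.mul_mem hkW hσx))
  have hθmem : θ ^ 2 ∈ W := by
    rw [hθ2]
    refine W.mul_mem hΦW ?_
    refine W.add_mem (W.add_mem (W.sub_mem (W.sub_mem (pow_mem hσx 3) (W.mul_mem (W.mul_mem h3W hσx)
      hπx)) (W.mul_mem (W.add_mem W.one_mem hcW) (W.sub_mem (pow_mem hσx 2) (W.mul_mem h2W hπx))))
      (W.mul_mem hcW hσx)) (W.mul_mem h2W hεx)
  refine ⟨x, {σ, π, θ, ζ}, ?_, hθmem, ?_, hKtop⟩
  · apply algIndep_of_trdeg hσπ x
    apply isAlgebraic_quad W θ hθmem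
    apply exists_quad W θ hθmem {σ, π, θ, ζ} _ hKtop
    rintro a (rfl | rfl | rfl | rfl)
    · exact Or.inl hσx
    · exact Or.inl hπx
    · exact Or.inr rfl
    · left
      rw [← hεΦ]
      exact W.mul_mem hεx hΦW
  · rintro a (rfl | rfl | rfl | rfl)
    · exact Or.inl hσx
    · exact Or.inl hπx
    · exact Or.inr rfl
    · left
      rw [← hεΦ]
      exact W.mul_mem hεx hΦW

/-- Any two closed points are rationally equivalent. -/
theorem dihedral_one {N : Type} [Field N] [Algebra ℂ N] {κ c : ℂ} (hκ : κ ≠ -1) (hκc : κ ≠ c)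
    {s t z w : N} (hst : AlgebraicIndependent ℂ ![s, t]) (hz : z ^ 2 = gg c s * Phi κ s t)
    (hw : w ^ 2 = gg c t * Phi κ s t)
    {S : Scheme.{0}} [IsIntegral S] (f : S ⟶ Spec (.of ℂ)) [IsProper f]
    (hS : IsFunctionFieldOf f (IntermediateField.adjoin ℂ {s + t, s * t, z + w, z * w}))
    (x y : closedPoints S) : RatEquiv f x y := by
  obtain ⟨N₀, s₀, t₀, z₀, w₀, m, σ, π, θ, ζ, hst₀, hz₀, hw₀, htop, hσ, hπ, hθ, hζ, hKtop⟩ :=
    exists_setup hst hz hw
  obtain ⟨x', T, hx', hθ2, hT, hTtop⟩ :=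
    family_double hst₀ hz₀ hw₀ htop m hσ hπ hθ hζ hKtop
  exact half_global f hS x' hx' θ hθ2 T hT hTtop (Rat f) le_rfl
    (dihedral_two hκ hκc hst hz hw f hS) x y

end Vale.Agent.P297
end
end
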